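import Vale.Agent.P106.U.H833.Near

/-!
# P106 / U / H931 : [TELE-REG], telescoping when the cells are nested only after a gain of time levels (helper931)

`hc P (C i) (C j) ≤ ν i` only for `a i + K1 ≤ a j`.
-/

set_option autoImplicit false

namespace Vale.Agent.P106.U.H931

open Finset Vale.Agent.P127 Vale.Agent.P127.Stk Vale.Agent.P127.U.Cell
open Vale.Agent.P106.U.H833 (hc_le_near mi_near)

section real

/-- a bounded nonincreasing function: the sum of the increments over `L` steps -/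
theorem sum_anti {Ψ : ℕ → ℝ} {H : ℝ} (h0 : ∀ j, 0 ≤ Ψ j) (hH : ∀ j, Ψ j ≤ H) (n L : ℕ) :
    ∑ j ∈ range n, (Ψ j - Ψ (j + L)) ≤ L * H := by
  rw [sum_tele Ψ]
  have h : ∀ j ∈ range L, Ψ j - Ψ (n + j) ≤ H := fun j _ => by
    have h1 := h0 (n + j)
    have h2 := hH j
    linarith
  refine (Finset.sum_le_sum h).trans ?_
  rw [Finset.sum_const, card_range, nsmul_eq_mul]

/-- the lower envelope: nonincreasing, `≤ H`, below `f i` after the gain `K1` from `i` -/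
theorem envelope (a : ℕ → ℕ) (f : ℕ → ℝ) (n K1 : ℕ) {H : ℝ} (hH : 0 ≤ H) (ha : ∀ i j, i ≤ j → j ≤ n → a i ≤ a j)
    (hf : ∀ i ≤ n, 0 ≤ f i) :
    ∃ Ψ : ℕ → ℝ, (∀ j, 0 ≤ Ψ j) ∧ (∀ j, Ψ j ≤ H) ∧ (∀ i j, i ≤ j → Ψ j ≤ Ψ i) ∧
      (∀ i j, i ≤ n → j ≤ n → a i + K1 ≤ a j → Ψ j ≤ f i) ∧
      ∀ j ≤ n, ∀ x ≤ H, (∀ i ≤ n, a i + K1 ≤ a j → x ≤ f i) → x ≤ Ψ j := by
  classical
  set S : ℕ → Finset ℕ := fun j => (range (n + 1)).filter fun i => a i + K1 ≤ a (min j n) with hS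
  have memS : ∀ j i, i ∈ S j ↔ i ≤ n ∧ a i + K1 ≤ a (min j n) := fun j i => by
    simp only [hS, Finset.mem_filter, Finset.mem_range]
    omega
  set g : ℕ → Option ℕ → ℝ := fun _ o => match o with
    | none => H
    | some i => f i with hg
  have hne : ∀ j, (insertNone (S j)).Nonempty := fun j => ⟨none, by simp⟩
  refine ⟨fun j => (insertNone (S j)).inf' (hne j) (g j), ?_, ?_, ?_, ?_, ?_⟩
  · intro j
    refine (Finset.le_inf'_iff _ _).2 fun o ho => ?_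
    cases o with
    | none => exact hH
    | some i =>
      rw [Finset.some_mem_insertNone] at ho
      exact hf i ((memS j i).1 ho).1
  · intro j
    exact Finset.inf'_le (g j) (by simp : none ∈ insertNone (S j))
  · intro i j hij
    refine (Finset.le_inf'_iff _ _).2 fun o ho => ?_
    cases o with
    | none => exact Finset.inf'_le (g j) (by simp : none ∈ insertNone (S j))
    | some k =>
      rw [Finset.some_mem_insertNone] at ho
      have h1 := (memS i k).1 ho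
      have h2 : k ∈ S j := (memS j k).2 ⟨h1.1, h1.2.trans (ha _ _ (by omega) (by omega))⟩
      exact Finset.inf'_le (g j) (Finset.some_mem_insertNone.2 h2)
  · intro i j hi hj h
    have h2 : i ∈ S j := (memS j i).2 ⟨hi, by rwa [min_eq_left hj]⟩
    exact Finset.inf'_le (g j) (Finset.some_mem_insertNone.2 h2)
  · intro j hj x hx h
    refine (Finset.le_inf'_iff _ _).2 fun o ho => ?_
    cases o with
    | none => exact hx
    | some i =>
      rw [Finset.some_mem_insertNone] at ho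
      have h1 := (memS j i).1 ho
      rw [min_eq_left hj] at h1
      exact h i h1.1 h1.2

end real

section

variable {Ω : Type} [Fintype Ω] (P : Law Ω) {S U : Type*}

/-- **[TELE-REG]** -/
theorem tele_reg (X : Ω → U) (C : ℕ → Ω → S) (a : ℕ → ℕ) (ν : ℕ → ℝ) (n K1 L N : ℕ) {H : ℝ}
    (ha : ∀ i j, i ≤ j → j ≤ n → a i ≤ a j) (hν0 : ∀ i ≤ n, 0 ≤ ν i)
    (hν : ∀ i j, i ≤ n → j ≤ n → a i + K1 ≤ a j → hc P (C i) (C j) ≤ ν i)
    (hH : ∀ i ≤ n, hc P X (C i) ≤ H) (G : Finset (ℕ × ℕ))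
    (hG : ∀ p ∈ G, p.1 < n ∧ p.2 ≤ n ∧ a p.1 + K1 ≤ a p.2 ∧ ∃ i1 ≤ n, a p.2 + K1 ≤ a i1 ∧ i1 ≤ p.1 + L)
    (hN : ∀ j, (G.filter fun p => p.1 = j).card ≤ N) :
    ∑ p ∈ G, mi P X (C p.2) (C p.1) ≤ N * (L * H) + ∑ p ∈ G, (ν p.1 + ν p.2) := by
  classical
  have hH0 : 0 ≤ H := (hc_nonneg P X (C 0)).trans (hH 0 (Nat.zero_le n))
  obtain ⟨Ψ, p0, pH, pm, pf, pg⟩ := envelope a (fun i => hc P X (C i) + ν i) n K1 hH0 ha
    (fun i hi => add_nonneg (hc_nonneg P X (C i)) (hν0 i hi))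
  have hC : ∀ j ≤ n, hc P X (C j) ≤ Ψ j := by
    intro j hj
    refine pg j hj _ (hH j hj) fun i hi h => ?_
    have h1 := hc_le_near P X (C i) (C j)
    have h2 : hc P X (fun ω => (C j ω, C i ω)) ≤ hc P X (C i) :=
      hc_mono_right P X fun _ _ _ _ e => congrArg Prod.snd e
    have h3 := hν i j hi hj h
    linarith
  have h1 : ∀ p ∈ G, mi P X (C p.2) (C p.1) ≤ (Ψ p.1 - Ψ (p.1 + L)) + (ν p.1 + ν p.2) := by
    intro p hp
    obtain ⟨g1, g2, g3, i1, g4, g5, g6⟩ := hG p hp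
    have f1 := mi_near P X (C p.1) (C p.2)
    have f2 := hν p.1 p.2 g1.le g2 g3
    have f3 := hC p.1 g1.le
    have f4 := pf p.2 i1 g2 g4 g5
    have f5 := pm i1 (p.1 + L) g6
    linarith
  refine (Finset.sum_le_sum h1).trans ?_
  rw [Finset.sum_add_distrib]
  have h2 : ∑ p ∈ G, (Ψ p.1 - Ψ (p.1 + L)) ≤ N * (L * H) := by
    have e1 : ∑ p ∈ G, (Ψ p.1 - Ψ (p.1 + L)) = ∑ j ∈ range n, ∑ p ∈ G with p.1 = j, (Ψ p.1 - Ψ (p.1 + L)) :=
      (Finset.sum_fiberwise_of_maps_to (fun p hp => Finset.mem_range.2 (hG p hp).1) _).symm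
    have e2 : ∀ j ∈ range n, ∑ p ∈ G with p.1 = j, (Ψ p.1 - Ψ (p.1 + L)) ≤ N * (Ψ j - Ψ (j + L)) := by
      intro j _
      have e3 : ∑ p ∈ G with p.1 = j, (Ψ p.1 - Ψ (p.1 + L)) = ∑ p ∈ G with p.1 = j, (Ψ j - Ψ (j + L)) :=
        Finset.sum_congr rfl fun p hp => by rw [(Finset.mem_filter.1 hp).2]
      rw [e3, Finset.sum_const, nsmul_eq_mul]
      have e4 : 0 ≤ Ψ j - Ψ (j + L) := sub_nonneg.2 (pm j (j + L) (by omega))
      exact mul_le_mul_of_nonneg_right (by exact_mod_cast hN j) e4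
    rw [e1]
    refine (Finset.sum_le_sum e2).trans ?_
    rw [← Finset.mul_sum]
    exact mul_le_mul_of_nonneg_left (sum_anti p0 pH n L) (Nat.cast_nonneg _)
  linarith

/-- one target per step -/
theorem tele_reg1 (X : Ω → U) (C : ℕ → Ω → S) (a : ℕ → ℕ) (ν : ℕ → ℝ) (n K1 L : ℕ) {H : ℝ}
    (ha : ∀ i j, i ≤ j → j ≤ n → a i ≤ a j) (hν0 : ∀ i ≤ n, 0 ≤ ν i)
    (hν : ∀ i j, i ≤ n → j ≤ n → a i + K1 ≤ a j → hc P (C i) (C j) ≤ ν i)
    (hH : ∀ i ≤ n, hc P X (C i) ≤ H) (s : Finset ℕ) (i' : ℕ → ℕ)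
    (hs : ∀ j ∈ s, j < n ∧ i' j ≤ n ∧ a j + K1 ≤ a (i' j) ∧ ∃ i1 ≤ n, a (i' j) + K1 ≤ a i1 ∧ i1 ≤ j + L) :
    ∑ j ∈ s, mi P X (C (i' j)) (C j) ≤ L * H + ∑ j ∈ s, (ν j + ν (i' j)) := by
  classical
  have hinj : ∀ x ∈ s, ∀ y ∈ s, (fun j => (j, i' j)) x = (fun j => (j, i' j)) y → x = y :=
    fun x _ y _ e => congrArg Prod.fst e
  have h := tele_reg P X C a ν n K1 L 1 ha hν0 hν hH (s.image fun j => (j, i' j)) (by
    intro p hp
    obtain ⟨j, hj, rfl⟩ := Finset.mem_image.1 hp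
    exact hs j hj) (by
    intro j
    refine Finset.card_le_one.2 fun p hp q hq => ?_
    rw [Finset.mem_filter, Finset.mem_image] at hp hq
    obtain ⟨⟨x, _, rfl⟩, hx⟩ := hp
    obtain ⟨⟨y, _, rfl⟩, hy⟩ := hq
    simp only at hx hy
    rw [hx, hy])
  rw [Finset.sum_image hinj, Finset.sum_image hinj] at h
  simpa using h

end

end Vale.Agent.P106.U.H931
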