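import Vale.Agent.P106.U.H118.Sum
import Vale.Agent.P106.U.H931.Tele

/-!
# P106 / U / H931 : [NXT], next a-step, exceptional steps, lookahead index (helper931)

Over `H118.Sdat`.

* `nx n a j` : the first a-step `≥ j` (`n` if there is none); for a step `j` the good a-step of the level
  `a (j+1)` is `nx n a (j+1)`.
* `XN` : exceptional steps, `card_XN`, `nx_counted` : a counted step outside `XN` has a good `nx (j+1)`, on the
  same level, after a rise at most `M`; `sum_nx` : multiplicity `M + 1`.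
* `lvi n a v` : the first index with `v ≤ a x`; the lookahead index of `k` is `lvi n a (a k + K1)`.
* `Adm` : admissible pairs (step, end of the window), `adm_lvi`, `sum_lvi` (multiplicity `L2 + 1`).
* `f1_sum` : the sum of the informations between `j + 1` and the lookahead index.
-/

set_option autoImplicit false

namespace Vale.Agent.P106.U.H931

open Finset
open Vale.Agent.P106.U.H118 (Sdat CS mem_CS rmono)

section nxt

open Classical in
/-- the first a-step `≥ j` (`n` if there is none) -/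
noncomputable def nx (n : ℕ) (a : ℕ → ℕ) (j : ℕ) : ℕ :=
  if h : ∃ q, j ≤ q ∧ q < n ∧ a (q + 1) = a q + 1 then Nat.find h else n

variable {n : ℕ} {g : ℕ → Prop} {a R : ℕ → ℕ}

theorem nx_le (n : ℕ) (a : ℕ → ℕ) (j : ℕ) : nx n a j ≤ n := by
  classical
  unfold nx
  split_ifs with h
  · exact (Nat.find_spec h).2.1.le
  · exact le_rfl

theorem le_nx {j : ℕ} (hj : j ≤ n) : j ≤ nx n a j := by
  classical
  unfold nx
  split_ifs with h
  · exact (Nat.find_spec h).1
  · exact hj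

theorem nx_spec {j : ℕ} (h : nx n a j < n) : a (nx n a j + 1) = a (nx n a j) + 1 := by
  classical
  unfold nx at h ⊢
  split_ifs at h ⊢ with h1
  · exact (Nat.find_spec h1).2.2
  · exact absurd h (lt_irrefl _)

theorem not_step {j x : ℕ} (h1 : j ≤ x) (h2 : x < nx n a j) : a (x + 1) ≠ a x + 1 := by
  classical
  intro h3
  have h4 : x < n := h2.trans_le (nx_le n a j)
  have h : ∃ q, j ≤ q ∧ q < n ∧ a (q + 1) = a q + 1 := ⟨x, h1, h4, h3⟩
  unfold nx at h2
  rw [dif_pos h] at h2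
  exact Nat.find_min h h2 ⟨h1, h4, h3⟩

theorem nx_const (D : Sdat n g a R) {j x : ℕ} (h1 : j ≤ x) (h2 : x ≤ nx n a j) : a x = a j := by
  induction x, h1 using Nat.le_induction with
  | base => rfl
  | succ x h ih =>
    rw [← ih (by omega)]
    rcases D.ha x (by have := nx_le n a j; omega) with h3 | h3
    · exact h3
    · exact absurd h3.1 (not_step (n := n) h (by omega))

/-- an a-step on the level of `j` -/
theorem nx_unique (D : Sdat n g a R) {j q : ℕ} (hjq : j ≤ q) (hq : q < n) (h : a (q + 1) = a q + 1)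
    (hl : a q = a j) : nx n a j = q := by
  have h1 : nx n a j ≤ q := by
    by_contra h2
    exact not_step (n := n) hjq (by omega) h
  rcases h1.lt_or_eq with h2 | h2
  · have h3 := nx_spec (n := n) (a := a) (j := j) (by omega)
    have h4 := nx_const D (le_nx (n := n) (a := a) (by omega : j ≤ n)) le_rfl
    have h5 := D.am (by omega : nx n a j + 1 ≤ q) hq.le
    omega
  · exact h2

theorem nx_self (D : Sdat n g a R) {j : ℕ} (hj : j < n) (h : a (j + 1) = a j + 1) : nx n a j = j :=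
  nx_unique D le_rfl hj h rfl

theorem nx_eq (D : Sdat n g a R) {j x : ℕ} (h1 : j ≤ x) (h2 : x ≤ nx n a j) : nx n a x = nx n a j := by
  rcases (nx_le n a j).lt_or_eq with h3 | h3
  · exact nx_unique D h2 h3 (nx_spec h3) (by
      rw [nx_const D (le_nx (by omega)) le_rfl, nx_const D h1 h2])
  · rcases (nx_le n a x).lt_or_eq with h4 | h4
    · exfalso
      have h5 := nx_spec h4
      exact not_step (n := n) (j := j) (h1.trans (le_nx (n := n) (a := a) (by omega))) (by omega) h5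
    · rw [h3, h4]

theorem nx_mono (D : Sdat n g a R) {j k : ℕ} (h : j ≤ k) (hk : k ≤ n) : nx n a j ≤ nx n a k := by
  by_cases h1 : k ≤ nx n a j
  · rw [nx_eq D h h1]
  · have := le_nx (n := n) (a := a) hk
    omega

open Classical in
/-- exceptional steps : `E`, and the a-steps whose next a-step is missing, in `E`, or far away in `R` -/
noncomputable def XN (M n : ℕ) (a R : ℕ → ℕ) (E : Finset ℕ) : Finset ℕ :=
  E ∪ (range n).filter fun j => a (j + 1) = a j + 1 ∧
    (nx n a (j + 1) = n ∨ nx n a (j + 1) ∈ E ∨ R (j + 1) + M < R (nx n a (j + 1)))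

theorem mem_XN {M : ℕ} {E : Finset ℕ} {j : ℕ} : j ∈ XN M n a R E ↔ j ∈ E ∨ (j < n ∧ a (j + 1) = a j + 1 ∧
    (nx n a (j + 1) = n ∨ nx n a (j + 1) ∈ E ∨ R (j + 1) + M < R (nx n a (j + 1)))) := by
  classical
  unfold XN
  rw [Finset.mem_union, Finset.mem_filter, Finset.mem_range]

/-- two a-steps with the same next a-step -/
theorem nx_inj {j k : ℕ} (hj : j < n) (hk : k < n) (h1 : a (j + 1) = a j + 1)
    (h2 : a (k + 1) = a k + 1) (h : nx n a (j + 1) = nx n a (k + 1)) : j = k := by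
  rcases lt_trichotomy j k with h3 | h3 | h3
  · exfalso
    have h4 := le_nx (n := n) (a := a) (by omega : k + 1 ≤ n)
    exact not_step (n := n) (j := j + 1) (by omega) (by omega) h2
  · exact h3
  · exfalso
    have h4 := le_nx (n := n) (a := a) (by omega : j + 1 ≤ n)
    exact not_step (n := n) (j := k + 1) (by omega) (by omega) h1

theorem Sdat.rm (D : Sdat n g a R) {i j : ℕ} (hij : i ≤ j) (hj : j ≤ n) : R i ≤ R j := rmono D.hr hij hj

theorem Sdat.r1 (D : Sdat n g a R) {i : ℕ} (hi : i < n) : R (i + 1) ≤ R i + 1 := by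
  rcases D.hr i hi with h | h <;> omega

/-- disjoint stretches of rise `> M` -/
theorem card_long (D : Sdat n g a R) (M : ℕ) (T : Finset ℕ)
    (hT : ∀ j ∈ T, j < n ∧ a (j + 1) = a j + 1 ∧ R (j + 1) + M < R (nx n a (j + 1))) :
    (M + 1) * T.card ≤ R n - R 0 := by
  classical
  have key : ∀ N, ∀ T : Finset ℕ, (∀ j ∈ T, j < N ∧ j < n ∧ a (j + 1) = a j + 1 ∧
      R (j + 1) + M < R (nx n a (j + 1)) ∧ nx n a (j + 1) ≤ N) → N ≤ n → (M + 1) * T.card + R 0 ≤ R N := by
    intro N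
    induction N using Nat.strong_induction_on with
    | _ N ih =>
      intro T hT hN
      rcases T.eq_empty_or_nonempty with rfl | hne
      · simp only [card_empty, mul_zero, zero_add]
        exact Sdat.rm D (Nat.zero_le N) hN
      · set j := T.max' hne with hj
        have hjT : j ∈ T := T.max'_mem hne
        obtain ⟨h1, h2, h3, h4, h5⟩ := hT j hjT
        have h6 := ih j h1 (T.erase j) (by
          intro i hi
          obtain ⟨hne', hiT⟩ := Finset.mem_erase.1 hi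
          obtain ⟨g1, g2, g3, g4, g5⟩ := hT i hiT
          have g6 : i ≤ j := T.le_max' i hiT
          have g7 : i < j := by omega
          refine ⟨g7, g2, g3, g4, ?_⟩
          by_contra g8
          exact not_step (n := n) (j := i + 1) (by omega) (by omega) h3) (by omega)
        rw [Finset.card_erase_of_mem hjT] at h6
        have h7 : 0 < T.card := Finset.card_pos.2 hne
        have h8 := Sdat.rm D (by omega : j ≤ j + 1) (by omega)
        have h9 := Sdat.rm D h5 hN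
        obtain ⟨c, hc⟩ : ∃ c, T.card = c + 1 := ⟨T.card - 1, by omega⟩
        rw [hc, Nat.add_sub_cancel] at h6
        rw [hc, Nat.mul_succ]
        omega
  have h := key n T (fun j hj => by
    obtain ⟨h1, h2, h3⟩ := hT j hj
    exact ⟨h1, h1, h2, h3, nx_le n a _⟩) le_rfl
  omega

/-- the number of the exceptional steps -/
theorem card_XN (D : Sdat n g a R) (M : ℕ) (E : Finset ℕ) :
    (M + 1) * (XN M n a R E).card ≤ (M + 1) * (2 * E.card + 1) + (R n - R 0) := by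
  classical
  set A : Finset ℕ := (range n).filter fun j => a (j + 1) = a j + 1 with hA
  set T1 := A.filter fun j => nx n a (j + 1) = n with hT1
  set T2 := A.filter fun j => nx n a (j + 1) ∈ E with hT2
  set T3 := A.filter fun j => R (j + 1) + M < R (nx n a (j + 1)) with hT3
  have memA : ∀ j, j ∈ A ↔ j < n ∧ a (j + 1) = a j + 1 := fun j => by
    rw [hA, Finset.mem_filter, Finset.mem_range]
  have h0 : XN M n a R E ⊆ ((E ∪ T1) ∪ T2) ∪ T3 := by
    intro j hj
    rw [Finset.mem_union, Finset.mem_union, Finset.mem_union]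
    rcases mem_XN.1 hj with h | ⟨h1, h2, h3 | h3 | h3⟩
    · exact Or.inl (Or.inl (Or.inl h))
    · exact Or.inl (Or.inl (Or.inr (Finset.mem_filter.2 ⟨(memA j).2 ⟨h1, h2⟩, h3⟩)))
    · exact Or.inl (Or.inr (Finset.mem_filter.2 ⟨(memA j).2 ⟨h1, h2⟩, h3⟩))
    · exact Or.inr (Finset.mem_filter.2 ⟨(memA j).2 ⟨h1, h2⟩, h3⟩)
  have inj : Set.InjOn (fun j => nx n a (j + 1)) (A : Set ℕ) := by
    intro j hj k hk h
    rw [Finset.mem_coe, memA] at hj hk
    exact nx_inj hj.1 hk.1 hj.2 hk.2 h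
  have h1 : T1.card ≤ 1 := by
    refine Finset.card_le_one.2 fun j hj k hk => ?_
    rw [hT1, Finset.mem_filter] at hj hk
    exact inj (Finset.mem_coe.2 hj.1) (Finset.mem_coe.2 hk.1) (by simp only [hj.2, hk.2])
  have h2 : T2.card ≤ E.card := by
    refine Finset.card_le_card_of_injOn (fun j => nx n a (j + 1)) (fun j hj => ?_) ?_
    · rw [hT2, Finset.mem_coe, Finset.mem_filter] at hj
      exact hj.2
    · intro j hj k hk h
      rw [hT2, Finset.mem_coe, Finset.mem_filter] at hj hk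
      exact inj (Finset.mem_coe.2 hj.1) (Finset.mem_coe.2 hk.1) h
  have h3 : (M + 1) * T3.card ≤ R n - R 0 := card_long D M T3 fun j hj => by
    rw [hT3, Finset.mem_filter, memA] at hj
    exact ⟨hj.1.1, hj.1.2, hj.2⟩
  have h4 := Finset.card_le_card h0
  have h5 := Finset.card_union_le ((E ∪ T1) ∪ T2) T3
  have h6 := Finset.card_union_le (E ∪ T1) T2
  have h7 := Finset.card_union_le E T1
  have h8 : (XN M n a R E).card ≤ (2 * E.card + 1) + T3.card := by omega
  have h9 := Nat.mul_le_mul_left (M + 1) h8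
  rw [Nat.mul_add] at h9
  omega

theorem card_XN_real (D : Sdat n g a R) (M : ℕ) (E : Finset ℕ) :
    ((XN M n a R E).card : ℝ) ≤ 2 * (E.card : ℝ) + 1 + ((R n : ℝ) - R 0) / ((M : ℝ) + 1) := by
  have h := card_XN D M E
  have h1 := Sdat.rm D (Nat.zero_le n) le_rfl
  have h2 : ((M : ℝ) + 1) * (XN M n a R E).card ≤ ((M : ℝ) + 1) * (2 * E.card + 1) + ((R n : ℝ) - R 0) := by
    rw [← Nat.cast_sub h1]
    exact_mod_cast h
  have h3 : (0 : ℝ) < (M : ℝ) + 1 := by positivity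
  have h4 : ((M : ℝ) + 1) * (((R n : ℝ) - R 0) / ((M : ℝ) + 1)) = (R n : ℝ) - R 0 := by
    field_simp
  refine le_of_mul_le_mul_left ?_ h3
  rw [mul_add, h4]
  exact h2

/-- a counted step outside `XN` -/
theorem nx_counted (D : Sdat n g a R) {E : Finset ℕ} (hE : ∀ i < n, a (i + 1) = a i + 1 → ¬ g i → i ∈ E)
    {M i k j : ℕ} (hk : k ≤ n) (hj : j ∈ CS M n g a R i k) (hX : j ∉ XN M n a R E) :
    j < nx n a (j + 1) ∧ nx n a (j + 1) < n ∧ g (nx n a (j + 1)) ∧ a (nx n a (j + 1)) = a (j + 1) ∧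
      R (nx n a (j + 1)) ≤ R (j + 1) + M := by
  rw [mem_CS] at hj
  obtain ⟨⟨_, h2⟩, h3⟩ := hj
  have hjn : j < n := by omega
  have h0 := le_nx (n := n) (a := a) (by omega : j + 1 ≤ n)
  have hc := nx_const D h0 le_rfl
  rcases h3 with h3 | ⟨h3, q, q1, q2, q3, q4, q5⟩
  · rw [mem_XN] at hX
    push Not at hX
    obtain ⟨_, h5⟩ := hX
    obtain ⟨h6, h7, h8⟩ := h5 hjn h3
    have h9 : nx n a (j + 1) < n := lt_of_le_of_ne (nx_le n a _) h6
    refine ⟨by omega, h9, ?_, hc, h8⟩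
    by_contra h10
    exact h7 (hE _ h9 (nx_spec h9) h10)
  · have h5 : a (j + 1) = a j := by
      rcases D.ha j hjn with h6 | h6 <;> omega
    have h6 : nx n a (j + 1) = q := nx_unique D (by omega) q2 (D.ga q q2 q3) (by omega)
    rw [h6]
    exact ⟨q1, q2, q3, by omega, by omega⟩

/-- multiplicity of `nx` -/
theorem mult_nx (D : Sdat n g a R) {E : Finset ℕ} {M : ℕ} (q : ℕ) :
    ((CS M n g a R 0 n \ XN M n a R E).filter fun j => nx n a (j + 1) = q).card ≤ M + 1 := by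
  classical
  set S := (CS M n g a R 0 n \ XN M n a R E).filter fun j => nx n a (j + 1) = q with hS
  set S1 := S.filter fun j => a (j + 1) = a j + 1 with hS1
  set S2 := S.filter fun j => ¬ a (j + 1) = a j + 1 with hS2
  have memS : ∀ j ∈ S, j < n ∧ nx n a (j + 1) = q ∧ (a (j + 1) = a j + 1 ∨
      (R (j + 1) = R j + 1 ∧ R q ≤ R j + M)) := by
    intro j hj
    rw [hS, Finset.mem_filter, Finset.mem_sdiff, mem_CS] at hj
    obtain ⟨⟨⟨⟨_, h1⟩, h2⟩, _⟩, h3⟩ := hj
    refine ⟨h1, h3, ?_⟩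
    rcases h2 with h2 | ⟨h2, q', q1, q2, q3, q4, q5⟩
    · exact Or.inl h2
    · have h5 : a (j + 1) = a j := by
        rcases D.ha j h1 with h6 | h6 <;> omega
      have h6 : nx n a (j + 1) = q' := nx_unique D (by omega) q2 (D.ga q' q2 q3) (by omega)
      rw [h3] at h6
      rw [h6]
      exact Or.inr ⟨h2, q5⟩
  have h1 : S1.card ≤ 1 := by
    refine Finset.card_le_one.2 fun j hj k hk => ?_
    rw [hS1, Finset.mem_filter] at hj hk
    obtain ⟨e1, e2, _⟩ := memS j hj.1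
    obtain ⟨e1', e2', _⟩ := memS k hk.1
    exact nx_inj e1 e1' hj.2 hk.2 (by rw [e2, e2'])
  have h2 : S2.card ≤ M := by
    have hc : (Ico (R q - M) (R q)).card ≤ M := by
      rw [Nat.card_Ico]
      omega
    refine (Finset.card_le_card_of_injOn R ?_ ?_).trans hc
    · intro j hj
      rw [hS2, Finset.mem_coe, Finset.mem_filter] at hj
      obtain ⟨e1, e2, e3⟩ := memS j hj.1
      rcases e3 with e3 | ⟨e3, e4⟩
      · exact absurd e3 hj.2
      · have e5 := le_nx (n := n) (a := a) (by omega : j + 1 ≤ n)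
        have e6 := Sdat.rm D e5 (nx_le n a _)
        rw [Finset.mem_coe, Finset.mem_Ico]
        rw [e2] at e6
        omega
    · intro j hj k hk h
      rw [hS2, Finset.mem_coe, Finset.mem_filter] at hj hk
      obtain ⟨e1, e2, e3⟩ := memS j hj.1
      obtain ⟨e1', e2', e3'⟩ := memS k hk.1
      have e4 : R (j + 1) = R j + 1 := by
        rcases e3 with e3 | ⟨e3, e4⟩
        · exact absurd e3 hj.2
        · exact e3
      have e4' : R (k + 1) = R k + 1 := by
        rcases e3' with e3 | ⟨e3, e4⟩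
        · exact absurd e3 hk.2
        · exact e3
      rcases lt_trichotomy j k with h3 | h3 | h3
      · have := Sdat.rm D (by omega : j + 1 ≤ k) e1'.le
        omega
      · exact h3
      · have := Sdat.rm D (by omega : k + 1 ≤ j) e1.le
        omega
  have h3 : S1.card + S2.card = S.card :=
    Finset.card_filter_add_card_filter_not (s := S) (fun j => a (j + 1) = a j + 1)
  omega

open Classical in
/-- **the sum over the counted steps of a function of the next a-step** -/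
theorem sum_nx (D : Sdat n g a R) {E : Finset ℕ} (hE : ∀ i < n, a (i + 1) = a i + 1 → ¬ g i → i ∈ E)
    {M : ℕ} (f : ℕ → ℝ) (hf : ∀ q, q < n → g q → 0 ≤ f q) :
    ∑ j ∈ CS M n g a R 0 n \ XN M n a R E, f (nx n a (j + 1)) ≤
      ((M : ℝ) + 1) * ∑ q ∈ (range n).filter g, f q := by
  have h1 : ∀ j ∈ CS M n g a R 0 n \ XN M n a R E, nx n a (j + 1) ∈ (range n).filter g := by
    intro j hj
    rw [Finset.mem_sdiff] at hj
    obtain ⟨_, h2, h3, _⟩ := nx_counted D hE le_rfl hj.1 hj.2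
    rw [Finset.mem_filter, Finset.mem_range]
    exact ⟨h2, h3⟩
  rw [← Finset.sum_fiberwise_of_maps_to h1, Finset.mul_sum]
  refine Finset.sum_le_sum fun q hq => ?_
  rw [Finset.mem_filter, Finset.mem_range] at hq
  have h2 : ∑ j ∈ (CS M n g a R 0 n \ XN M n a R E).filter (fun j => nx n a (j + 1) = q),
      f (nx n a (j + 1)) = ∑ j ∈ (CS M n g a R 0 n \ XN M n a R E).filter (fun j => nx n a (j + 1) = q), f q :=
    Finset.sum_congr rfl fun j hj => by rw [(Finset.mem_filter.1 hj).2]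
  rw [h2, Finset.sum_const, nsmul_eq_mul]
  refine mul_le_mul_of_nonneg_right ?_ (hf q hq.1 hq.2)
  exact_mod_cast mult_nx D q

/-- the counted steps of a window are counted steps of the whole path -/
theorem CS_sub {M i k : ℕ} (hk : k ≤ n) : CS M n g a R i k ⊆ CS M n g a R 0 n := by
  intro j hj
  rw [mem_CS] at hj ⊢
  exact ⟨⟨Nat.zero_le j, by omega⟩, hj.2⟩

end nxt

section lvi

open Classical in
/-- the first index with `v ≤ a x` (`n` if there is none) -/
noncomputable def lvi (n : ℕ) (a : ℕ → ℕ) (v : ℕ) : ℕ :=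
  if h : ∃ x, x ≤ n ∧ v ≤ a x then Nat.find h else n

variable {n : ℕ} {g : ℕ → Prop} {a R : ℕ → ℕ}

theorem lvi_le_n (n : ℕ) (a : ℕ → ℕ) (v : ℕ) : lvi n a v ≤ n := by
  classical
  unfold lvi
  split_ifs with h
  · exact (Nat.find_spec h).1
  · exact le_rfl

theorem lvi_le {v i1 : ℕ} (h1 : i1 ≤ n) (h2 : v ≤ a i1) : lvi n a v ≤ i1 := by
  classical
  unfold lvi
  have h : ∃ x, x ≤ n ∧ v ≤ a x := ⟨i1, h1, h2⟩
  rw [dif_pos h]
  exact Nat.find_min' h ⟨h1, h2⟩

theorem lvi_lt {v x : ℕ} (hx : x < lvi n a v) : a x < v := by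
  classical
  by_contra h
  push Not at h
  have h1 := lvi_le (n := n) (a := a) (v := v) (by have := lvi_le_n n a v; omega : x ≤ n) h
  omega

theorem le_a_lvi {v i1 : ℕ} (h1 : i1 ≤ n) (h2 : v ≤ a i1) : v ≤ a (lvi n a v) := by
  classical
  unfold lvi
  have h : ∃ x, x ≤ n ∧ v ≤ a x := ⟨i1, h1, h2⟩
  rw [dif_pos h]
  exact (Nat.find_spec h).2

theorem a_lvi (D : Sdat n g a R) {v i1 : ℕ} (h0 : a 0 ≤ v) (h1 : i1 ≤ n) (h2 : v ≤ a i1) :
    a (lvi n a v) = v := by
  refine le_antisymm ?_ (le_a_lvi h1 h2)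
  rcases Nat.eq_zero_or_pos (lvi n a v) with h3 | h3
  · rw [h3]
    exact h0
  · obtain ⟨x, hx⟩ : ∃ x, lvi n a v = x + 1 := ⟨lvi n a v - 1, by omega⟩
    have h4 := lvi_lt (n := n) (a := a) (v := v) (x := x) (by omega)
    have h5 := lvi_le_n n a v
    rw [hx]
    rcases D.ha x (by omega) with h6 | h6 <;> omega

/-- lookahead index of `k` : `k ≤ lvi` -/
theorem le_lvi (D : Sdat n g a R) {k v : ℕ} (hk : k ≤ n) (h : a k < v ∨ a k = v ∧ ∀ x < k, a x < v) :
    k ≤ lvi n a v := by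
  by_contra h1
  push Not at h1
  rcases h with h | ⟨_, h⟩
  · have h2 := D.am h1.le hk
    have h3 := le_a_lvi (n := n) (a := a) (v := v) (i1 := k) hk
    classical
    unfold lvi at h1 h2
    by_cases h4 : ∃ x, x ≤ n ∧ v ≤ a x
    · rw [dif_pos h4] at h1 h2
      have := (Nat.find_spec h4).2
      omega
    · rw [dif_neg h4] at h1
      omega
  · have h2 := h _ h1
    classical
    unfold lvi at h1 h2
    by_cases h4 : ∃ x, x ≤ n ∧ v ≤ a x
    · rw [dif_pos h4] at h1 h2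
      have := (Nat.find_spec h4).2
      omega
    · rw [dif_neg h4] at h1
      omega

theorem lvi_mono {v w : ℕ} (h : v ≤ w) : lvi n a v ≤ lvi n a w := by
  classical
  by_cases h4 : ∃ x, x ≤ n ∧ w ≤ a x
  · obtain ⟨x, h1, h2⟩ := h4
    exact lvi_le (lvi_le_n n a w) (h.trans (le_a_lvi h1 h2))
  · have h5 : lvi n a w = n := by
      unfold lvi
      rw [dif_neg h4]
    rw [h5]
    exact lvi_le_n n a v

/-- admissible pairs : step `j`, end `k` of a window -/
def Adm (K1 L2 n : ℕ) (a : ℕ → ℕ) (j k : ℕ) : Prop :=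
  ∃ i1 ≤ n, a k + 2 * K1 ≤ a i1 ∧ i1 ≤ j + L2

/-- properties of the lookahead index -/
theorem adm_lvi (D : Sdat n g a R) {K1 L2 j k : ℕ} (hK1 : 0 < K1) (hk : k ≤ n) (h : Adm K1 L2 n a j k) :
    k < lvi n a (a k + K1) ∧ lvi n a (a k + K1) ≤ n ∧ a (lvi n a (a k + K1)) = a k + K1 ∧
      ∃ i1 ≤ n, lvi n a (a k + K1) < i1 ∧ a (lvi n a (a k + K1)) + K1 ≤ a i1 ∧ i1 ≤ j + L2 := by
  obtain ⟨i1, h1, h2, h3⟩ := h
  have h4 := D.am (Nat.zero_le k) hk
  have h5 : a (lvi n a (a k + K1)) = a k + K1 := a_lvi D (by omega) h1 (by omega)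
  have h6 : k ≤ lvi n a (a k + K1) := le_lvi D hk (Or.inl (by omega))
  have h7 : k ≠ lvi n a (a k + K1) := fun e => by
    rw [← e] at h5
    omega
  have h8 : lvi n a (a k + K1) < i1 := by
    by_contra h9
    push Not at h9
    have := D.am h9 (lvi_le_n n a _)
    omega
  exact ⟨by omega, lvi_le_n n a _, h5, i1, h1, h8, by omega, h3⟩

/-- multiplicity of the lookahead index -/
theorem mult_lvi (D : Sdat n g a R) {K1 L2 : ℕ} (hK1 : 0 < K1) (S : Finset ℕ)
    (hS : ∀ k ∈ S, k ≤ n ∧ ∃ j ≤ k, Adm K1 L2 n a j k) (x : ℕ) :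
    (S.filter fun k => lvi n a (a k + K1) = x).card ≤ L2 := by
  classical
  have h : (S.filter fun k => lvi n a (a k + K1) = x) ⊆ Ico (x - L2) x := by
    intro k hk
    rw [Finset.mem_filter] at hk
    obtain ⟨h1, j, h2, h3⟩ := hS k hk.1
    obtain ⟨h4, _, _, i1, h5, h6, _, h7⟩ := adm_lvi D hK1 h1 h3
    rw [hk.2] at h4 h6
    rw [Finset.mem_Ico]
    omega
  refine (Finset.card_le_card h).trans ?_
  rw [Nat.card_Ico]
  omega

theorem sum_lvi (D : Sdat n g a R) {K1 L2 : ℕ} (hK1 : 0 < K1) (S : Finset ℕ)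
    (hS : ∀ k ∈ S, k ≤ n ∧ ∃ j ≤ k, Adm K1 L2 n a j k) (f : ℕ → ℝ) (hf : ∀ x ≤ n, 0 ≤ f x) :
    ∑ k ∈ S, f (lvi n a (a k + K1)) ≤ (L2 : ℝ) * ∑ x ∈ range (n + 1), f x := by
  classical
  have h1 : ∀ k ∈ S, lvi n a (a k + K1) ∈ range (n + 1) := by
    intro k _
    rw [Finset.mem_range]
    have := lvi_le_n n a (a k + K1)
    omega
  rw [← Finset.sum_fiberwise_of_maps_to h1, Finset.mul_sum]
  refine Finset.sum_le_sum fun x hx => ?_
  rw [Finset.mem_range] at hx
  have h2 : ∑ k ∈ S.filter (fun k => lvi n a (a k + K1) = x), f (lvi n a (a k + K1)) =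
      ∑ k ∈ S.filter (fun k => lvi n a (a k + K1) = x), f x :=
    Finset.sum_congr rfl fun j hj => by rw [(Finset.mem_filter.1 hj).2]
  rw [h2, Finset.sum_const, nsmul_eq_mul]
  refine mul_le_mul_of_nonneg_right ?_ (hf x (by omega))
  exact_mod_cast mult_lvi D hK1 S hS x

end lvi

section f1

open Vale.Agent.P127 Vale.Agent.P127.Stk Vale.Agent.P127.U.Cell

/-- pairs (step, end of a window) -/
structure Prs (K1 L1 L2 n : ℕ) (a : ℕ → ℕ) (G : Finset (ℕ × ℕ)) : Prop where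
  lt : ∀ p ∈ G, p.1 < p.2
  le : ∀ p ∈ G, p.2 ≤ p.1 + L1
  hn : ∀ p ∈ G, p.2 ≤ n
  adm : ∀ p ∈ G, Adm K1 L2 n a p.1 p.2

section num

variable {n : ℕ} {g : ℕ → Prop} {a R : ℕ → ℕ} {K1 L1 L2 : ℕ} {G : Finset (ℕ × ℕ)}

theorem Prs.mult (h : Prs K1 L1 L2 n a G) (x : ℕ) : (G.filter fun p => p.1 + 1 = x).card ≤ L1 := by
  classical
  have h1 : (G.filter fun p => p.1 + 1 = x).card ≤ (Ico x (x + L1)).card := by
    refine Finset.card_le_card_of_injOn (fun p => p.2) ?_ ?_
    · intro p hp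
      rw [Finset.mem_coe, Finset.mem_filter] at hp
      have e1 := h.lt p hp.1
      have e2 := h.le p hp.1
      rw [Finset.mem_coe, Finset.mem_Ico]
      simp only
      omega
    · intro p hp q hq e
      rw [Finset.mem_coe, Finset.mem_filter] at hp hq
      simp only at e
      exact Prod.ext (by omega) e
  rw [Nat.card_Ico] at h1
  omega

theorem Prs.multv (D : Sdat n g a R) (hK1 : 0 < K1) (h : Prs K1 L1 L2 n a G) (x : ℕ) :
    (G.filter fun p => lvi n a (a p.2 + K1) = x).card ≤ L1 * L2 := by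
  classical
  have h1 : (G.filter fun p => lvi n a (a p.2 + K1) = x).card ≤ (Ico (x - L2) x ×ˢ Icc 1 L1).card := by
    refine Finset.card_le_card_of_injOn (fun p => (p.1, p.2 - p.1)) ?_ ?_
    · intro p hp
      rw [Finset.mem_coe, Finset.mem_filter] at hp
      have e1 := h.lt p hp.1
      have e2 := h.le p hp.1
      obtain ⟨f1, f2, f3, i1, f4, f5, f6, f7⟩ := adm_lvi D hK1 (h.hn p hp.1) (h.adm p hp.1)
      rw [hp.2] at f1 f5
      rw [Finset.mem_coe, Finset.mem_product, Finset.mem_Ico, Finset.mem_Icc]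
      simp only
      omega
    · intro p hp q hq e
      rw [Finset.mem_coe, Finset.mem_filter] at hp hq
      have e1 := h.lt p hp.1
      have e2 := h.lt q hq.1
      simp only [Prod.mk.injEq] at e
      exact Prod.ext e.1 (by omega)
  rw [Finset.card_product, Nat.card_Ico, Nat.card_Icc] at h1
  refine h1.trans ?_
  rw [Nat.mul_comm]
  exact Nat.mul_le_mul (by omega) (by omega)

theorem Prs.card (h : Prs K1 L1 L2 n a G) : G.card ≤ n * L1 := by
  classical
  have h1 : G.card ≤ (range n ×ˢ Icc 1 L1).card := by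
    refine Finset.card_le_card_of_injOn (fun p => (p.1, p.2 - p.1)) ?_ ?_
    · intro p hp
      rw [Finset.mem_coe] at hp
      have e1 := h.lt p hp
      have e2 := h.le p hp
      have e3 := h.hn p hp
      rw [Finset.mem_coe, Finset.mem_product, Finset.mem_range, Finset.mem_Icc]
      simp only
      omega
    · intro p hp q hq e
      rw [Finset.mem_coe] at hp hq
      have e1 := h.lt p hp
      have e2 := h.lt q hq
      simp only [Prod.mk.injEq] at e
      exact Prod.ext e.1 (by omega)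
  rw [Finset.card_product, card_range, Nat.card_Icc] at h1
  exact h1.trans (Nat.mul_le_mul_left n (by omega))

theorem Prs.sum1 (h : Prs K1 L1 L2 n a G) (f : ℕ → ℝ) (hf : ∀ x ≤ n, 0 ≤ f x) :
    ∑ p ∈ G, f (p.1 + 1) ≤ (L1 : ℝ) * ∑ x ∈ range (n + 1), f x := by
  classical
  have h1 : ∀ p ∈ G, p.1 + 1 ∈ range (n + 1) := by
    intro p hp
    have e1 := h.lt p hp
    have e3 := h.hn p hp
    rw [Finset.mem_range]
    omega
  rw [← Finset.sum_fiberwise_of_maps_to h1, Finset.mul_sum]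
  refine Finset.sum_le_sum fun x hx => ?_
  rw [Finset.mem_range] at hx
  have h2 : ∑ p ∈ G.filter (fun p => p.1 + 1 = x), f (p.1 + 1) =
      ∑ p ∈ G.filter (fun p => p.1 + 1 = x), f x :=
    Finset.sum_congr rfl fun j hj => by rw [(Finset.mem_filter.1 hj).2]
  rw [h2, Finset.sum_const, nsmul_eq_mul]
  refine mul_le_mul_of_nonneg_right ?_ (hf x (by omega))
  exact_mod_cast h.mult x

theorem Prs.sumv (D : Sdat n g a R) (hK1 : 0 < K1) (h : Prs K1 L1 L2 n a G) (f : ℕ → ℝ)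
    (hf : ∀ x ≤ n, 0 ≤ f x) :
    ∑ p ∈ G, f (lvi n a (a p.2 + K1)) ≤ ((L1 : ℝ) * L2) * ∑ x ∈ range (n + 1), f x := by
  classical
  have h1 : ∀ p ∈ G, lvi n a (a p.2 + K1) ∈ range (n + 1) := by
    intro p _
    rw [Finset.mem_range]
    have := lvi_le_n n a (a p.2 + K1)
    omega
  rw [← Finset.sum_fiberwise_of_maps_to h1, Finset.mul_sum]
  refine Finset.sum_le_sum fun x hx => ?_
  rw [Finset.mem_range] at hx
  have h2 : ∑ p ∈ G.filter (fun p => lvi n a (a p.2 + K1) = x), f (lvi n a (a p.2 + K1)) =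
      ∑ p ∈ G.filter (fun p => lvi n a (a p.2 + K1) = x), f x :=
    Finset.sum_congr rfl fun j hj => by rw [(Finset.mem_filter.1 hj).2]
  rw [h2, Finset.sum_const, nsmul_eq_mul]
  refine mul_le_mul_of_nonneg_right ?_ (hf x (by omega))
  exact_mod_cast h.multv D hK1 x

open Classical in
/-- all admissible pairs -/
noncomputable def prs (K1 L1 L2 n : ℕ) (a : ℕ → ℕ) : Finset (ℕ × ℕ) :=
  (range n ×ˢ range (n + 1)).filter fun p => p.1 < p.2 ∧ p.2 ≤ p.1 + L1 ∧ Adm K1 L2 n a p.1 p.2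

theorem mem_prs {p : ℕ × ℕ} : p ∈ prs K1 L1 L2 n a ↔
    p.1 < p.2 ∧ p.2 ≤ p.1 + L1 ∧ p.2 ≤ n ∧ Adm K1 L2 n a p.1 p.2 := by
  classical
  unfold prs
  rw [Finset.mem_filter, Finset.mem_product, Finset.mem_range, Finset.mem_range]
  constructor
  · rintro ⟨⟨h1, h2⟩, h3, h4, h5⟩
    exact ⟨h3, h4, by omega, h5⟩
  · rintro ⟨h1, h2, h3, h4⟩
    exact ⟨⟨by omega, by omega⟩, h1, h2, h4⟩

theorem prs_prs : Prs K1 L1 L2 n a (prs K1 L1 L2 n a) :=
  ⟨fun _ hp => (mem_prs.1 hp).1, fun _ hp => (mem_prs.1 hp).2.1, fun _ hp => (mem_prs.1 hp).2.2.1,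
    fun _ hp => (mem_prs.1 hp).2.2.2⟩

/-- a step of a light window -/
theorem mem_prs_win {i j k i1 : ℕ} (h1 : i ≤ j) (h2 : j < k) (h3 : k ≤ i + L1) (h4 : k ≤ n) (h5 : i1 ≤ n)
    (h6 : a k + 2 * K1 ≤ a i1) (h7 : i1 ≤ i + L2) : (j, k) ∈ prs K1 L1 L2 n a :=
  mem_prs.2 ⟨h2, by simp only; omega, h4, i1, h5, h6, by simp only; omega⟩

theorem sum_sqrt_le {ι : Type*} (G : Finset ι) (f : ι → ℝ) (hf : ∀ p, 0 ≤ f p) :
    ∑ p ∈ G, √(f p) ≤ √(G.card : ℝ) * √(∑ p ∈ G, f p) := by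
  have h := Real.sum_sqrt_mul_sqrt_le G (f := fun _ => (1 : ℝ)) (g := f) (fun _ => zero_le_one) hf
  simpa using h

end num

variable {Ω : Type} [Fintype Ω] (P : Law Ω) {S U W ι : Type*}

/-- [TELE-REG] for a family of pairs -/
theorem tele_regI (X : Ω → U) (C : ℕ → Ω → S) (a : ℕ → ℕ) (ν : ℕ → ℝ) (n K1 L N : ℕ) {H : ℝ}
    (ha : ∀ i j, i ≤ j → j ≤ n → a i ≤ a j) (hν0 : ∀ i ≤ n, 0 ≤ ν i)
    (hν : ∀ i j, i ≤ n → j ≤ n → a i + K1 ≤ a j → hc P (C i) (C j) ≤ ν i)
    (hH : ∀ i ≤ n, hc P X (C i) ≤ H) (G : Finset ι) (u v : ι → ℕ)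
    (hG : ∀ p ∈ G, u p < n ∧ v p ≤ n ∧ a (u p) + K1 ≤ a (v p) ∧
      ∃ i1 ≤ n, a (v p) + K1 ≤ a i1 ∧ i1 ≤ u p + L)
    (hN : ∀ j, (G.filter fun p => u p = j).card ≤ N) :
    ∑ p ∈ G, mi P X (C (v p)) (C (u p)) ≤ N * (L * H) + ∑ p ∈ G, (ν (u p) + ν (v p)) := by
  classical
  have hH0 : 0 ≤ H := (hc_nonneg P X (C 0)).trans (hH 0 (Nat.zero_le n))
  obtain ⟨Ψ, p0, pH, pm, pf, pg⟩ := envelope a (fun i => hc P X (C i) + ν i) n K1 hH0 ha
    (fun i hi => add_nonneg (hc_nonneg P X (C i)) (hν0 i hi))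
  have hC : ∀ j ≤ n, hc P X (C j) ≤ Ψ j := by
    intro j hj
    refine pg j hj _ (hH j hj) fun i hi h => ?_
    have h1 := H833.hc_le_near P X (C i) (C j)
    have h2 : hc P X (fun ω => (C j ω, C i ω)) ≤ hc P X (C i) :=
      hc_mono_right P X fun _ _ _ _ e => congrArg Prod.snd e
    have h3 := hν i j hi hj h
    linarith
  have h1 : ∀ p ∈ G, mi P X (C (v p)) (C (u p)) ≤ (Ψ (u p) - Ψ (u p + L)) + (ν (u p) + ν (v p)) := by
    intro p hp
    obtain ⟨g1, g2, g3, i1, g4, g5, g6⟩ := hG p hp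
    have f1 := H833.mi_near P X (C (u p)) (C (v p))
    have f2 := hν (u p) (v p) g1.le g2 g3
    have f3 := hC (u p) g1.le
    have f4 := pf (v p) i1 g2 g4 g5
    have f5 := pm i1 (u p + L) g6
    linarith
  refine (Finset.sum_le_sum h1).trans ?_
  rw [Finset.sum_add_distrib]
  have h2 : ∑ p ∈ G, (Ψ (u p) - Ψ (u p + L)) ≤ N * (L * H) := by
    have e1 : ∑ p ∈ G, (Ψ (u p) - Ψ (u p + L)) =
        ∑ j ∈ range n, ∑ p ∈ G with u p = j, (Ψ (u p) - Ψ (u p + L)) :=
      (Finset.sum_fiberwise_of_maps_to (fun p hp => Finset.mem_range.2 (hG p hp).1) _).symm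
    have e2 : ∀ j ∈ range n, ∑ p ∈ G with u p = j, (Ψ (u p) - Ψ (u p + L)) ≤ N * (Ψ j - Ψ (j + L)) := by
      intro j _
      have e3 : ∑ p ∈ G with u p = j, (Ψ (u p) - Ψ (u p + L)) = ∑ p ∈ G with u p = j, (Ψ j - Ψ (j + L)) :=
        Finset.sum_congr rfl fun p hp => by rw [(Finset.mem_filter.1 hp).2]
      rw [e3, Finset.sum_const, nsmul_eq_mul]
      have e4 : 0 ≤ Ψ j - Ψ (j + L) := sub_nonneg.2 (pm j (j + L) (by omega))
      exact mul_le_mul_of_nonneg_right (by exact_mod_cast hN j) e4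
    rw [e1]
    refine (Finset.sum_le_sum e2).trans ?_
    rw [← Finset.mul_sum]
    exact mul_le_mul_of_nonneg_left (sum_anti p0 pH n L) (Nat.cast_nonneg _)
  linarith

/-- a letter of the later cell in the condition -/
theorem mi_cond_near (X : Ω → U) (Y : Ω → S) {T : Type*} (Z : Ω → T) (V : Ω → W) :
    mi P X Y (fun ω => (Z ω, V ω)) ≤ mi P X Y Z + hc P V Y := by
  have h1 : hc P X (fun ω => (Z ω, V ω)) ≤ hc P X Z :=
    hc_mono_right P X fun _ _ _ _ e => congrArg Prod.fst e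
  have h2 := hc_le_add P X V (fun ω => (Y ω, Z ω))
  have h3 : hc P V (fun ω => (Y ω, Z ω)) ≤ hc P V Y :=
    hc_mono_right P V fun _ _ _ _ e => congrArg Prod.fst e
  have h4 : hc P X (fun ω => (V ω, (Y ω, Z ω))) ≤ hc P X (fun ω => (Y ω, (Z ω, V ω))) :=
    hc_mono_right P X fun _ _ _ _ e => by
      simp only [Prod.mk.injEq] at e ⊢
      exact ⟨e.2.1, e.2.2, e.1⟩
  unfold mi
  linarith

theorem mi_cond_fn (X : Ω → U) (Y : Ω → S) {T : Type*} (Z : Ω → T) {V : Ω → W} (hV : Fn P V Y) :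
    mi P X Y (fun ω => (Z ω, V ω)) ≤ mi P X Y Z := by
  have h1 := mi_cond_near P X Y Z V
  rw [hc_zero P hV, add_zero] at h1
  exact h1

/-- **the sum of the informations between `j + 1` and the lookahead index of `k`** -/
theorem f1_sum {n : ℕ} {g : ℕ → Prop} {a R : ℕ → ℕ} {K1 L1 L2 : ℕ} {G : Finset (ℕ × ℕ)}
    (D : Sdat n g a R) (hK1 : 0 < K1) (hG : Prs K1 L1 L2 n a G) (X : Ω → U) (C : ℕ → Ω → S)
    (ν : ℕ → ℝ) {H : ℝ} (hν0 : ∀ i ≤ n, 0 ≤ ν i)
    (hν : ∀ i j, i ≤ n → j ≤ n → a i + K1 ≤ a j → hc P (C i) (C j) ≤ ν i)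
    (hH : ∀ i ≤ n, hc P X (C i) ≤ H) :
    ∑ p ∈ G, mi P X (C (lvi n a (a p.2 + K1))) (C (p.1 + 1)) ≤
      L1 * (L2 * H) + (L1 : ℝ) * (L2 + 1) * ∑ x ∈ range (n + 1), ν x := by
  have h := tele_regI P X C a ν n K1 L2 L1 (fun i j h1 h2 => D.am h1 h2) hν0 hν hH G
    (fun p => p.1 + 1) (fun p => lvi n a (a p.2 + K1)) (by
      intro p hp
      obtain ⟨f1, f2, f3, i1, f4, f5, f6, f7⟩ := adm_lvi D hK1 (hG.hn p hp) (hG.adm p hp)
      have e1 := hG.lt p hp
      have e2 := D.am (by omega : p.1 + 1 ≤ p.2) (hG.hn p hp)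
      exact ⟨by omega, f2, by omega, i1, f4, f6, by omega⟩) hG.mult
  rw [Finset.sum_add_distrib] at h
  have h1 := hG.sum1 ν hν0
  have h2 := hG.sumv D hK1 ν hν0
  linarith

/-- the same with a letter `Θ` of the later cell -/
theorem f1_sum' {n : ℕ} {g : ℕ → Prop} {a R : ℕ → ℕ} {K1 L1 L2 : ℕ} {G : Finset (ℕ × ℕ)}
    (D : Sdat n g a R) (hK1 : 0 < K1) (hG : Prs K1 L1 L2 n a G) (X : Ω → U) (C : ℕ → Ω → S)
    (Θ : ℕ × ℕ → Ω → W) (hΘ : ∀ p ∈ G, Fn P (Θ p) (C (lvi n a (a p.2 + K1))))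
    (ν : ℕ → ℝ) {H : ℝ} (hν0 : ∀ i ≤ n, 0 ≤ ν i)
    (hν : ∀ i j, i ≤ n → j ≤ n → a i + K1 ≤ a j → hc P (C i) (C j) ≤ ν i)
    (hH : ∀ i ≤ n, hc P X (C i) ≤ H) :
    ∑ p ∈ G, mi P X (C (lvi n a (a p.2 + K1))) (fun ω => (C (p.1 + 1) ω, Θ p ω)) ≤
      L1 * (L2 * H) + (L1 : ℝ) * (L2 + 1) * ∑ x ∈ range (n + 1), ν x :=
  (Finset.sum_le_sum fun p hp => mi_cond_fn P X _ _ (hΘ p hp)).trans (f1_sum P D hK1 hG X C ν hν0 hν hH)

end f1

end Vale.Agent.P106.U.H931
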