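import Vale.Agent.P106.U.Cell

/-!
# P106 / U / H931 : the path along given indices (helper931)

`C.re f hf` : the path `C` along the monotone sequence of indices `f` (compressed path of one cap, path from a given step on).
All objects of the new path at `i` are those of `C` at `f i`, by `rfl`.
-/

set_option autoImplicit false

namespace Vale.Agent.P106.U.Cell.Pth

variable {Ω τ : Type}

theorem T_anti' (C : Pth Ω τ) {i j : ℕ} (hij : i ≤ j) {ω ω' : Ω} (h : C.T j ω = C.T j ω') : C.T i ω = C.T i ω' := by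
  induction j, hij using Nat.le_induction with
  | base => exact h
  | succ j _ ih => exact ih (C.hT j ω ω' h)

/-- the path along the indices `f` -/
def re (C : Pth Ω τ) (f : ℕ → ℕ) (hf : Monotone f) : Pth Ω τ where
  a i := C.a (f i)
  rf i := C.rf (f i)
  rk i := C.rk (f i)
  ha _ _ h := C.ha (hf h)
  hf _ _ h := C.hf (hf h)
  hk _ _ h := C.hk (hf h)
  hkf i := C.hkf (f i)
  μ := C.μ
  o := C.o
  l := C.l
  t := C.t
  p := C.p
  T i := C.T (f i)
  tm i := C.tm (f i)
  ga i := C.ga (f i)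
  ka i := C.ka (f i)
  al i := C.al (f i)
  hT i _ _ h := C.T_anti' (hf (Nat.le_succ i)) h
  htm i ω := C.htm (f i) ω

variable (C : Pth Ω τ) (f : ℕ → ℕ) (hf : Monotone f) (i j b i' : ℕ)

@[simp] theorem re_a : (C.re f hf).a i = C.a (f i) := rfl
@[simp] theorem re_rf : (C.re f hf).rf i = C.rf (f i) := rfl
@[simp] theorem re_rk : (C.re f hf).rk i = C.rk (f i) := rfl
@[simp] theorem re_μ : (C.re f hf).μ = C.μ := rfl
@[simp] theorem re_o : (C.re f hf).o = C.o := rfl
@[simp] theorem re_l : (C.re f hf).l = C.l := rfl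
@[simp] theorem re_t : (C.re f hf).t = C.t := rfl
@[simp] theorem re_p : (C.re f hf).p = C.p := rfl
@[simp] theorem re_T : (C.re f hf).T i = C.T (f i) := rfl
@[simp] theorem re_s : (C.re f hf).s i = C.s (f i) := rfl
@[simp] theorem re_F : (C.re f hf).F i = C.F (f i) := rfl
@[simp] theorem re_bs : (C.re f hf).bs i b = C.bs (f i) b := rfl
@[simp] theorem re_R : (C.re f hf).R i b = C.R (f i) b := rfl
@[simp] theorem re_sl : (C.re f hf).sl i b = C.sl (f i) b := rfl
@[simp] theorem re_cell : (C.re f hf).cell i b = C.cell (f i) b := rfl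
@[simp] theorem re_A : (C.re f hf).A j b i' = C.A (f j) b (f i') := rfl
@[simp] theorem re_VZ : (C.re f hf).VZ i b = C.VZ (f i) b := rfl
theorem re_Lev : (C.re f hf).Lev i b ↔ C.Lev (f i) b := Iff.rfl
theorem re_Bad {K : ℝ} {ω : Ω} : (C.re f hf).Bad K i b ω ↔ C.Bad K (f i) b ω := Iff.rfl

theorem re_ok {C : Pth Ω τ} {K : ℝ} {ω : Ω} (h : C.Ok K ω) : (C.re f hf).Ok K ω where
  v1 := h.v1
  w1 := h.w1
  p1 := h.p1
  n1 i := h.n1 (f i)
  n2 i := h.n2 (f i)
  k1 i := h.k1 (f i)
  a1 i := h.a1 (f i)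
  ag i j hij := h.ag (f i) (f j) (hf hij)

end Vale.Agent.P106.U.Cell.Pth
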