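import Vale.Agent.P106.U.S3.Good
import Vale.Agent.P106.U.H833.CapC
import Vale.Agent.P106.U.H833.PathX
import Vale.Agent.P106.U.H931.Nxt
import Vale.Agent.P106.U.H931.Re
import Vale.Agent.P106.U.H404.ActX

/-!
# P106 / U / H931 : [SD], from the record `S3.Run` to `H833.Cap` at one cap (helper931)

* `R.C.re ι` (file `Re`) : the path along the indices `ι` (compressed path of one cap, started at the first good step).
* `Sdat.sft`, `exists_start`, `Esf` : the word from the first good step on.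
* `qcs_sum`, `start_price` : prices of the whole letter `Zw = (Z, T)` along `ι`.
* `full_eq`, `adv_of` : weights, counted steps advance.
* `cap_l` : `Cap` along `ι`, hypotheses in the original indices; `mi_out`.
-/

set_option autoImplicit false

namespace Vale.Agent.P106.U.H931

open Finset Vale.Agent.P127 Vale.Agent.P127.Stk Vale.Agent.P106.W
open Vale.Agent.P106.K (Ry RyOk bl Bin)
open Vale.Agent.P127.U.CellD (q2 rd)
open Vale.Agent.P106.U.Cell (Pth Ray)
open Vale.Agent.P106.U.H118 (Sdat CS mem_CS full)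
open Vale.Agent.P106.U.H833 (qc psi Cap Wnd aN kN fN RN lev_a lev_R cNst cNst_nonneg cCha)
open Vale.Agent.P106.U.S3 (Run)
open Vale.Agent.P106.U.H404 (fl1_le)

/-! ### the word from the first good step on -/

section word

variable {n : ℕ} {g : ℕ → Prop} {a R : ℕ → ℕ}

theorem Sdat.sft (D : Sdat n g a R) (k : ℕ) :
    Sdat (n - k) (fun i => g (k + i)) (fun i => a (k + i)) (fun i => R (k + i)) where
  hr i hi := D.hr (k + i) (by omega)
  ha i hi := D.ha (k + i) (by omega)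
  ga i hi h := D.ga (k + i) (by omega) h

theorem CS_sft {M k i e j : ℕ}
    (h : j ∈ CS M (n - k) (fun i => g (k + i)) (fun i => a (k + i)) (fun i => R (k + i)) i e) :
    k + j ∈ CS M n g a R (k + i) (k + e) := by
  rw [mem_CS] at h ⊢
  obtain ⟨⟨h1, h2⟩, h3⟩ := h
  refine ⟨⟨by omega, by omega⟩, ?_⟩
  rcases h3 with h3 | ⟨h3, q, q1, q2, q3, q4, q5⟩
  · exact Or.inl h3
  · exact Or.inr ⟨h3, k + q, by omega, by omega, q3, q4, q5⟩

/-- the first good step -/
theorem exists_start (D : Sdat n g a R) {E : Finset ℕ} (hE : ∀ i < n, a (i + 1) = a i + 1 → ¬ g i → i ∈ E)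
    (hc : a 0 + E.card < a n) : ∃ i0 < n, g i0 ∧ (∀ i < i0, ¬ g i) ∧ a i0 ≤ a 0 + E.card := by
  classical
  have key : ∀ k ≤ n, (∀ i < k, ¬ g i) → a k ≤ a 0 + E.card := by
    intro k hk hg
    have h1 : a k = a 0 + ((range k).filter fun i => a (i + 1) = a i + 1).card := by
      clear hg
      induction k with
      | zero => simp
      | succ k ih =>
        have h2 := ih (by omega)
        rw [Finset.range_add_one, Finset.filter_insert]
        split_ifs with h3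
        · rw [Finset.card_insert_of_notMem (by simp)]
          omega
        · rcases D.ha k (by omega) with h4 | h4 <;> omega
    have h2 : ((range k).filter fun i => a (i + 1) = a i + 1) ⊆ E := by
      intro i hi
      rw [Finset.mem_filter, Finset.mem_range] at hi
      exact hE i (by omega) hi.2 (hg i hi.1)
    have h3 := Finset.card_le_card h2
    omega
  by_contra hcon
  have h1 : ∀ i < n, ¬ g i := by
    by_contra h2
    push Not at h2
    classical
    have h3 : ∃ i, i < n ∧ g i := h2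
    have h4 := Nat.find_spec h3
    refine hcon ⟨Nat.find h3, h4.1, h4.2, ?_, key _ h4.1.le ?_⟩ <;>
    · intro i hi hg
      exact Nat.find_min h3 hi ⟨by omega, hg⟩
  have := key n le_rfl h1
  omega

open Classical in
/-- shifted exceptional steps -/
noncomputable def Esf (n k : ℕ) (E : Finset ℕ) : Finset ℕ := (range (n - k)).filter fun i => k + i ∈ E

theorem card_Esf (n k : ℕ) (E : Finset ℕ) : (Esf n k E).card ≤ E.card := by
  classical
  refine Finset.card_le_card_of_injOn (fun i => k + i) ?_ ?_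
  · intro i hi
    rw [Finset.mem_coe] at hi
    exact (Finset.mem_filter.1 hi).2
  · intro i _ j _ h
    simp only at h
    omega

theorem Esf_spec {E : Finset ℕ} (hE : ∀ i < n, a (i + 1) = a i + 1 → ¬ g i → i ∈ E) (k : ℕ) :
    ∀ i < n - k, a (k + (i + 1)) = a (k + i) + 1 → ¬ g (k + i) → i ∈ Esf n k E := by
  classical
  intro i hi h1 h2
  exact Finset.mem_filter.2 ⟨Finset.mem_range.2 hi, hE (k + i) (by omega) h1 h2⟩

theorem sum_sft (f : ℕ → ℝ) (hf : ∀ j, 0 ≤ f j) {n k : ℕ} (hk : k ≤ n) :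
    ∑ j ∈ range (n - k), f (k + j) ≤ ∑ j ∈ range n, f j := by
  have h : n = k + (n - k) := by omega
  rw [h, Finset.sum_range_add]
  have h1 : 0 ≤ ∑ j ∈ range k, f j := Finset.sum_nonneg fun j _ => hf j
  have h2 : k + (n - k) - k = n - k := by omega
  rw [h2]
  linarith

/-- sum over consecutive blocks -/
theorem sum_blocks (f : ℕ → ℝ) {ι : ℕ → ℕ} (hι : Monotone ι) (N : ℕ) :
    ∑ j ∈ range N, ∑ k ∈ Ico (ι j) (ι (j + 1)), f k = ∑ k ∈ Ico (ι 0) (ι N), f k := by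
  induction N with
  | zero => simp
  | succ N ih =>
    rw [Finset.sum_range_succ, ih, Finset.sum_Ico_consecutive _ (hι (Nat.zero_le _)) (hι (Nat.le_succ N))]

end word

/-! ### prices -/

section price

variable {Ω : Type} [Fintype Ω] {τ υ : Type} (R : Run Ω τ υ)

/-- the whole letter of the ray side -/
def Zw (i : ℕ) (ω : Ω) : (Ry × υ) × τ := (R.Z i ω, R.C.T i ω)

/-- price of the original step `k` -/
noncomputable def prs2 (k : ℕ) : ℝ :=
  Stk.hc R.Q (R.U (k + 1)) (fun ω => (R.Z k ω, fl1 (R.C.a (k + 1)) (R.t ω))) +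
    Stk.hc R.Q (R.C.T (k + 1)) (fun ω => (R.C.T k ω, R.Z (k + 1) ω))

theorem prs2_nonneg (k : ℕ) : 0 ≤ prs2 R k := add_nonneg (hc_nonneg _ _ _) (hc_nonneg _ _ _)

variable {R} {p : Run.Num} {K c' g' gU : ℝ}

theorem Zw_fn (h : R.Ok p K c' g' gU) {i k : ℕ} (hik : i ≤ k) : Fn R.Q (Zw R i) (Zw R k) := by
  intro ω ω' h1 h2 e
  have e1 := h.Um i k hik ω ω' h1 h2 (congrArg Prod.fst e)
  have e2 := R.C.T_anti' hik (congrArg Prod.snd e)
  exact Prod.ext e1 e2

theorem prs2_sum (h : R.Ok p K c' g' gU) {i k : ℕ} (hk : k ≤ R.n + p.J) :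
    ∑ j ∈ Ico i k, prs2 R j ≤ gU + g' := by
  have h1 : ∑ j ∈ Ico i k, prs2 R j ≤ ∑ j ∈ range (R.n + p.J), prs2 R j :=
    Finset.sum_le_sum_of_subset_of_nonneg (by
      intro x hx
      rw [Finset.mem_Ico] at hx
      rw [Finset.mem_range]
      omega) fun j _ _ => prs2_nonneg R j
  have h2 := h.prT
  have h3 := h.prU
  have h4 : 0 ≤ Stk.hc R.Q (R.C.T 0) (R.Z 0) := hc_nonneg _ _ _
  have h5 : 0 ≤ Stk.hc R.Q (R.U 0) R.ry := hc_nonneg _ _ _
  have h6 : ∑ j ∈ range (R.n + p.J), prs2 R j =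
      ∑ i ∈ range (R.n + p.J), Stk.hc R.Q (R.U (i + 1)) (fun ω => (R.Z i ω, fl1 (R.C.a (i + 1)) (R.t ω))) +
      ∑ i ∈ range (R.n + p.J), Stk.hc R.Q (R.C.T (i + 1)) (fun ω => (R.C.T i ω, R.Z (i + 1) ω)) := by
    unfold prs2
    rw [Finset.sum_add_distrib]
  linarith

/-- price of several steps, the time to `a m` digits is given -/
theorem price_le (h : R.Ok p K c' g' gU) {i k m : ℕ} (hik : i ≤ k) (hkm : k ≤ m) :
    Stk.hc R.Q (Zw R k) (fun ω => (fl1 (R.C.a m) (R.C.t ω), (R.ry ω, Zw R i ω))) ≤ ∑ j ∈ Ico i k, prs2 R j := by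
  induction k, hik using Nat.le_induction with
  | base =>
    rw [Ico_self, sum_empty]
    refine le_of_eq (hc_zero R.Q ?_)
    intro ω ω' _ _ e
    simp only [Prod.mk.injEq] at e
    exact e.2.2
  | succ k hik ih =>
    rw [Finset.sum_Ico_succ_top hik]
    have h1 := ih (by omega)
    have h2 := hc_le_add R.Q (Zw R (k + 1)) (Zw R k) (fun ω => (fl1 (R.C.a m) (R.C.t ω), (R.ry ω, Zw R i ω)))
    have h3 : Stk.hc R.Q (Zw R (k + 1)) (fun ω => (Zw R k ω, (fl1 (R.C.a m) (R.C.t ω), (R.ry ω, Zw R i ω)))) ≤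
        prs2 R k := by
      have g1 := hc_le_add R.Q (Zw R (k + 1)) (R.U (k + 1))
        (fun ω => (Zw R k ω, (fl1 (R.C.a m) (R.C.t ω), (R.ry ω, Zw R i ω))))
      have g2 : Stk.hc R.Q (R.U (k + 1)) (fun ω => (Zw R k ω, (fl1 (R.C.a m) (R.C.t ω), (R.ry ω, Zw R i ω)))) ≤
          Stk.hc R.Q (R.U (k + 1)) (fun ω => (R.Z k ω, fl1 (R.C.a (k + 1)) (R.t ω))) := by
        refine hc_mono_right R.Q _ fun ω ω' _ _ e => ?_
        simp only [Prod.mk.injEq] at e ⊢
        have e1 : R.Z k ω = R.Z k ω' := congrArg Prod.fst e.1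
        have e2 := e.2.1
        rw [h.Ct, h.Ct] at e2
        exact ⟨e1, fl1_le (R.C.ha (by omega)) e2⟩
      have g3 : Stk.hc R.Q (Zw R (k + 1)) (fun ω => (R.U (k + 1) ω,
          (Zw R k ω, (fl1 (R.C.a m) (R.C.t ω), (R.ry ω, Zw R i ω))))) ≤
          Stk.hc R.Q (R.C.T (k + 1)) (fun ω => (R.C.T k ω, R.Z (k + 1) ω)) := by
        have f1 := hc_le_add R.Q (Zw R (k + 1)) (R.C.T (k + 1)) (fun ω => (R.U (k + 1) ω,
          (Zw R k ω, (fl1 (R.C.a m) (R.C.t ω), (R.ry ω, Zw R i ω)))))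
        have f2 : Stk.hc R.Q (Zw R (k + 1)) (fun ω => (R.C.T (k + 1) ω, (R.U (k + 1) ω,
            (Zw R k ω, (fl1 (R.C.a m) (R.C.t ω), (R.ry ω, Zw R i ω)))))) = 0 := by
          refine hc_zero R.Q ?_
          intro ω ω' _ _ e
          simp only [Prod.mk.injEq] at e
          exact Prod.ext (Prod.ext e.2.2.2.2.1 e.2.1) e.1
        have f3 : Stk.hc R.Q (R.C.T (k + 1)) (fun ω => (R.U (k + 1) ω,
            (Zw R k ω, (fl1 (R.C.a m) (R.C.t ω), (R.ry ω, Zw R i ω))))) ≤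
            Stk.hc R.Q (R.C.T (k + 1)) (fun ω => (R.C.T k ω, R.Z (k + 1) ω)) := by
          refine hc_mono_right R.Q _ fun ω ω' _ _ e => ?_
          simp only [Prod.mk.injEq] at e ⊢
          exact ⟨congrArg Prod.snd e.2.1, Prod.ext e.2.2.2.1 e.1⟩
        linarith
      unfold prs2
      linarith
    linarith

/-- **price along the indices `ι`** -/
theorem qcs_sum (h : R.Ok p K c' g' gU) {ι : ℕ → ℕ} (hι : Monotone ι) {N : ℕ} (hN : ι N ≤ R.n + p.J) :
    ∑ j ∈ range N, qc R.Q R.ry (fun i => Zw R (ι i)) (fun i ω => fl1 (R.C.a (ι i)) (R.C.t ω)) j ≤ gU + g' := by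
  have h1 : ∀ j ∈ range N, qc R.Q R.ry (fun i => Zw R (ι i)) (fun i ω => fl1 (R.C.a (ι i)) (R.C.t ω)) j ≤
      ∑ k ∈ Ico (ι j) (ι (j + 1)), prs2 R k := fun j _ =>
    price_le h (hι (Nat.le_succ j)) le_rfl
  refine (Finset.sum_le_sum h1).trans ?_
  rw [sum_blocks _ hι]
  exact prs2_sum h hN

/-- price of the letter of the ray side, the time is given -/
theorem U_price (h : R.Ok p K c' g' gU) {i : ℕ} (hi : i ≤ R.n + p.J) :
    Stk.hc R.Q (R.U i) (fun ω => (R.ry ω, fl1 (R.C.a i) (R.t ω))) ≤ gU := by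
  have key : ∀ k, k ≤ i → Stk.hc R.Q (R.U k) (fun ω => (R.ry ω, fl1 (R.C.a i) (R.t ω))) ≤
      Stk.hc R.Q (R.U 0) R.ry + ∑ j ∈ range k, Stk.hc R.Q (R.U (j + 1)) (fun ω => (R.Z j ω,
        fl1 (R.C.a (j + 1)) (R.t ω))) := by
    intro k
    induction k with
    | zero =>
      intro _
      rw [range_zero, sum_empty, add_zero]
      exact hc_mono_right R.Q _ fun _ _ _ _ e => congrArg Prod.fst e
    | succ k ih =>
      intro hk
      have h1 := ih (by omega)
      rw [Finset.sum_range_succ]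
      have h2 := hc_le_add R.Q (R.U (k + 1)) (R.U k) (fun ω => (R.ry ω, fl1 (R.C.a i) (R.t ω)))
      have h3 : Stk.hc R.Q (R.U (k + 1)) (fun ω => (R.U k ω, (R.ry ω, fl1 (R.C.a i) (R.t ω)))) ≤
          Stk.hc R.Q (R.U (k + 1)) (fun ω => (R.Z k ω, fl1 (R.C.a (k + 1)) (R.t ω))) := by
        refine hc_mono_right R.Q _ fun ω ω' _ _ e => ?_
        simp only [Prod.mk.injEq] at e ⊢
        exact ⟨Prod.ext e.2.1 e.1, fl1_le (R.C.ha (by omega)) e.2.2⟩
      linarith
  have h1 := key i le_rfl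
  have h2 := h.prU
  have h3 : ∑ j ∈ range i, Stk.hc R.Q (R.U (j + 1)) (fun ω => (R.Z j ω, fl1 (R.C.a (j + 1)) (R.t ω))) ≤
      ∑ j ∈ range (R.n + p.J), Stk.hc R.Q (R.U (j + 1)) (fun ω => (R.Z j ω, fl1 (R.C.a (j + 1)) (R.t ω))) :=
    Finset.sum_le_sum_of_subset_of_nonneg (by
      intro x hx
      rw [Finset.mem_range] at hx ⊢
      omega) fun j _ _ => hc_nonneg _ _ _
  linarith

/-- **price of the start** (any later margins and offsets: `D` a path with the same letters) -/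
theorem start_price (h : R.Ok p K c' g' gU) {D : Pth Ω τ} (hT : D.T = R.C.T) {b i : ℕ} (hi : i ≤ R.n + p.J) :
    Stk.hc R.Q (Zw R i) (fun ω => (R.ry ω, D.cell i b ω)) ≤ gU := by
  refine le_trans ?_ (U_price h hi)
  have h1 := hc_le_add R.Q (Zw R i) (R.U i) (fun ω => (R.ry ω, D.cell i b ω))
  have h2 : Stk.hc R.Q (Zw R i) (fun ω => (R.U i ω, (R.ry ω, D.cell i b ω))) = 0 := by
    refine hc_zero R.Q ?_
    intro ω ω' _ _ e
    simp only [Prod.mk.injEq] at e
    have e1 : D.T i ω = D.T i ω' := congrArg Prod.fst e.2.2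
    rw [hT] at e1
    exact Prod.ext (Prod.ext e.2.1 e.1) e1
  have h3 : Stk.hc R.Q (R.U i) (fun ω => (R.ry ω, D.cell i b ω)) ≤
      Stk.hc R.Q (R.U i) (fun ω => (R.ry ω, fl1 (R.C.a i) (R.t ω))) := by
    refine hc_mono_right R.Q _ fun ω ω' _ _ e => ?_
    simp only [Prod.mk.injEq] at e ⊢
    have e1 : D.T i ω = D.T i ω' := congrArg Prod.fst e.2
    rw [hT] at e1
    have e2 := R.C.htm i ω
    have e3 := R.C.htm i ω'
    rw [e1] at e2
    rw [h.Ct] at e2 e3
    exact ⟨e.1, e2.symm.trans e3⟩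
  linarith

end price

/-! ### weights -/

section wt

variable {Ω : Type} [Fintype Ω] {τ υ : Type} {R : Run Ω τ υ} {p : Run.Num}

/-- the full weight of a step of the path along `ι`, in bits -/
theorem full_eq (h : R.Path p) (x : ℕ) {ι : ℕ → ℕ} (hι : Monotone ι) {j : ℕ} (hj : ι (j + 1) ≤ R.n + p.J) :
    full (R.m * Real.log 2) (fun i => aN R (ι i)) (fun i => RN R x (ι i)) j =
      (3 * (((R.C.re ι hι).a (j + 1) : ℝ) - (R.C.re ι hι).a j) +
        (((R.C.re ι hι).R (j + 1) (R.m * x) : ℝ) - (R.C.re ι hι).R j (R.m * x))) * Real.log 2 := by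
  have hj0 : ι j ≤ ι (j + 1) := hι (Nat.le_succ j)
  have e1 := lev_a h (i := ι j) (by omega)
  have g1 := lev_a h (i := ι (j + 1)) hj
  have e4 := lev_R h x (i := ι j) (by omega)
  have g4 := lev_R h x (i := ι (j + 1)) hj
  have c1 : (R.C.re ι hι).a j = R.C.a (ι j) := rfl
  have c2 : (R.C.re ι hι).a (j + 1) = R.C.a (ι (j + 1)) := rfl
  unfold full
  rw [Pth.re_R, Pth.re_R, c1, c2, e1, g1, e4, g4]
  push_cast
  ring

/-- a counted step of the path along `ι` advances -/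
theorem adv_of (h : R.Path p) (x : ℕ) {ι : ℕ → ℕ} (hι : Monotone ι) {N : ℕ} (hN : ι N ≤ R.n + p.J) {g : ℕ → Prop}
    (D : Sdat N g (fun i => aN R (ι i)) (fun i => RN R x (ι i))) {M i e j : ℕ} (he : e ≤ N)
    (hj : j ∈ CS M N g (fun i => aN R (ι i)) (fun i => RN R x (ι i)) i e) :
    ((R.C.re ι hι).a (j + 1) = (R.C.re ι hι).a j + R.m ∧
        (R.C.re ι hι).R (j + 1) (R.m * x) = (R.C.re ι hι).R j (R.m * x)) ∨
      ((R.C.re ι hι).a (j + 1) = (R.C.re ι hι).a j ∧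
        (R.C.re ι hι).R (j + 1) (R.m * x) = (R.C.re ι hι).R j (R.m * x) + R.m) := by
  rw [mem_CS] at hj
  obtain ⟨⟨_, h2⟩, h3⟩ := hj
  have hjn : j < N := by omega
  have hj0 : ι j ≤ ι (j + 1) := hι (Nat.le_succ j)
  have hj1 : ι (j + 1) ≤ ι N := hι (by omega)
  have e1 := lev_a h (i := ι j) (by omega)
  have g1 := lev_a h (i := ι (j + 1)) (by omega)
  have e4 := lev_R h x (i := ι j) (by omega)
  have g4 := lev_R h x (i := ι (j + 1)) (by omega)
  have c1 : (R.C.re ι hι).a j = R.C.a (ι j) := rfl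
  have c2 : (R.C.re ι hι).a (j + 1) = R.C.a (ι (j + 1)) := rfl
  rw [Pth.re_R, Pth.re_R, c1, c2, e1, g1, e4, g4]
  have d1 : aN R (ι (j + 1)) = aN R (ι j) ∨ (aN R (ι (j + 1)) = aN R (ι j) + 1 ∧
    RN R x (ι (j + 1)) = RN R x (ι j)) := D.ha j hjn
  rcases h3 with h3 | ⟨h3, _⟩
  · left
    have h3' : aN R (ι (j + 1)) = aN R (ι j) + 1 := h3
    rcases d1 with h4 | h4
    · omega
    · rw [h4.2, h3']
      exact ⟨by ring, rfl⟩
  · right
    have h3' : RN R x (ι (j + 1)) = RN R x (ι j) + 1 := h3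
    rcases d1 with h4 | h4
    · rw [h4, h3']
      exact ⟨rfl, by ring⟩
    · omega

end wt

/-! ### `Cap` along the indices -/

/-- **`Cap` over the cells**, any letter `l` of the ray which determines the geometric ray -/
theorem cap_l {Ω τ : Type} [Fintype Ω] (P : Law Ω) (C : Pth Ω τ) {Λ ζ θ : Type} {K : ℝ} (hK : 1 ≤ K)
    (hok : ∀ ω, 0 < P.w ω → C.Ok K ω) {n b : ℕ} {g : ℕ → Prop} {a R : ℕ → ℕ} {M0 M1 L1 L2 K0 : ℕ} {m : ℝ}
    (hL : ∀ i ≤ n, C.Lev i b) (l : Ω → Λ) (hl : Fn P C.l l) (Zw : ℕ → Ω → ζ)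
    (hZ : ∀ i < n, Fn P (Zw i) (Zw (i + 1)))
    (hZT : ∀ i ≤ n, Fn P (C.T i) (Zw i))
    (hZp : ∀ i ≤ n, Fn P (fun ω => fl1 (C.rf i) (C.p ω)) (Zw i))
    (ip : ℕ → ℕ → ℕ) (Θ : ℕ → ℕ → Ω → θ) (err u : ℕ → ℝ) (err0 : ∀ j, 0 ≤ err j) (u0 : ∀ z, 0 ≤ u z)
    (T : Finset ℕ) (uT : ∀ z, z ∉ T → u z = 0) {cJ ch cw δ₀ : ℝ}
    (hlight : ∀ i k i1, i ≤ k → k ≤ i + L1 → k ≤ i1 → i1 ≤ n → i1 ≤ i + L2 → a k + K0 ≤ a i1 →
      R k + K0 ≤ R i1 → k ≤ ip i k ∧ Fn P (C.T (ip i k)) (Θ i k) ∧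
        hc P (C.A k b (ip i k)) (fun ω => (Θ i k ω, C.cell k b ω)) ≤ cJ ∧
        ∀ j ∈ CS M0 n g a R i k, H833.SatN P C b j (ip i k) (Θ i k) (full m a R j - err j))
    (heavy : ∀ i i1, g i → i < i1 → i1 ≤ n → R i + M1 < R i1 →
      m * (1 - δ₀) * ((R i1 : ℝ) - R i) - m * cw * ((a i1 : ℝ) - a i) -
        ∑ z ∈ Icc (a i) (a i + (R i1 - R i)), u z - ch -
          ∑ j ∈ Ico i i1, qc P l Zw (fun i ω => fl1 (C.a i) (C.t ω)) j ≤
        psi P l Zw (fun i => C.cell i b) i1 - psi P l Zw (fun i => C.cell i b) i) :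
    Cap P n g a R M0 M1 L1 L2 K0 m l Zw (fun i ω => fl1 (C.a i) (C.t ω)) C.T (fun i => C.cell i b)
      (fun i k j => C.A j b (ip i k)) Θ err u T (cNst K) (cCha K) cJ ch cw δ₀ where
  hZ := hZ
  hC := by
    intro i hi ω ω' p p' e
    simp only [Prod.mk.injEq] at e
    exact H833.cell_fn C (hl ω ω' p p' e.1) (hZT i hi ω ω' p p' e.2) (hZp i hi ω ω' p p' e.2)
  hτC := by
    intro i _ ω ω' _ _ e
    exact congrArg Prod.fst e
  hτ := by
    intro i _ ω ω' _ _ e
    exact C.hT i ω ω' e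
  htm := by
    intro i _ ω ω' _ _ e
    show fl1 (C.a i) (C.t ω) = fl1 (C.a i) (C.t ω')
    rw [← C.htm i ω, ← C.htm i ω', e]
  err0 := err0
  u0 := u0
  uT := uT
  hN := by
    intro i k hik hk
    exact H300.n2 P C hK hok hik (hL i (by omega))
  light := by
    classical
    intro i k i1 h1 h2 h3 h4 h5 h6 h7
    obtain ⟨e1, e2, e3, e4⟩ := hlight i k i1 h1 h2 h3 h4 h5 h6 h7
    refine ⟨fun j => if j ∈ CS M0 n g a R i k then max (full m a R j - err j) 0 else 0, ?_, ?_, ?_⟩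
    · intro j hj
      show full m a R j - err j ≤ if j ∈ CS M0 n g a R i k then max (full m a R j - err j) 0 else 0
      rw [if_pos hj]
      exact le_max_left _ _
    · intro j
      show (0 : ℝ) ≤ if j ∈ CS M0 n g a R i k then max (full m a R j - err j) 0 else 0
      split_ifs
      · exact le_max_right _ _
      · exact le_rfl
    · refine H833.wnd_cell P C hK hok e1 (fun j _ h => hL j (by omega)) l Zw e2 e3 ?_
      intro j hj1 hj2
      show (if j ∈ CS M0 n g a R i k then max (full m a R j - err j) 0 else 0) ≤ _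
      split_ifs with hj
      · exact max_le (e4 j hj) (hc_nonneg P _ _)
      · exact hc_nonneg P _ _
  heavy := heavy

end Vale.Agent.P106.U.H931
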