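import Vale.Agent.P106.U.H931.Base
import Vale.Agent.P106.U.H84.Lab0
import Vale.Agent.P106.U.S5.Props

/-!
# P106 / U / H931 : the result of the saturation `S5.SatOut` from the sum over the path (helper931)

`b = m b1` = cap = base.  Start label = 84's `lab0` of the cell `(i0, b)`; `E0 = cell i0 b`, `En = cell n' b`,
`Y = (fl1 b v, W')`.
-/

set_option autoImplicit false

namespace Vale.Agent.P106.U.H931

open Finset Vale.Agent.P127 Vale.Agent.P127.Stk Vale.Agent.P127.U Vale.Agent.P106.W Vale.Agent.P106.K Vale.Agent.P106.U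
open Vale.Agent.P127.U.CellD (q2 rd q2_pos q2_add q2_le q2_mul_pow)
open Vale.Agent.P106.U.Cell (Pth)
open Vale.Agent.P106.U.S3 (Run)

section out

variable {Ω : Type} [Fintype Ω] {τ υ : Type} {R : Run Ω τ υ} {p : Run.Num} {K c' g' gU : ℝ}

/-- the constant of the price of the cell given `W'` -/
noncomputable def cE (K c : ℝ) : ℝ :=
  6 + 10 * Real.log (2 * ⌈3 * H364.N4.cst (3 * K) (6 * c ^ 2 * K)⌉₊ + 3)

/-- price of the cell given `W'` -/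
theorem hc_cell_W' (h : R.Ok p K c' g' gU) (hK : 1 ≤ K) {c : ℝ} (hc1 : 1 ≤ c)
    (hlb : ∀ ω, 0 < R.Q.w ω → LbOk c R.L R.h (R.W ω) (R.ry ω) (R.t ω) ∧ (R.W ω).u2 = 1 ∧
      (R.W ω).u1 = (1 / 2 : ℝ) ^ R.q) {i : ℕ} (L : Lv R p K c i) :
    hc R.Q (R.C.cell i (R.m * R.b1)) R.W' ≤ cE K c * Real.sqrt (prE R.Q (R.C.Bad (cB K c) i (R.m * R.b1))) :=
  H364.N4.n4 R.Q R.C R.W' (by linarith) (by nlinarith [sq_nonneg (c - 1)])
    (fun ω hω => ok_mono (h.ok ω hω) (by linarith)) (fun ω hω => okW h hK L.le L.rk hω)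
    (det h hK hc1 hlb (by have := L.le; omega)) L.lev L.a L.A L.q L.b

theorem hc_cell_W'1 (h : R.Ok p K c' g' gU) (hK : 1 ≤ K) {c : ℝ} (hc1 : 1 ≤ c)
    (hlb : ∀ ω, 0 < R.Q.w ω → LbOk c R.L R.h (R.W ω) (R.ry ω) (R.t ω) ∧ (R.W ω).u2 = 1 ∧
      (R.W ω).u1 = (1 / 2 : ℝ) ^ R.q) {i : ℕ} (L : Lv R p K c i) :
    hc R.Q (R.C.cell i (R.m * R.b1)) R.W' ≤ cE K c := by
  have h1 := hc_cell_W' h hK hc1 hlb L
  have h2 : prE R.Q (R.C.Bad (cB K c) i (R.m * R.b1)) ≤ 1 := by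
    classical
    rw [← H300.ex_ind_eq, ← R.Q.ex_const (1 : ℝ)]
    refine R.Q.ex_mono fun ω _ => ?_
    by_cases hb : R.C.Bad (cB K c) i (R.m * R.b1) ω
    · rw [Law.ind_of hb]
    · rw [Law.ind_not hb]; norm_num
  have h3 : Real.sqrt (prE R.Q (R.C.Bad (cB K c) i (R.m * R.b1))) ≤ 1 := by
    rw [← Real.sqrt_one]
    exact Real.sqrt_le_sqrt h2
  have h4 : 0 ≤ cE K c := by
    unfold cE
    have : 0 ≤ Real.log (2 * (⌈3 * H364.N4.cst (3 * K) (6 * c ^ 2 * K)⌉₊ : ℝ) + 3) :=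
      Real.log_nonneg (by
        have : (0 : ℝ) ≤ (⌈3 * H364.N4.cst (3 * K) (6 * c ^ 2 * K)⌉₊ : ℝ) := Nat.cast_nonneg _
        linarith)
    linarith
  calc _ ≤ cE K c * 1 := h1.trans (mul_le_mul_of_nonneg_left h3 h4)
    _ = cE K c := mul_one _

/-- price of the first `n` digits of a number in `[-2, 2]` -/
theorem hc_Y2 {δ : Type} (P : Law Ω) (v : Ω → ℝ) (hv : ∀ ω, 0 < P.w ω → |v ω| ≤ 2) (n : ℕ) (Z : Ω → δ) :
    hc P (fun ω => fl1 n (v ω)) Z ≤ (n + 3) * Real.log 2 := by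
  classical
  have h1 : hc P (fun ω => fl1 n (v ω)) Z ≤ Real.log ((2 ^ (n + 3) : ℕ) : ℝ) := by
    refine hc_le_log P _ _ _ fun ω _ => ⟨Finset.Icc (-(2 * 2 ^ n : ℤ)) (2 * 2 ^ n), ?_, fun ω' hω' _ => ?_⟩
    · rw [Int.card_Icc]
      have h3 : (2 * 2 ^ n + 1 - -(2 * 2 ^ n : ℤ)).toNat = 2 * 2 ^ n + 1 + 2 * 2 ^ n := by
        have : (2 * 2 ^ n + 1 - -(2 * 2 ^ n : ℤ)) = ((2 * 2 ^ n + 1 + 2 * 2 ^ n : ℕ) : ℤ) := by push_cast; ring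
        rw [this, Int.toNat_natCast]
      rw [h3, pow_succ, pow_succ, pow_succ]
      have h4 : 1 ≤ 2 ^ n := Nat.one_le_two_pow
      omega
    · have h2 := abs_le.1 (hv ω' hω')
      have hp : (0 : ℝ) < 2 ^ n := by positivity
      rw [Finset.mem_Icc]
      unfold fl1
      constructor
      · rw [Int.le_floor]
        push_cast
        nlinarith
      · have h3 : (⌊(2 : ℝ) ^ n * v ω'⌋ : ℝ) ≤ 2 * 2 ^ n := (Int.floor_le _).trans (by nlinarith)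
        exact_mod_cast h3
  refine h1.trans (le_of_eq ?_)
  push_cast
  rw [Real.log_pow]
  push_cast
  ring

/-- price of `Y = (fl1 b v, W')` -/
theorem hc_YW (h : R.Ok p K c' g' gU) :
    hc R.Q (fun ω => (fl1 (R.m * R.b1) (R.C.l ω).v, R.W' ω)) (fun ω => (R.W ω, fl1 R.h (R.t ω), ())) ≤
      (((R.m * R.b1 : ℕ) : ℝ) + 3) * Real.log 2 + gU := by
  have h1 : hc R.Q (fun ω => (fl1 (R.m * R.b1) (R.C.l ω).v, R.W' ω)) (fun ω => (R.W ω, fl1 R.h (R.t ω), ())) ≤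
      hc R.Q (fun ω => fl1 (R.m * R.b1) (R.C.l ω).v) (fun ω => (R.W ω, fl1 R.h (R.t ω), ())) +
      hc R.Q R.W' (fun ω => (fl1 (R.m * R.b1) (R.C.l ω).v, (R.W ω, fl1 R.h (R.t ω), ()))) := by
    refine le_of_eq ?_
    exact hc_pair R.Q (fun ω => fl1 (R.m * R.b1) (R.C.l ω).v) R.W' _
  have h2 := hc_Y2 R.Q (fun ω => (R.C.l ω).v) (fun ω hω => (h.ok ω hω).v1) (R.m * R.b1) (fun ω => (R.W ω, fl1 R.h (R.t ω), ()))
  have h3 : hc R.Q R.W' (fun ω => (fl1 (R.m * R.b1) (R.C.l ω).v, (R.W ω, fl1 R.h (R.t ω), ()))) ≤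
      hc R.Q R.W' (R.F R.b1) := hc_mono_right R.Q R.W' fun ω ω' _ _ e => by
    simp only [Prod.mk.injEq] at e
    show ((R.W ω, fl1 R.h (R.t ω)), fl1 (R.m * R.b1) (R.C.l ω).v) =
      ((R.W ω', fl1 R.h (R.t ω')), fl1 (R.m * R.b1) (R.C.l ω').v)
    rw [e.1, e.2.1, e.2.2.1]
  have h4 := h.prW
  linarith

/-- **the output of the saturation** -/
theorem sat_out (h : R.Ok p K c' g' gU) (hK : 1 ≤ K) {c : ℝ} (hc1 : 1 ≤ c)
    (hlb : ∀ ω, 0 < R.Q.w ω → LbOk c R.L R.h (R.W ω) (R.ry ω) (R.t ω) ∧ (R.W ω).u2 = 1 ∧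
      (R.W ω).u1 = (1 / 2 : ℝ) ^ R.q) (hL : R.h + R.q ≤ R.L)
    {i0 n' Rn : ℕ} (L0 : Lv R p K c i0) (Ln : Lv R p K c n') {η e : ℝ}
    (hmi : (3 * ((R.C.a n' : ℝ) - R.C.a i0) + ((R.C.R n' (R.m * R.b1) : ℝ) - R.C.R i0 (R.m * R.b1))) * Real.log 2 - e ≤
      mi R.Q R.ry (R.C.cell n' (R.m * R.b1)) (R.C.cell i0 (R.m * R.b1)))
    (h1 : (3 * ((R.h : ℝ) - R.C.a n') + ((Rn : ℝ) - R.C.R n' (R.m * R.b1))) * Real.log 2 + e ≤ η * R.h)
    (h2 : (R.C.a i0 : ℝ) ≤ η * R.h)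
    (h3 : (((R.m * R.b1 : ℕ) : ℝ) + 3) * Real.log 2 + gU + 2 * cE K c ≤ η * R.h) :
    S5.SatOut η (3 * K ^ 2) R.Q R.ry R.t R.L R.h R.q Rn R.W := by
  obtain ⟨a1, a2, A, a3, a4⟩ := H84.lab0 R hK h hL (i := i0) (b := R.m * R.b1) (by have := L0.le; omega) L0.lev
  refine ⟨R.C.a i0, R.C.R i0 (R.m * R.b1), A, _, _, _, R.C.cell i0 (R.m * R.b1), R.C.cell n' (R.m * R.b1),
    fun ω => (fl1 (R.m * R.b1) (R.C.l ω).v, R.W' ω), h2, a1, a2, a3, ?_, ?_⟩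
  · rw [a4]
    have b1 := hc_YW h
    have b2 := hc_cell_W'1 h hK hc1 hlb L0
    have b3 := hc_cell_W'1 h hK hc1 hlb Ln
    have b4 : hc R.Q (fun ω => (R.C.cell n' (R.m * R.b1) ω, R.C.cell i0 (R.m * R.b1) ω))
        (fun ω => ((fl1 (R.m * R.b1) (R.C.l ω).v, R.W' ω), R.W ω, fl1 R.h (R.t ω), ())) ≤
        hc R.Q (R.C.cell n' (R.m * R.b1)) R.W' + hc R.Q (R.C.cell i0 (R.m * R.b1)) R.W' := by
      have e1 : hc R.Q (fun ω => (R.C.cell n' (R.m * R.b1) ω, R.C.cell i0 (R.m * R.b1) ω))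
        (fun ω => ((fl1 (R.m * R.b1) (R.C.l ω).v, R.W' ω), R.W ω, fl1 R.h (R.t ω), ())) ≤
          hc R.Q (fun ω => (R.C.cell n' (R.m * R.b1) ω, R.C.cell i0 (R.m * R.b1) ω)) R.W' :=
        hc_mono_right R.Q _ fun ω ω' _ _ e => by
          simp only [Prod.mk.injEq] at e
          exact e.1.2
      have e2 := hc_pair R.Q (R.C.cell n' (R.m * R.b1)) (R.C.cell i0 (R.m * R.b1)) R.W'
      have e3 : hc R.Q (R.C.cell i0 (R.m * R.b1)) (fun ω => (R.C.cell n' (R.m * R.b1) ω, R.W' ω)) ≤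
          hc R.Q (R.C.cell i0 (R.m * R.b1)) R.W' := hc_mono_right R.Q _ fun ω ω' _ _ e => by
        simp only [Prod.mk.injEq] at e
        exact e.2
      linarith
    linarith
  · have e1 : (3 * ((R.h : ℝ) - R.C.a i0) + ((Rn : ℝ) - R.C.R i0 (R.m * R.b1))) * Real.log 2 =
        (3 * ((R.C.a n' : ℝ) - R.C.a i0) + ((R.C.R n' (R.m * R.b1) : ℝ) - R.C.R i0 (R.m * R.b1))) * Real.log 2 +
        (3 * ((R.h : ℝ) - R.C.a n') + ((Rn : ℝ) - R.C.R n' (R.m * R.b1))) * Real.log 2 := by ring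
    rw [e1]
    linarith

end out

end Vale.Agent.P106.U.H931
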