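import Vale.Agent.P106.U.MIC.PSat
import Vale.Agent.P106.U.H931.Out

/-!
# P106 / U / H931 : `MIC.PEnd` from `sat_out` (helper931)

* `lv_of` : the data `Lv` of a state of the run with smaller margin, from `RunOk`.
* `end_of` : `SatOut` for one run.
* `pEnd_of` : `MIC.PEnd RA`.
-/

set_option autoImplicit false

namespace Vale.Agent.P106.U.H931

open Finset Vale.Agent.P127 Vale.Agent.P127.Stk Vale.Agent.P127.U Vale.Agent.P106.W Vale.Agent.P106.K Vale.Agent.P106.U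
open Vale.Agent.P127.U.CellD (q2 rd q2_pos q2_add q2_le q2_mul_pow)
open Vale.Agent.P106.U.Cell (Pth)
open Vale.Agent.P106.U.S3 (Run)
open Vale.Agent.P106.U.S5
open Vale.Agent.P106.U.H833 (aN RN lev_a lev_R)
open Vale.Agent.P106.U.H101 (lc low low_ok)
open Vale.Agent.P106.U.H823
open Vale.Agent.P106.U.MIC (bc ix nz az)

section num

variable {σ : Cst} {ε : ℝ} {ρ : Thr} {m B : ℕ} {Ω : Type} [Fintype Ω] {Q : Law Ω} {l : Ω → Ry} {t : Ω → ℝ}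
  {L h q r0 Rn : ℕ} {W : Ω → Cbx} {τ υ : Type} {R : Run Ω τ υ} {pn : Run.Num} {g' gU e κ₀ : ℝ} {a1 r1 : ℕ}

theorem q2_small {x : ℝ} {n k : ℕ} (hx : x ≤ 2 ^ n) (hk : n ≤ k) : x * q2 k ≤ 1 := by
  have h1 := q2_le hk
  have h2 := q2_pos k
  have h3 : (2 : ℝ) ^ n * q2 n = 1 := q2_mul_pow n
  have h4 : (2 : ℝ) ^ n * q2 k ≤ 2 ^ n * q2 n := mul_le_mul_of_nonneg_left h1 (by positivity)
  have h5 : x * q2 k ≤ 2 ^ n * q2 k := mul_le_mul_of_nonneg_right hx h2.le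
  linarith

theorem rk_stop (H : R.Path pn) : R.C.rk R.n ≤ pn.QK + R.m := by
  rcases Nat.eq_zero_or_pos R.n with h0 | h0
  · rw [h0, H.k0]
    have := H.rK.1
    omega
  · obtain ⟨k, hk⟩ : ∃ k, R.n = k + 1 := ⟨R.n - 1, by omega⟩
    have h1 := H.stop k (by omega)
    have h2 := H.stp k (by omega)
    rw [hk]
    rcases h2 with ⟨_, _, h2⟩ | ⟨_, _, h2⟩ | ⟨_, _, h2⟩ <;> omega

theorem lv_of (H : RunOk σ ε ρ m B Q l t L h q r0 Rn W R pn g' gU e κ₀ a1 r1) (hσ : σ.Ok) (hρ : ρ.Ok)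
    (haA : R.C.a R.n ≤ pn.A') (hrm : 100 * (m * B) ≤ r0) (hB : (3 * ρ.K) ^ 2 * (6 * 100 ^ 2 * ρ.K) ≤ 2 ^ B)
    {μ : ℕ} (o : Fin 7 → ℝ) (hμ : μ ≤ R.C.μ) {i : ℕ} (hi : i ≤ R.n) : Lv (low R μ o) pn ρ.K 100 i := by
  have hK := hρ.K1
  have hP := H.ok.pth
  have hm1 : 1 ≤ R.m := hP.m1
  have hm : R.m = m := H.hm
  have hB1 : 8 * B < R.b1 := H.cap.low
  have hμ1 : R.C.μ = m * B := H.hμ
  have hrk : r0 ≤ R.C.rk i := by
    have h1 := R.C.hk (Nat.zero_le i)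
    have h2 := hP.k0
    have h3 := H.hr0
    omega
  have hb : 8 * (m * B) ≤ R.m * R.b1 := by
    rw [hm]
    calc 8 * (m * B) = m * (8 * B) := by ring
      _ ≤ m * R.b1 := Nat.mul_le_mul_left m hB1.le
  have hmB : B ≤ m * B := Nat.le_mul_of_pos_left B (by omega)
  have hK2 : 2 * ρ.K ^ 2 ≤ (3 * ρ.K) ^ 2 * (6 * 100 ^ 2 * ρ.K) := by
    have h1 : (0 : ℝ) ≤ ρ.K ^ 2 := sq_nonneg _
    have h2 : ρ.K ^ 2 ≤ ρ.K ^ 2 * ρ.K := le_mul_of_one_le_right h1 hK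
    nlinarith
  have hRi : R.C.R i (R.m * R.b1) ≤ R.C.rk i + R.m * R.b1 := by
    show R.C.rk i + min (R.m * R.b1) (R.C.rf i - R.C.rk i) ≤ _
    have := min_le_left (R.m * R.b1) (R.C.rf i - R.C.rk i)
    omega
  have hRi' : R.C.rk i ≤ R.C.R i (R.m * R.b1) := Nat.le_add_right _ _
  refine ⟨hi, ?_, ?_, ?_, ?_, ?_, ?_⟩
  · exact q2_small (hK2.trans hB) (by show B ≤ R.C.rk i; omega)
  · show 8 * μ ≤ R.m * R.b1 ∧ 8 * μ ≤ (lc R.C μ o).R i (R.m * R.b1)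
    rw [H101.lc_R]
    omega
  · exact (R.C.ha hi).trans haA
  · have h1 := H.cap.room
    show pn.A' + 2 * (R.m * R.b1) ≤ R.h
    have h2 : R.m * (R.b1 + B) = R.m * R.b1 + R.m * B := Nat.mul_add _ _ _
    omega
  · show (lc R.C μ o).R i (R.m * R.b1) + R.m * R.b1 ≤ R.q
    rw [H101.lc_R, H.hq]
    have h1 := R.C.hk hi
    have h2 := rk_stop hP
    have h3 : R.m * 1 ≤ R.m * R.b1 := Nat.mul_le_mul_left _ (by omega)
    have h4 := H.cap.top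
    have h5 : R.m * (R.b1 + B) = R.m * R.b1 + R.m * B := Nat.mul_add _ _ _
    have h6 : R.C.R i (R.m * R.b1) + R.m * R.b1 ≤ pn.QK + 3 * pn.B₁ := by omega
    have h7 := H.QK1
    have h8 := H.B1
    have hC1 : 1 ≤ σ.C1 := by
      have := hσ.bs.lam0
      show 1 ≤ 1000 / σ.lam + 1
      have : (0 : ℝ) ≤ 1000 / σ.lam := by positivity
      linarith
    have h9 : 4 * σ.δ1 * h ≤ 4 * σ.C1 * σ.δ1 * h := by
      have h10 : 0 ≤ σ.δ1 * h := mul_nonneg hσ.δ0.le (Nat.cast_nonneg h)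
      nlinarith
    have h11 : ((R.C.R i (R.m * R.b1) + R.m * R.b1 : ℕ) : ℝ) ≤ q := by
      have h12 : ((R.C.R i (R.m * R.b1) + R.m * R.b1 : ℕ) : ℝ) ≤ ((pn.QK + 3 * pn.B₁ : ℕ) : ℝ) := by exact_mod_cast h6
      have h10 : 0 ≤ σ.δ1 * h := mul_nonneg hσ.δ0.le (Nat.cast_nonneg h)
      push_cast at h12 ⊢
      nlinarith
    exact_mod_cast h11
  · exact q2_small hB (by show B ≤ 2 * (R.m * R.b1); omega)

/-- **`SatOut` for one run** -/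
theorem end_of (H : RunOk σ ε ρ m B Q l t L h q r0 Rn W R pn g' gU e κ₀ a1 r1) (hσ : σ.Ok) (hρ : ρ.Ok)
    (hlb : ∀ ω, 0 < Q.w ω → LbOk 100 L h (W ω) (l ω) (t ω) ∧ (W ω).u2 = 1 ∧ (W ω).u1 = (1 / 2 : ℝ) ^ q)
    (hL : h + q ≤ L)
    (haA : R.C.a R.n ≤ pn.A') (hrm : 100 * (m * B) ≤ r0) (hB : (3 * ρ.K) ^ 2 * (6 * 100 ^ 2 * ρ.K) ≤ 2 ^ B)
    {η : ℝ} (hη : 0 < η) (hθ : σ.θ ≤ η / 6) (hδ : σ.δ1 ≤ η / 8) (hε : ε ≤ η / 8)
    (hh : 3 + 2 * cE ρ.K 100 ≤ η / 4 * h) {i0 : ℕ} (h2 : ((R.C.a (ix R i0 0) : ℕ) : ℝ) ≤ η * h)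
    (h3 : i0 ≤ Cmp.Nc R R.b1) {μ : ℕ} {o : Fin 7 → ℝ} (hμ : μ ≤ R.C.μ)
    (hmi : 3 * (m * Real.log 2) * ((az R i0 (nz R i0) : ℝ) - az R i0 0) +
        m * Real.log 2 * ((MIC.rz R i0 (nz R i0) : ℝ) - MIC.rz R i0 0) - η / 2 * h ≤
      mi R.Q R.ry ((lc R.C μ o).cell (ix R i0 (nz R i0)) (bc R)) ((lc R.C μ o).cell (ix R i0 0) (bc R))) :
    SatOut η (3 * ρ.K ^ 2) Q l t L h q Rn W := by
  have hP := H.ok.pth
  have hnz : ix R i0 (nz R i0) = R.n := by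
    unfold ix nz
    rw [Nat.add_sub_cancel' h3]
    exact Cmp.idx_top
  have hi0 : ix R i0 0 ≤ R.n := Cmp.idx_le _
  have L0 := lv_of H hσ hρ haA hrm hB o hμ hi0
  have Ln := lv_of H hσ hρ haA hrm hB o hμ (le_refl R.n)
  have hl1 : Real.log 2 < 1 := by
    have := Real.log_two_lt_d9
    linarith
  have hl0 : 0 < Real.log 2 := Real.log_pos (by norm_num)
  have hh0 : (0 : ℝ) ≤ h := Nat.cast_nonneg h
  have hex := H.ex
  have haA' : R.C.a R.n ≤ R.h := haA.trans hP.rA'.2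
  have hRn : (Rn : ℝ) ≤ R.C.R R.n (R.m * R.b1) := by
    have h1 : Rn ≤ R.C.R R.n (R.m * R.b1) := by
      rw [H.hRn]
      exact Nat.le_add_right _ _
    exact_mod_cast h1
  have hb : ((R.m * R.b1 : ℕ) : ℝ) ≤ σ.δ1 * h := by
    have h1 := H.cap.top
    have h2 : R.m * (R.b1 + B) = R.m * R.b1 + R.m * B := Nat.mul_add _ _ _
    have h3 : R.m * R.b1 ≤ pn.B₁ := by omega
    have h4 : ((R.m * R.b1 : ℕ) : ℝ) ≤ pn.B₁ := by exact_mod_cast h3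
    linarith [H.B1]
  -- the information in digits
  have hmi' : (3 * (((low R μ o).C.a R.n : ℝ) - (low R μ o).C.a (ix R i0 0)) +
      (((low R μ o).C.R R.n ((low R μ o).m * (low R μ o).b1) : ℝ) -
        (low R μ o).C.R (ix R i0 0) ((low R μ o).m * (low R μ o).b1))) * Real.log 2 - η / 2 * h ≤
      mi (low R μ o).Q (low R μ o).ry ((low R μ o).C.cell R.n ((low R μ o).m * (low R μ o).b1))
        ((low R μ o).C.cell (ix R i0 0) ((low R μ o).m * (low R μ o).b1)) := by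
    rw [hnz] at hmi
    refine le_trans (le_of_eq ?_) hmi
    show (3 * ((R.C.a R.n : ℝ) - R.C.a (ix R i0 0)) + (((lc R.C μ o).R R.n (R.m * R.b1) : ℝ) -
      (lc R.C μ o).R (ix R i0 0) (R.m * R.b1))) * Real.log 2 - η / 2 * h = _
    have e1 : R.C.a R.n = R.m * az R i0 (nz R i0) := by
      unfold az
      rw [hnz]
      exact lev_a hP (by omega)
    have e2 : R.C.a (ix R i0 0) = R.m * az R i0 0 := lev_a hP (by omega)
    have e3 : R.C.R R.n (R.m * R.b1) = R.r0 + R.m * MIC.rz R i0 (nz R i0) := by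
      unfold MIC.rz
      rw [hnz]
      exact lev_R hP R.b1 (by omega)
    have e4 : R.C.R (ix R i0 0) (R.m * R.b1) = R.r0 + R.m * MIC.rz R i0 0 := lev_R hP R.b1 (by omega)
    rw [H101.lc_R, e1, e2, e3, e4, H.hm]
    push_cast
    ring
  have key := sat_out (R := low R μ o) (low_ok o hμ H.ok) hρ.K1 (c := 100) (by norm_num)
    (by
      intro ω hω
      have hω' : 0 < Q.w ω := by
        rw [← H.hQ]
        exact hω
      have := hlb ω hω'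
      show LbOk 100 R.L R.h (R.W ω) (R.ry ω) (R.t ω) ∧ (R.W ω).u2 = 1 ∧ (R.W ω).u1 = (1 / 2 : ℝ) ^ R.q
      rw [H.hL, H.hh, H.hW, H.hry, H.ht, H.hq]
      exact this)
    (by
      show R.h + R.q ≤ R.L
      rw [H.hL, H.hh, H.hq]
      exact hL) (Rn := Rn) L0 Ln hmi' (η := η)
    (by
      show (3 * ((R.h : ℝ) - R.C.a R.n) + ((Rn : ℝ) - (lc R.C μ o).R R.n (R.m * R.b1))) * Real.log 2 + η / 2 * h ≤
        η * R.h
      rw [H101.lc_R, H.hh]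
      have g0 : σ.θ * h ≤ η / 6 * h := mul_le_mul_of_nonneg_right hθ hh0
      have g1 : 3 * ((h : ℝ) - R.C.a R.n) + ((Rn : ℝ) - R.C.R R.n (R.m * R.b1)) ≤ η / 2 * h := by linarith
      have g2 : (0 : ℝ) ≤ η / 2 * h := by positivity
      have g3 := mul_le_mul_of_nonneg_right g1 hl0.le
      have g4 : η / 2 * h * Real.log 2 ≤ η / 2 * h := mul_le_of_le_one_right g2 hl1.le
      linarith)
    (by
      show (R.C.a (ix R i0 0) : ℝ) ≤ η * R.h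
      rw [H.hh]
      exact h2)
    (by
      show (((R.m * R.b1 : ℕ) : ℝ) + 3) * Real.log 2 + gU + 2 * cE ρ.K 100 ≤ η * R.h
      rw [H.hh]
      have g1 := H.gU1
      have g2 : σ.δ1 * h ≤ η / 8 * h := mul_le_mul_of_nonneg_right hδ hh0
      have g3 : ε * h ≤ η / 8 * h := mul_le_mul_of_nonneg_right hε hh0
      have g4 : (0 : ℝ) ≤ ((R.m * R.b1 : ℕ) : ℝ) + 3 := by positivity
      have g5 : (((R.m * R.b1 : ℕ) : ℝ) + 3) * Real.log 2 ≤ ((R.m * R.b1 : ℕ) : ℝ) + 3 := mul_le_of_le_one_right g4 hl1.le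
      have g6 : (0 : ℝ) ≤ η * h := by positivity
      linarith)
  have key' : SatOut η (3 * ρ.K ^ 2) R.Q R.ry R.t R.L R.h R.q Rn R.W := key
  rw [H.hQ, H.hry, H.ht, H.hL, H.hh, H.hq, H.hW] at key'
  exact key'

end num

/-- **`PEnd`** from the two fields `aA`, `rm` -/
theorem pEnd_of (hx : ∀ {σ : Cst} {ε : ℝ} {ρ : Thr} {m B : ℕ} {Ω : Type} [Fintype Ω] {Q : Law Ω} {l : Ω → Ry} {t : Ω → ℝ}
    {L h q r0 Rn : ℕ} {W : Ω → Cbx} {τ υ : Type} {R : Run Ω τ υ} {pn : Run.Num} {g' gU e κ₀ : ℝ} {a1 r1 : ℕ},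
    RunOk σ ε ρ m B Q l t L h q r0 Rn W R pn g' gU e κ₀ a1 r1 → R.C.a R.n ≤ pn.A' ∧ 100 * (m * B) ≤ r0) : MIC.PEnd := by
  intro b _ η hη
  refine ⟨η / 6, by positivity, fun θ _ hθ1 => ⟨η / 8, by positivity, fun δ1 _ hδ1 σ hσ hσO =>
    ⟨η / 8, by positivity, fun ε _ hε1 ρ hρ g _ => ⟨3 * ρ.K ^ 2, ?_, 0, fun m _ => ?_⟩⟩⟩⟩
  · have := hρ.K1
    nlinarith
  obtain ⟨B0, hB0⟩ := pow_unbounded_of_one_lt ((3 * ρ.K) ^ 2 * (6 * 100 ^ 2 * ρ.K)) (one_lt_two : (1 : ℝ) < 2)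
  refine ⟨B0, fun B hB => ?_⟩
  obtain ⟨h0, hh0⟩ := exists_nat_gt ((3 + 2 * cE ρ.K 100) / (η / 4))
  refine ⟨h0, ?_⟩
  intro Ω _ Q l t L h q r0 Rn W hh hne τ υ R pn g' gU e κ₀ a1 r1 H i0 h1 h2 μ o hμ _ hmi
  obtain ⟨x1, x2⟩ := hx H
  have hh0' : (0 : ℝ) ≤ h := Nat.cast_nonneg h
  refine end_of H hσO hρ hne.lb hne.hL x1 x2 ?_ hη ?_ ?_ hε1 ?_ (h1.trans ?_) h2 hμ hmi
  · exact hB0.le.trans (pow_le_pow_right₀ (by norm_num) hB)
  · rw [hσ]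
    exact hθ1
  · rw [hσ]
    exact hδ1
  · have h3 : (3 + 2 * cE ρ.K 100) / (η / 4) < h := hh0.trans_le (by exact_mod_cast hh)
    rw [div_lt_iff₀ (by positivity)] at h3
    linarith
  · have : η / 40 ≤ η := by linarith
    exact mul_le_mul_of_nonneg_right this hh0'

/-- **`PEnd`** -/
theorem pEnd : MIC.PEnd := pEnd_of fun H => ⟨H.aA, H.rm⟩

end Vale.Agent.P106.U.H931
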