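import Vale.Agent.P106.U.MIC.Rows

/-!
# P106 / U / H931 : [SC] kind 0, the sum of the collisions over the counted steps (helper931)

`coll j = 2 e1 + 2 w j`, `w j = A0 + A1 · P(Bad K' (f (j+1)) b)`, `f = ix R i0`, sum over `j < nz R i0`.

* `lev_sum`, `n_le` : `m n ≤ (2 K1 + 3) h`.
* `sum_ix` : a sum over the compressed path is at most the sum over the path.
* `bad_sum` : from the field `off` of `F2o`.
* `sc0` : the sum.
-/

set_option autoImplicit false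

namespace Vale.Agent.P106.U.H931

open Finset Vale.Agent.P127 Vale.Agent.P127.Stk Vale.Agent.P127.U Vale.Agent.P106.W Vale.Agent.P106.K Vale.Agent.P106.U
open Vale.Agent.P127.U.CellD (q2 q2_pos)
open Vale.Agent.P106.U.S3 (Run Pf F2o)
open Vale.Agent.P106.U.S5
open Vale.Agent.P106.U.H833 (aN RN kN fN lev_a lev_k lev_f)
open Vale.Agent.P106.U.H101 (lc)
open Vale.Agent.P106.U.H823
open Vale.Agent.P106.U.MIC (bc ix nz az)

section comb

variable {Ω : Type} [Fintype Ω] {τ υ : Type} {R : Run Ω τ υ} {p : Run.Num}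

theorem lev_sum (hP : R.Path p) : ∀ i ≤ R.n + p.J, aN R i + kN R i + fN R i = i := by
  intro i
  induction i with
  | zero =>
    intro _
    have h1 := Cmp.aN_zero hP
    have h2 : kN R 0 = 0 := by
      unfold kN
      rw [hP.k0, Nat.sub_self, Nat.zero_div]
    have h3 : fN R 0 = 0 := by
      unfold fN
      rw [hP.f0, Nat.sub_self, Nat.zero_div]
    omega
  | succ i ih =>
    intro h
    have h1 := ih (by omega)
    rcases H833.stepN hP (i := i) (by omega) with ⟨a, b, c, _⟩ | ⟨a, b, c, _⟩ | ⟨a, b, c, _⟩ <;> omega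

theorem sum_ix (hP : R.Path p) {i0 : ℕ} (f : ℕ → ℝ) (hf : ∀ k, 0 ≤ f k) :
    ∑ j ∈ range (nz R i0), f (ix R i0 (j + 1)) ≤ ∑ k ∈ range (R.n + p.J + 1), f k := by
  classical
  have inj : ∀ x ∈ range (nz R i0), ∀ y ∈ range (nz R i0), ix R i0 (x + 1) = ix R i0 (y + 1) → x = y := by
    have key : ∀ x y, x < y → y < nz R i0 → ix R i0 (x + 1) ≠ ix R i0 (y + 1) := by
      intro x y hxy hy
      have h1 : i0 + (x + 1) < Cmp.Nc R R.b1 := by
        unfold nz at hy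
        omega
      have h2 := Cmp.idx_strict hP (x := R.b1) (j := i0 + (x + 1)) (k := i0 + (y + 1)) (by omega) h1
      exact h2.ne
    intro x hx y hy e
    rw [Finset.mem_range] at hx hy
    rcases lt_trichotomy x y with h | h | h
    · exact absurd e (key x y h hy)
    · exact h
    · exact absurd e.symm (key y x h hx)
  rw [← Finset.sum_image (f := f) (g := fun j => ix R i0 (j + 1)) inj]
  refine Finset.sum_le_sum_of_subset_of_nonneg ?_ fun k _ _ => hf k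
  intro k hk
  obtain ⟨j, _, rfl⟩ := Finset.mem_image.1 hk
  have := Cmp.idx_le (R := R) (x := R.b1) (i0 + (j + 1))
  rw [Finset.mem_range]
  show Cmp.idx R R.b1 (i0 + (j + 1)) < _
  omega

end comb

section num

variable {σ : Cst} {ε : ℝ} {ρ : Thr} {m B : ℕ} {Ω : Type} [Fintype Ω] {Q : Law Ω} {l : Ω → Ry} {t : Ω → ℝ}
  {L h q r0 Rn : ℕ} {W : Ω → Cbx} {τ υ : Type} {R : Run Ω τ υ} {pn : Run.Num} {g' gU e κ₀ : ℝ} {a1 r1 : ℕ}

/-- number of steps of the path -/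
theorem n_le (H : RunOk σ ε ρ m B Q l t L h q r0 Rn W R pn g' gU e κ₀ a1 r1) :
    (m : ℝ) * R.n ≤ (2 * σ.K1 + 3) * h := by
  have hP := H.ok.pth
  have e1 := lev_sum hP R.n (by omega)
  have e2 := lev_a hP (i := R.n) (by omega)
  have e3 := lev_k hP (i := R.n) (by omega)
  have e4 := lev_f hP (i := R.n) (by omega)
  have e5 := hP.leF R.n (by omega)
  have e6 := hP.rF
  have e7 := R.C.hkf R.n
  have e8 := H.aA
  have e9 := hP.rA'
  have e10 := H.qr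
  have hm := H.hm
  have hh := H.hh
  have hq := H.hq
  have hr := H.hr0
  rw [← hm]
  have f1 : R.m * R.n = R.m * aN R R.n + R.m * kN R R.n + R.m * fN R R.n := by
    rw [← Nat.mul_add, ← Nat.mul_add, e1]
  have f2 : R.m * R.n + 2 * r0 ≤ h + 2 * q := by omega
  have f3 : ((R.m * R.n + 2 * r0 : ℕ) : ℝ) ≤ ((h + 2 * q : ℕ) : ℝ) := by exact_mod_cast f2
  push_cast at f3
  linarith

theorem nz_le {i0 : ℕ} (H : RunOk σ ε ρ m B Q l t L h q r0 Rn W R pn g' gU e κ₀ a1 r1) :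
    (m : ℝ) * nz R i0 ≤ (2 * σ.K1 + 3) * h := by
  refine le_trans ?_ (n_le H)
  have h1 : nz R i0 ≤ R.n := by
    unfold nz
    have := Cmp.Nc_le H.ok.pth (x := R.b1)
    omega
  have h2 : (nz R i0 : ℝ) ≤ R.n := by exact_mod_cast h1
  exact mul_le_mul_of_nonneg_left h2 (Nat.cast_nonneg m)

/-- the exceptional events along the compressed path -/
theorem bad_sum (H : RunOk σ ε ρ m B Q l t L h q r0 Rn W R pn g' gU e κ₀ a1 r1) (hJ : (m : ℝ) * (ρ.J + 1) ≤ h)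
    {π : Type} {bS bV : ℕ} {F : Pf R π} {Vs Xs : Finset ℕ} {μ : ℕ} {K' : ℝ} {o : Fin 7 → ℝ} {o' : ℕ → ℝ}
    (Fo : F2o R pn B bS bV F Vs Xs μ K' o o') {i0 : ℕ} :
    (m : ℝ) * ∑ j ∈ range (nz R i0), prE R.Q ((lc R.C μ o).Bad K' (ix R i0 (j + 1)) (bc R)) ≤
      K' ^ 2 * q2 (μ / 4) * ((2 * σ.K1 + 4) * h) := by
  have hP := H.ok.pth
  have n0 : ∀ (E : Ω → Prop), 0 ≤ prE R.Q E := fun E => prE_nonneg R.Q E
  have s1 := sum_ix hP (i0 := i0) (fun k => S3.exc R.Q (lc R.C μ o) K' k (R.m * R.b1) + S3.exc R.Q (lc R.C μ o) K' k bS)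
    (fun k => by
      unfold S3.exc
      have a := n0 ((lc R.C μ o).Bad K' k (R.m * R.b1))
      have a2 := n0 (H420.BadS (lc R.C μ o) K' k (R.m * R.b1))
      have a3 := n0 (H300.BadR (lc R.C μ o) K' k (R.m * R.b1))
      have b := n0 ((lc R.C μ o).Bad K' k bS)
      have b2 := n0 (H420.BadS (lc R.C μ o) K' k bS)
      have b3 := n0 (H300.BadR (lc R.C μ o) K' k bS)
      linarith)
  have s2 : ∑ j ∈ range (nz R i0), prE R.Q ((lc R.C μ o).Bad K' (ix R i0 (j + 1)) (bc R)) ≤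
      ∑ j ∈ range (nz R i0), (S3.exc R.Q (lc R.C μ o) K' (ix R i0 (j + 1)) (R.m * R.b1) +
        S3.exc R.Q (lc R.C μ o) K' (ix R i0 (j + 1)) bS) := by
    refine Finset.sum_le_sum fun j _ => ?_
    unfold S3.exc
    have a2 := n0 (H420.BadS (lc R.C μ o) K' (ix R i0 (j + 1)) (R.m * R.b1))
    have a3 := n0 (H300.BadR (lc R.C μ o) K' (ix R i0 (j + 1)) (R.m * R.b1))
    have b := n0 ((lc R.C μ o).Bad K' (ix R i0 (j + 1)) bS)
    have b2 := n0 (H420.BadS (lc R.C μ o) K' (ix R i0 (j + 1)) bS)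
    have b3 := n0 (H300.BadR (lc R.C μ o) K' (ix R i0 (j + 1)) bS)
    show prE R.Q ((lc R.C μ o).Bad K' (ix R i0 (j + 1)) (R.m * R.b1)) ≤ _
    linarith
  have s3 := Fo.off
  have hn := n_le H
  have e : (m : ℝ) * ((R.n : ℝ) + pn.J + 1) ≤ (2 * σ.K1 + 4) * h := by
    rw [H.hJ]
    nlinarith
  have hq := q2_pos (μ / 4)
  have s4 : ∑ j ∈ range (nz R i0), prE R.Q ((lc R.C μ o).Bad K' (ix R i0 (j + 1)) (bc R)) ≤
      K' ^ 2 * ((R.n : ℝ) + pn.J + 1) * q2 (μ / 4) := s2.trans (s1.trans s3)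
  calc (m : ℝ) * _ ≤ m * (K' ^ 2 * ((R.n : ℝ) + pn.J + 1) * q2 (μ / 4)) :=
        mul_le_mul_of_nonneg_left s4 (Nat.cast_nonneg m)
    _ = K' ^ 2 * q2 (μ / 4) * (m * ((R.n : ℝ) + pn.J + 1)) := by ring
    _ ≤ _ := mul_le_mul_of_nonneg_left e (by positivity)

/-- **[SC], kind 0** : the sum of the collisions -/
theorem sc0 (H : RunOk σ ε ρ m B Q l t L h q r0 Rn W R pn g' gU e κ₀ a1 r1) (hσ : σ.Ok) (hJ : (m : ℝ) * (ρ.J + 1) ≤ h)
    {π : Type} {bS bV : ℕ} {F : Pf R π} {Vs Xs : Finset ℕ} {μ : ℕ} {K' : ℝ} {o : Fin 7 → ℝ} {o' : ℕ → ℝ}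
    (Fo : F2o R pn B bS bV F Vs Xs μ K' o o') {i0 : ℕ} {e1 A0 A1 κ : ℝ} (he1 : 0 ≤ e1) (hA0 : 0 ≤ A0) (hA1 : 0 ≤ A1)
    (hκ : (2 * σ.K1 + 4) * (2 * e1 + 2 * A0 + 2 * A1 * (K' ^ 2 * q2 (μ / 4))) ≤ κ) :
    (m : ℝ) * ∑ j ∈ range (nz R i0), (2 * e1 + 2 * (A0 + A1 *
      prE R.Q ((lc R.C μ o).Bad K' (ix R i0 (j + 1)) (bc R)))) ≤ κ * h := by
  have b1 := bad_sum H hJ Fo (i0 := i0)
  have b2 := nz_le H (i0 := i0)
  have hh : (0 : ℝ) ≤ h := Nat.cast_nonneg h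
  have hK1 := hσ.bs.K10
  have e2 : (m : ℝ) * ∑ j ∈ range (nz R i0), (2 * e1 + 2 * (A0 + A1 *
      prE R.Q ((lc R.C μ o).Bad K' (ix R i0 (j + 1)) (bc R)))) =
      (2 * e1 + 2 * A0) * (m * nz R i0) + 2 * A1 * (m * ∑ j ∈ range (nz R i0),
        prE R.Q ((lc R.C μ o).Bad K' (ix R i0 (j + 1)) (bc R))) := by
    have e3 : ∀ j, (2 * e1 + 2 * (A0 + A1 * prE R.Q ((lc R.C μ o).Bad K' (ix R i0 (j + 1)) (bc R)))) =
        (2 * e1 + 2 * A0) + 2 * A1 * prE R.Q ((lc R.C μ o).Bad K' (ix R i0 (j + 1)) (bc R)) := fun j => by ring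
    rw [Finset.sum_congr rfl fun j _ => e3 j, Finset.sum_add_distrib, Finset.sum_const, card_range, nsmul_eq_mul,
      ← Finset.mul_sum]
    ring
  rw [e2]
  have c1 : (2 * e1 + 2 * A0) * (m * nz R i0) ≤ (2 * e1 + 2 * A0) * ((2 * σ.K1 + 4) * h) := by
    refine mul_le_mul_of_nonneg_left (b2.trans ?_) (by positivity)
    exact mul_le_mul_of_nonneg_right (by linarith) hh
  have c2 : 2 * A1 * (m * ∑ j ∈ range (nz R i0), prE R.Q ((lc R.C μ o).Bad K' (ix R i0 (j + 1)) (bc R))) ≤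
      2 * A1 * (K' ^ 2 * q2 (μ / 4) * ((2 * σ.K1 + 4) * h)) := mul_le_mul_of_nonneg_left b1 (by positivity)
  have c3 := mul_le_mul_of_nonneg_right hκ hh
  calc _ ≤ (2 * e1 + 2 * A0) * ((2 * σ.K1 + 4) * h) + 2 * A1 * (K' ^ 2 * q2 (μ / 4) * ((2 * σ.K1 + 4) * h)) :=
        add_le_add c1 c2
    _ = (2 * σ.K1 + 4) * (2 * e1 + 2 * A0 + 2 * A1 * (K' ^ 2 * q2 (μ / 4))) * h := by ring
    _ ≤ κ * h := c3

end num

end Vale.Agent.P106.U.H931
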