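import Vale.Agent.P106.U.H931.SE0

/-!
# P106 / U / H931 : the numbers of [SC] kind 0 (helper931)

`e1S`, `A0S`, `A1S` : the constants of helper457's `colN_all` (`w j = A0 + A1 · P(Bad)`) at the accuracy `eG ε ρ`.

* **`num_sc`** : for small `ε` and then large `m` : `(2 K1 + 4) (2 e1 + 2 A0 + 2 A1 K'² 2^-(μ/4)) ≤ κ`.
-/

set_option autoImplicit false

namespace Vale.Agent.P106.U.H931

open Finset Filter Vale.Agent.P127 Vale.Agent.P127.Stk Vale.Agent.P127.U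
open Vale.Agent.P127.U.CellD (q2 q2_pos q2_le)
open Vale.Agent.P106.U.S5
open Vale.Agent.P106.U.H652 (Ev3 ev_con ev_q20 ev_nat)
open Vale.Agent.P106.U.MIC (eG)

noncomputable def Kc (ρ : Thr) : ℕ := ⌈ρ.K⌉₊

noncomputable def e1S (ε : ℝ) (ρ : Thr) : ℝ :=
  Real.sqrt (((2 * Kc ρ + 3 : ℕ) : ℝ) * ((2 * (Kc ρ + 1 : ℕ) + 1) * eG ε ρ)) + 10 * eG ε ρ

noncomputable def NnS (ρ : Thr) : ℕ := ⌈40 * ((3 * ρ.K) ^ 5 * (6 * 100 ^ 2 * ρ.K)) + 2 * ρ.K⌉₊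

noncomputable def A0S (ε : ℝ) (ρ : Thr) (g : ℕ) : ℝ :=
  (36 * eG ε ρ + 6 * q2 (2 * g)) / ρ.c' + (4 * Real.sqrt (((2 * NnS ρ + 3 : ℕ) : ℝ) * ε) + 2 * ε)

noncomputable def A1S (ρ : Thr) : ℝ := 3 / ρ.c'

variable {ε : ℝ} {ρ : Thr}

theorem K_le_Kc (ρ : Thr) : ρ.K ≤ Kc ρ := Nat.le_ceil _

theorem Nn_le (ρ : Thr) : 40 * ((3 * ρ.K) ^ 5 * (6 * 100 ^ 2 * ρ.K)) + 2 * ρ.K ≤ NnS ρ := Nat.le_ceil _

theorem eG_nonneg (hε : 0 ≤ ε) (hρ : ρ.Ok) : 0 ≤ eG ε ρ := by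
  unfold eG
  have := hρ.c'0
  have := hρ.K1
  positivity

theorem eG_c (hε : 0 ≤ ε) (hρ : ρ.Ok) : eG ε ρ / ρ.c' ≤ ε := by
  unfold eG
  have h1 := hρ.c'0
  have h2 : (1 : ℝ) ≤ ρ.K ^ 8 := one_le_pow₀ hρ.K1
  rw [div_div, div_le_iff₀ (by positivity)]
  have h3 : ε * ρ.c' * 1 ≤ ε * ρ.c' * ρ.K ^ 8 := mul_le_mul_of_nonneg_left h2 (by positivity)
  linarith

theorem eG_le (hε : 0 ≤ ε) (hρ : ρ.Ok) : eG ε ρ ≤ ε := by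
  have h1 := eG_c hε hρ
  have h2 := hρ.c'0
  have h3 := hρ.c'1
  rw [div_le_iff₀ h2] at h1
  nlinarith

theorem eG_K (hε : 0 ≤ ε) (hρ : ρ.Ok) : ρ.K ^ 2 * eG ε ρ ≤ ε := by
  unfold eG
  have h1 := hρ.c'0
  have h3 := hρ.c'1
  have hK := hρ.K1
  have h2 : ρ.K ^ 2 ≤ ρ.K ^ 8 := pow_le_pow_right₀ hK (by norm_num)
  have hK8 : (0 : ℝ) < ρ.K ^ 8 := by positivity
  rw [← mul_div_assoc, div_le_iff₀ hK8]
  have h4 : ε * ρ.c' ≤ ε := mul_le_of_le_one_right hε (by linarith)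
  calc ρ.K ^ 2 * (ε * ρ.c') ≤ ρ.K ^ 8 * ε := mul_le_mul h2 h4 (by positivity) hK8.le
    _ = ε * ρ.K ^ 8 := mul_comm _ _

theorem e1S_nonneg (hε : 0 ≤ ε) (hρ : ρ.Ok) : 0 ≤ e1S ε ρ := by
  have := eG_nonneg hε hρ
  unfold e1S
  positivity

theorem e1S_1 (hε : 0 ≤ ε) (hρ : ρ.Ok) :
    Real.sqrt (((2 * Kc ρ + 3 : ℕ) : ℝ) * ((2 * (Kc ρ + 1 : ℕ) + 1) * eG ε ρ)) ≤ e1S ε ρ := by
  have := eG_nonneg hε hρ
  unfold e1S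
  linarith

theorem e1S_2 (_ : 0 ≤ ε) (_ : ρ.Ok) : 10 * eG ε ρ ≤ e1S ε ρ := by
  unfold e1S
  have := Real.sqrt_nonneg (((2 * Kc ρ + 3 : ℕ) : ℝ) * ((2 * (Kc ρ + 1 : ℕ) + 1) * eG ε ρ))
  linarith

theorem A0S_nonneg (hε : 0 ≤ ε) (hρ : ρ.Ok) (g : ℕ) : 0 ≤ A0S ε ρ g := by
  have := eG_nonneg hε hρ
  have := hρ.c'0
  have := q2_pos (2 * g)
  unfold A0S
  positivity

theorem A1S_nonneg (hρ : ρ.Ok) : 0 ≤ A1S ρ := by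
  have := hρ.c'0
  unfold A1S
  positivity

theorem e1S_le (hε : 0 ≤ ε) (hε1 : ε ≤ 1) (hρ : ρ.Ok) : e1S ε ρ ≤ 17 * Real.sqrt ε := by
  have hK := hρ.K1
  have h0 := eG_nonneg hε hρ
  have h1 := eG_le hε hρ
  have h2 := eG_K hε hρ
  have h3 : (Kc ρ : ℝ) ≤ ρ.K + 1 := (Nat.ceil_lt_add_one (by linarith)).le
  have h4 : ((2 * Kc ρ + 3 : ℕ) : ℝ) * ((2 * (Kc ρ + 1 : ℕ) + 1) * eG ε ρ) ≤ 49 * ε := by
    push_cast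
    have e1 : (2 * (Kc ρ : ℝ) + 3) ≤ 7 * ρ.K := by linarith
    have e2 : (0 : ℝ) ≤ 2 * (Kc ρ : ℝ) + 3 := by positivity
    have e3 : (2 * (Kc ρ : ℝ) + 3) * (2 * (Kc ρ : ℝ) + 3) ≤ (7 * ρ.K) * (7 * ρ.K) := mul_le_mul e1 e1 e2 (by positivity)
    calc (2 * (Kc ρ : ℝ) + 3) * ((2 * ((Kc ρ : ℝ) + 1) + 1) * eG ε ρ) =
        ((2 * (Kc ρ : ℝ) + 3) * (2 * (Kc ρ : ℝ) + 3)) * eG ε ρ := by ring
      _ ≤ ((7 * ρ.K) * (7 * ρ.K)) * eG ε ρ := mul_le_mul_of_nonneg_right e3 h0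
      _ = 49 * (ρ.K ^ 2 * eG ε ρ) := by ring
      _ ≤ 49 * ε := by linarith
  have h5 : Real.sqrt (((2 * Kc ρ + 3 : ℕ) : ℝ) * ((2 * (Kc ρ + 1 : ℕ) + 1) * eG ε ρ)) ≤ 7 * Real.sqrt ε := by
    refine (Real.sqrt_le_sqrt h4).trans (le_of_eq ?_)
    rw [Real.sqrt_mul (by norm_num), show (49 : ℝ) = 7 ^ 2 by norm_num, Real.sqrt_sq (by norm_num)]
  have h6 : ε ≤ Real.sqrt ε := by
    have h7 := Real.sq_sqrt hε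
    have h8 : Real.sqrt ε ≤ 1 := Real.sqrt_le_one.2 hε1
    have h9 := Real.sqrt_nonneg ε
    nlinarith
  unfold e1S
  linarith

theorem Nn_bound (hρ : ρ.Ok) : ((2 * NnS ρ + 3 : ℕ) : ℝ) ≤ 10 ^ 100 := by
  have hK := hρ.K1
  have hK2 := hρ.K2
  have h1 : (NnS ρ : ℝ) ≤ 40 * ((3 * ρ.K) ^ 5 * (6 * 100 ^ 2 * ρ.K)) + 2 * ρ.K + 1 :=
    (Nat.ceil_lt_add_one (by positivity)).le
  have h2 : ρ.K ^ 6 ≤ (10 ^ 15) ^ 6 := pow_le_pow_left₀ (by linarith) hK2 6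
  have h3 : 40 * ((3 * ρ.K) ^ 5 * (6 * 100 ^ 2 * ρ.K)) = 583200000 * ρ.K ^ 6 := by ring
  rw [h3] at h1
  push_cast
  have h4 : (583200000 : ℝ) * ρ.K ^ 6 ≤ 583200000 * (10 ^ 15) ^ 6 := by linarith
  norm_num at h4 hK2 ⊢
  linarith

theorem A0S_le (hε : 0 ≤ ε) (hε1 : ε ≤ 1) (hρ : ρ.Ok) (g : ℕ) :
    A0S ε ρ g ≤ 5 * 10 ^ 50 * Real.sqrt ε + 6 / ρ.c' * q2 (2 * g) := by
  have h1 := eG_c hε hρ
  have hc := hρ.c'0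
  have h2 := Nn_bound hρ
  have h6 : ε ≤ Real.sqrt ε := by
    have h7 := Real.sq_sqrt hε
    have h8 : Real.sqrt ε ≤ 1 := Real.sqrt_le_one.2 hε1
    have h9 := Real.sqrt_nonneg ε
    nlinarith
  have h3 : Real.sqrt (((2 * NnS ρ + 3 : ℕ) : ℝ) * ε) ≤ 10 ^ 50 * Real.sqrt ε := by
    refine (Real.sqrt_le_sqrt (mul_le_mul_of_nonneg_right h2 hε)).trans (le_of_eq ?_)
    rw [Real.sqrt_mul (by positivity), show (10 : ℝ) ^ 100 = (10 ^ 50) ^ 2 by norm_num, Real.sqrt_sq (by positivity)]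
  have h4 : (36 * eG ε ρ + 6 * q2 (2 * g)) / ρ.c' = 36 * (eG ε ρ / ρ.c') + 6 / ρ.c' * q2 (2 * g) := by
    field_simp
  have h5 := Real.sqrt_nonneg ε
  unfold A0S
  rw [h4]
  have h7 : 38 * Real.sqrt ε ≤ 10 ^ 50 * Real.sqrt ε := mul_le_mul_of_nonneg_right (by norm_num) h5
  linarith

/-- **the numbers of [SC] kind 0** -/
theorem num_sc {K1 κ : ℝ} (hK1 : 0 < K1) (hκ : 0 < κ) :
    ∃ ε0 : ℝ, 0 < ε0 ∧ ∀ ε : ℝ, 0 < ε → ε ≤ ε0 → ∀ ρ : Thr, ρ.Ok → ∀ (K' : ℝ) (c x : ℕ), 1 ≤ c → 1 ≤ x →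
      Ev3 fun m _ _ => ∀ g : ℕ, m ≤ g → (2 * K1 + 4) * (2 * e1S ε ρ + 2 * A0S ε ρ g +
        2 * A1S ρ * (K' ^ 2 * q2 (8 * c * (x * m) / 4))) ≤ κ := by
  have hk4 : 0 < 2 * K1 + 4 := by linarith
  set z : ℝ := κ / (4 * 10 ^ 51 * (2 * K1 + 4)) with hz
  have hz0 : 0 < z := by positivity
  refine ⟨min 1 (z ^ 2), by positivity, fun ε hε hε0 ρ hρ K' c x hc hx => ?_⟩
  have hε1 : ε ≤ 1 := hε0.trans (min_le_left _ _)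
  have hεz : Real.sqrt ε ≤ z := by
    rw [← Real.sqrt_sq hz0.le]
    exact Real.sqrt_le_sqrt (hε0.trans (min_le_right _ _))
  have hc0 := hρ.c'0
  refine Ev3.of_m ?_
  filter_upwards [ev_q20 ((2 * K1 + 4) * (12 / ρ.c' + 2 * A1S ρ * K' ^ 2)) 0 1 one_pos (κ := κ / 2) (by positivity)]
    with m hm g hg
  have b1 := e1S_le hε.le hε1 hρ
  have b2 := A0S_le hε.le hε1 hρ g
  have hA1 := A1S_nonneg hρ
  rw [pow_zero, mul_one, one_mul] at hm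
  have b3 : q2 (2 * g) ≤ q2 m := q2_le (by omega)
  have b4 : q2 (8 * c * (x * m) / 4) ≤ q2 m := by
    refine q2_le ?_
    have h1 : m ≤ x * m := Nat.le_mul_of_pos_left m (by omega)
    have h2 : x * m ≤ c * (x * m) := Nat.le_mul_of_pos_left _ (by omega)
    have h3 : 8 * c * (x * m) = 8 * (c * (x * m)) := by ring
    rw [h3]
    omega
  have b5 : 2 * e1S ε ρ + 2 * A0S ε ρ g + 2 * A1S ρ * (K' ^ 2 * q2 (8 * c * (x * m) / 4)) ≤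
      2 * 10 ^ 51 * z + (12 / ρ.c' + 2 * A1S ρ * K' ^ 2) * q2 m := by
    have c1 : 6 / ρ.c' * q2 (2 * g) ≤ 6 / ρ.c' * q2 m := mul_le_mul_of_nonneg_left b3 (by positivity)
    have c2 : 2 * A1S ρ * (K' ^ 2 * q2 (8 * c * (x * m) / 4)) ≤ 2 * A1S ρ * (K' ^ 2 * q2 m) :=
      mul_le_mul_of_nonneg_left (mul_le_mul_of_nonneg_left b4 (sq_nonneg _)) (by positivity)
    have c3 : 12 / ρ.c' = 2 * (6 / ρ.c') := by ring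
    have c4 : (34 + 10 * 10 ^ 50) * Real.sqrt ε ≤ 2 * 10 ^ 51 * z := by
      have := Real.sqrt_nonneg ε
      refine mul_le_mul (by norm_num) hεz this (by positivity)
    rw [c3]
    nlinarith
  have b6 := mul_le_mul_of_nonneg_left b5 hk4.le
  have b7 : (2 * K1 + 4) * (2 * 10 ^ 51 * z) = κ / 2 := by
    rw [hz]
    field_simp
    ring
  rw [mul_add] at b6
  linarith

end Vale.Agent.P106.U.H931
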