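import Vale.Agent.P106.U.H931.CollM
import Vale.Agent.P106.U.H364.N4
import Vale.Agent.P106.U.H300.YC

/-!
# P106 / U / H931 : the cells of the cap are functions of the letter `W'` of the base (helper931)

`R : S3.Run`, `hlb` = field `lb` of `NEx`, `b = m b1` = cap = base, step `i ≤ n`.

* `okW`, `clW`, `det` : 364's data for the label `W`.
* `cell_W'` : outside `Bad` the cell `(i, b)` is a function of `W'`; `Dp_W'` : the same for 683's `Dp` (deep phi regime).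
* `near_W` : two points with the same `W'` : `v, w, N, X` close (for the normalisations).
* `cY_kap`, `cY_phi` : `MIC.cY` from the activity of the block of the direction given `W'`.
-/

set_option autoImplicit false

namespace Vale.Agent.P106.U.H931

open Finset Vale.Agent.P127 Vale.Agent.P127.Stk Vale.Agent.P106.W Vale.Agent.P106.U
open Vale.Agent.P106.K (Ry RyOk bl Bin)
open Vale.Agent.P127.U.CellD (q2 rd q2_pos q2_add q2_le q2_mul_pow fl1_fl1)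
open Vale.Agent.P127.U.Mic (colp colp_mono_cond colp_mono_var colp_nonneg)
open Vale.Agent.P106.U.Cell (Pth Ray)
open Vale.Agent.P106.U.S3 (Run)
open Vale.Agent.P106.U.H404 (fl1_le)
open Vale.Agent.P106.U.H683 (Dp)
open Vale.Agent.P106.U.H364.N4 (OkW ClW Det cst cell_of_W clo_of_W one_le_cst)

section mono

variable {Ω τ : Type} {C : Pth Ω τ} {K K' : ℝ} {ω : Ω}

theorem ok_mono (h : C.Ok K ω) (hK : K ≤ K') : C.Ok K' ω := by
  have K1 := H683.K_one h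
  have h0 : ∀ i, 0 ≤ (C.F i ω).cN (C.l ω) (C.s i ω) := fun i => (H683.cN_pos (i := i) h).le
  refine ⟨h.v1, h.w1, h.p1, fun i => ?_, fun i => (h.n2 i).trans hK, fun i => (h.k1 i).trans hK,
    fun i => (h.a1 i).trans hK, fun i j hij => ?_⟩
  · exact (h.n1 i).trans (mul_le_mul_of_nonneg_right hK (h0 i))
  · have a := h.ag i j hij
    have hq := q2_pos (C.rk i)
    exact ⟨a.cN.trans (mul_le_mul_of_nonneg_right hK hq.le), a.ka.trans (mul_le_mul_of_nonneg_right hK hq.le),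
      a.al.trans (mul_le_mul_of_nonneg_right hK hq.le)⟩

end mono

section base

variable {Ω : Type} [Fintype Ω] {τ υ : Type} {R : Run Ω τ υ} {p : Run.Num} {K c' g' gU : ℝ}

/-- the label at a point -/
theorem okW (h : R.Ok p K c' g' gU) (hK : 1 ≤ K) {i : ℕ} (hi : i ≤ R.n) (h2 : 2 * K ^ 2 * q2 (R.C.rk i) ≤ 1) {ω : Ω}
    (hω : 0 < R.Q.w ω) : OkW R.C (3 * K) p.A' i (R.FW ω) (R.tW ω) ω := by
  have hL := lat h hi le_rfl hω
  have hok := h.ok ω hω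
  have n1 := hok.n1 i
  have n2 := hok.n2 i
  have k1 := hok.k1 i
  have a1 := hok.a1 i
  have hq := q2_pos (R.C.rk i)
  have hca := abs_le.1 hL.ca
  have hKq : K * (K * q2 (R.C.rk i)) ≤ 1 / 2 := by nlinarith
  have hKq' : K * q2 (R.C.rk i) ≤ 1 / 2 := by nlinarith
  refine ⟨?_, ?_, ?_, ?_, ?_, ?_, hL.tt⟩
  · have h3 := mul_le_mul_of_nonneg_left hca.1 (by linarith : 0 ≤ K)
    linarith
  · linarith [hca.2]
  · have h3 := hL.kk
    have h4 : |(R.tW ω - R.C.s i ω) * (R.C.F i ω).al| ≤ K := by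
      rw [abs_mul]
      calc |R.tW ω - R.C.s i ω| * |(R.C.F i ω).al| ≤ q2 (R.C.a i) * |(R.C.F i ω).al| :=
            mul_le_mul_of_nonneg_right hL.tt (abs_nonneg _)
        _ = |(R.C.F i ω).al| * q2 (R.C.a i) := by ring
        _ ≤ K := a1
    show |R.κ ω| ≤ 3 * K
    have h5 := abs_le.1 h3
    have h6 := abs_le.1 h4
    have h7 := abs_le.1 k1
    rw [abs_le]
    constructor <;> linarith
  · exact (h.alW ω hω).trans (by linarith)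
  · have := h.Cp ω hω
    rw [this, sub_self, abs_zero]
    have := q2_pos (R.C.rf i)
    positivity
  · have a := h.agW ω hω i hi
    exact ⟨a.cN.trans (by nlinarith), a.ka.trans (by nlinarith), a.al.trans (by nlinarith)⟩

/-- two rays of one label -/
theorem clW (h : R.Ok p K c' g' gU) (hK : 1 ≤ K) {c : ℝ} (hc : 1 ≤ c)
    (hlb : ∀ ω, 0 < R.Q.w ω → LbOk c R.L R.h (R.W ω) (R.ry ω) (R.t ω) ∧ (R.W ω).u2 = 1 ∧
      (R.W ω).u1 = (1 / 2 : ℝ) ^ R.q) {ω ω' : Ω} (hω : 0 < R.Q.w ω) (hω' : 0 < R.Q.w ω')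
    (e : R.F 0 ω = R.F 0 ω') :
    ClW (6 * c ^ 2 * K) R.h R.q (R.FW ω) (R.C.l ω) (R.C.l ω') (R.tW ω) := by
  have eW : R.W ω = R.W ω' := congrArg (fun z => z.1.1) e
  have et : fl1 R.h (R.t ω) = fl1 R.h (R.t ω') := congrArg (fun z => z.1.2) e
  have eq : Vale.Agent.P127.U.qa R.h (R.t ω') = Vale.Agent.P127.U.qa R.h (R.t ω) := by
    show rd R.h (R.t ω') = rd R.h (R.t ω)
    unfold rd
    rw [et]
  obtain ⟨l1, l2, l3⟩ := hlb ω hω
  obtain ⟨l1', _, _⟩ := hlb ω' hω'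
  rw [← eW] at l1'
  have hb := H786.Adp.box_close hc R.θ (a := R.h) (b := 0) (R := R.q) (W := R.W ω) (l := R.ry ω) (l' := R.ry ω')
    (t := R.t ω) (t' := R.t ω') (by rw [l2, pow_zero]) l3 l1.inn l1'.inn eq
  have hw := H364.N4.clW_of_bc hc hb
  obtain ⟨ρ, _, hρ, hF⟩ := h.FWW ω hω
  have hs : R.tW ω = Vale.Agent.P127.U.qa R.h (R.t ω) := rfl
  have hq1 := q2_pos R.h
  have hq2 := q2_pos R.q
  have hq3 := q2_pos (R.h + R.q)
  have hcK : 6 * c ^ 2 ≤ 6 * c ^ 2 * K := le_mul_of_one_le_right (by positivity) hK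
  rw [h.Cl ω, h.Cl ω', hs]
  set G : Cell.Fu := H786.Adp.FW R.θ R.h (R.W ω) (R.t ω) with hG
  have hF' : R.FW ω = ⟨ρ * G.ga, ρ * G.ph, ρ * G.ka, ρ * G.al⟩ := hF
  have eg : ∀ (l : Ray) (s : ℝ), (R.FW ω).g l s = ρ * G.g l s := fun l s => by
    rw [hF']; simp only [Cell.Fu.g]; ring
  have egd : ∀ (l : Ray) (s : ℝ), (R.FW ω).gd l s = ρ * G.gd l s := fun l s => by
    rw [hF']; simp only [Cell.Fu.gd]; ring
  refine ⟨hw.X.trans (mul_le_mul_of_nonneg_right hcK hq1.le), hw.N.trans (mul_le_mul_of_nonneg_right hcK hq1.le),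
    hw.z.trans (mul_le_mul_of_nonneg_right hcK hq1.le), ?_, ?_⟩
  · rw [egd, egd, ← mul_sub, abs_mul]
    calc |ρ| * _ ≤ K * (6 * c ^ 2 * q2 R.q) := mul_le_mul hρ hw.c (abs_nonneg _) (by linarith)
      _ = 6 * c ^ 2 * K * q2 R.q := by ring
  · rw [eg, eg, ← mul_sub, abs_mul]
    calc |ρ| * _ ≤ K * (6 * c ^ 2 * q2 (R.h + R.q)) := mul_le_mul hρ hw.g (abs_nonneg _) (by linarith)
      _ = 6 * c ^ 2 * K * q2 (R.h + R.q) := by ring

/-- `F 0` is a function of `W'` -/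
theorem F0_W' (h : R.Ok p K c' g' gU) {ω ω' : Ω} (hω : 0 < R.Q.w ω) (hω' : 0 < R.Q.w ω') (e : R.W' ω = R.W' ω') :
    R.F 0 ω = R.F 0 ω' ∧ fl1 (R.m * R.b1) (R.C.l ω).v = fl1 (R.m * R.b1) (R.C.l ω').v := by
  have h1 := h.W0 ω ω' hω hω' e
  have h2 : fl1 (R.m * R.b1) (R.C.l ω).v = fl1 (R.m * R.b1) (R.C.l ω').v := congrArg Prod.snd h1
  refine ⟨?_, h2⟩
  have h3 : fl1 (R.m * 0) (R.C.l ω).v = fl1 (R.m * 0) (R.C.l ω').v := by
    refine fl1_le ?_ h2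
    rw [Nat.mul_zero]
    exact Nat.zero_le _
  have h4 : (R.F R.b1 ω).1 = (R.F R.b1 ω').1 := congrArg Prod.fst h1
  exact Prod.ext h4 h3

theorem det (h : R.Ok p K c' g' gU) (hK : 1 ≤ K) {c : ℝ} (hc : 1 ≤ c)
    (hlb : ∀ ω, 0 < R.Q.w ω → LbOk c R.L R.h (R.W ω) (R.ry ω) (R.t ω) ∧ (R.W ω).u2 = 1 ∧
      (R.W ω).u1 = (1 / 2 : ℝ) ^ R.q) {i : ℕ} (hi : i ≤ R.n + p.J) :
    Det R.Q R.C (6 * c ^ 2 * K) i (R.m * R.b1) R.h R.q R.FW R.tW R.W' where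
  eT := fun ω ω' a b e => h.fnT i hi ω ω' a b e
  ev := fun _ _ a b e => (F0_W' h a b e).2
  eF := fun ω ω' a b e => h.FWf ω ω' a b (F0_W' h a b e).1
  es := fun ω ω' a b e => by
    have et : fl1 R.h (R.t ω) = fl1 R.h (R.t ω') := congrArg (fun z => z.1.2) (F0_W' h a b e).1
    show rd R.h (R.t ω) = rd R.h (R.t ω')
    unfold rd
    rw [et]
  cl := fun _ _ a b e => clW h hK hc hlb a b (F0_W' h a b e).1

/-- the constant of `Bad` at the base -/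
noncomputable def cB (K c : ℝ) : ℝ := 4 * cst (3 * K) (6 * c ^ 2 * K)

/-- hypotheses on the levels of the step `i` at the base cap -/
structure Lv (R : Run Ω τ υ) (p : Run.Num) (K c : ℝ) (i : ℕ) : Prop where
  le : i ≤ R.n
  rk : 2 * K ^ 2 * q2 (R.C.rk i) ≤ 1
  lev : R.C.Lev i (R.m * R.b1)
  a : R.C.a i ≤ p.A'
  A : p.A' + 2 * (R.m * R.b1) ≤ R.h
  q : R.C.R i (R.m * R.b1) + R.m * R.b1 ≤ R.q
  b : (3 * K) ^ 2 * (6 * c ^ 2 * K) * q2 (2 * (R.m * R.b1)) ≤ 1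

/-- close cells -/
theorem clo_W' (h : R.Ok p K c' g' gU) (hK : 1 ≤ K) {c : ℝ} (hc : 1 ≤ c)
    (hlb : ∀ ω, 0 < R.Q.w ω → LbOk c R.L R.h (R.W ω) (R.ry ω) (R.t ω) ∧ (R.W ω).u2 = 1 ∧
      (R.W ω).u1 = (1 / 2 : ℝ) ^ R.q) {i : ℕ} (L : Lv R p K c i) {ω ω' : Ω} (hω : 0 < R.Q.w ω) (hω' : 0 < R.Q.w ω')
    (e : R.W' ω = R.W' ω') : R.C.Clo i (R.m * R.b1) (cst (3 * K) (6 * c ^ 2 * K)) ω ω' := by
  have D := det h hK hc hlb (i := i) (by have := L.le; omega)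
  have h1 := okW h hK L.le L.rk hω
  have h2 := okW h hK L.le L.rk hω'
  rw [← D.eF ω ω' hω hω' e, ← D.es ω ω' hω hω' e] at h2
  have hM : 1 ≤ 6 * c ^ 2 * K := by nlinarith [sq_nonneg (c - 1)]
  exact clo_of_W (by linarith) hM (ok_mono (h.ok ω hω) (by linarith)) (ok_mono (h.ok ω' hω') (by linarith)) h1 h2
    (D.eT ω ω' hω hω' e) (D.ev ω ω' hω hω' e) L.a L.A L.q L.b (D.cl ω ω' hω hω' e)

/-- **the cell of the cap is a function of `W'`** outside `Bad` -/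
theorem cell_W' (h : R.Ok p K c' g' gU) (hK : 1 ≤ K) {c : ℝ} (hc : 1 ≤ c)
    (hlb : ∀ ω, 0 < R.Q.w ω → LbOk c R.L R.h (R.W ω) (R.ry ω) (R.t ω) ∧ (R.W ω).u2 = 1 ∧
      (R.W ω).u1 = (1 / 2 : ℝ) ^ R.q) {i : ℕ} (L : Lv R p K c i) {ω ω' : Ω} (hω : 0 < R.Q.w ω) (hω' : 0 < R.Q.w ω')
    (e : R.W' ω = R.W' ω') (hB : ¬ R.C.Bad (cB K c) i (R.m * R.b1) ω) :
    R.C.cell i (R.m * R.b1) ω = R.C.cell i (R.m * R.b1) ω' :=
  (clo_W' h hK hc hlb L hω hω' e).cell L.lev (one_le_cst (by linarith) (by nlinarith [sq_nonneg (c - 1)])) hB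

/-- **the letter `Dp` of the cap is a function of `W'`** outside `Bad`, deep phi regime; `i` = a later step -/
theorem Dp_W' (h : R.Ok p K c' g' gU) (hK : 1 ≤ K) {c : ℝ} (hc : 1 ≤ c)
    (hlb : ∀ ω, 0 < R.Q.w ω → LbOk c R.L R.h (R.W ω) (R.ry ω) (R.t ω) ∧ (R.W ω).u2 = 1 ∧
      (R.W ω).u1 = (1 / 2 : ℝ) ^ R.q) {k i : ℕ} (L : Lv R p K c k) (L' : Lv R p K c i)
    (hR : H683.Reg R.C k i (R.m * R.b1)) {ω ω' : Ω} (hω : 0 < R.Q.w ω) (hω' : 0 < R.Q.w ω') (e : R.W' ω = R.W' ω')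
    (hB : ¬ R.C.Bad (cB K c) k (R.m * R.b1) ω) (hB' : ¬ R.C.Bad (cB K c) i (R.m * R.b1) ω)
    (hS : ¬ H683.Bads R.C K k (R.m * R.b1) ω) :
    Dp R.C k (R.m * R.b1) ω = Dp R.C k (R.m * R.b1) ω' :=
  H683.Dp_of_late hR (h.ok ω hω) (h.ok ω' hω') (cell_W' h hK hc hlb L hω hω' e hB)
    (cell_W' h hK hc hlb L' hω hω' e hB') hS

/-! ### the direction -/

/-- the block of the direction -/
theorem Y_fn {g : ℕ} (hg : R.m ≤ g) {T : Type*} (Z : Ω → T) :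
    Fn R.Q (R.Y R.b1) (fun ω => (fl1 (R.m * R.b1 + g) (R.C.l ω).v, Z ω)) := by
  intro x y _ _ e
  have h1 : fl1 (R.m * R.b1 + g) (R.C.l x).v = fl1 (R.m * R.b1 + g) (R.C.l y).v := congrArg Prod.fst e
  have h2 : fl1 (R.m * (R.b1 + 1)) (R.C.l x).v = fl1 (R.m * (R.b1 + 1)) (R.C.l y).v :=
    fl1_le (by rw [Nat.mul_add, Nat.mul_one]; omega) h1
  have h3 : fl1 (R.m * R.b1) (R.C.l x).v = fl1 (R.m * R.b1) (R.C.l y).v := fl1_le (by omega) h1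
  show fl1 (R.m * (R.b1 + 1)) (R.C.l x).v - 2 ^ R.m * fl1 (R.m * R.b1) (R.C.l x).v =
    fl1 (R.m * (R.b1 + 1)) (R.C.l y).v - 2 ^ R.m * fl1 (R.m * R.b1) (R.C.l y).v
  rw [h2, h3]

/-- activity of the direction given a letter which is a function of `W'` outside `B` -/
theorem colp_v {g : ℕ} (hg : R.m ≤ g) {U : Type*} (D : Ω → U) (B : Ω → Prop)
    (hD : ∀ ω ω', 0 < R.Q.w ω → 0 < R.Q.w ω' → ¬ B ω → R.W' ω = R.W' ω' → D ω = D ω') :
    colp R.Q (fun ω => fl1 (R.m * R.b1 + g) (R.C.l ω).v) D ≤ 2 * colp R.Q (R.Y R.b1) R.W' + 3 * prE R.Q B := by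
  have h1 := H300.colp_bad R.Q (fun ω => fl1 (R.m * R.b1 + g) (R.C.l ω).v) D R.W' B
    fun ω ω' a b n _ e => hD ω ω' a b n e
  have h2 := colp_mono_var R.Q R.W' (Y_fn (R := R) hg R.W')
  linarith

/-- **direction**, given the cell alone -/
theorem cY_cell (h : R.Ok p K c' g' gU) (hK : 1 ≤ K) {c : ℝ} (hc : 1 ≤ c)
    (hlb : ∀ ω, 0 < R.Q.w ω → LbOk c R.L R.h (R.W ω) (R.ry ω) (R.t ω) ∧ (R.W ω).u2 = 1 ∧
      (R.W ω).u1 = (1 / 2 : ℝ) ^ R.q) {B : ℕ} {ε : ℝ} (cap : R.Cap p B ε) {k g : ℕ} (L : Lv R p K c k)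
    (hg : R.m ≤ g) :
    colp R.Q (fun ω => fl1 (R.m * R.b1 + g) (R.C.l ω).v) (R.C.cell k (R.m * R.b1)) ≤
      2 * ε + 3 * prE R.Q (R.C.Bad (cB K c) k (R.m * R.b1)) := by
  have h1 := colp_v hg (R.C.cell k (R.m * R.b1)) (R.C.Bad (cB K c) k (R.m * R.b1))
    fun ω ω' a b n e => cell_W' h hK hc hlb L a b e n
  have h2 := cap.act
  linarith

/-- **direction**, given `Dp`, deep phi regime -/
theorem cY_phi (h : R.Ok p K c' g' gU) (hK : 1 ≤ K) {c : ℝ} (hc : 1 ≤ c)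
    (hlb : ∀ ω, 0 < R.Q.w ω → LbOk c R.L R.h (R.W ω) (R.ry ω) (R.t ω) ∧ (R.W ω).u2 = 1 ∧
      (R.W ω).u1 = (1 / 2 : ℝ) ^ R.q) {B : ℕ} {ε : ℝ} (cap : R.Cap p B ε) {k i g : ℕ} (L : Lv R p K c k)
    (L' : Lv R p K c i) (hR : H683.Reg R.C k i (R.m * R.b1)) (hg : R.m ≤ g) :
    colp R.Q (fun ω => fl1 (R.m * R.b1 + g) (R.C.l ω).v) (Dp R.C k (R.m * R.b1)) ≤
      2 * ε + 3 * (prE R.Q (R.C.Bad (cB K c) k (R.m * R.b1)) + prE R.Q (R.C.Bad (cB K c) i (R.m * R.b1)) +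
        prE R.Q (H683.Bads R.C K k (R.m * R.b1))) := by
  classical
  have h1 := colp_v hg (Dp R.C k (R.m * R.b1)) (fun ω => R.C.Bad (cB K c) k (R.m * R.b1) ω ∨
    (R.C.Bad (cB K c) i (R.m * R.b1) ω ∨ H683.Bads R.C K k (R.m * R.b1) ω))
    fun ω ω' a b n e => by
      push Not at n
      exact Dp_W' h hK hc hlb L L' hR a b e n.1 n.2.1 n.2.2
  have h2 := cap.act
  have h3 : prE R.Q (fun ω => R.C.Bad (cB K c) k (R.m * R.b1) ω ∨
    (R.C.Bad (cB K c) i (R.m * R.b1) ω ∨ H683.Bads R.C K k (R.m * R.b1) ω)) ≤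
      prE R.Q (R.C.Bad (cB K c) k (R.m * R.b1)) + prE R.Q (R.C.Bad (cB K c) i (R.m * R.b1)) +
        prE R.Q (H683.Bads R.C K k (R.m * R.b1)) := by
    rw [← H300.ex_ind_eq, ← H300.ex_ind_eq, ← H300.ex_ind_eq, ← H300.ex_ind_eq, ← R.Q.ex_add, ← R.Q.ex_add]
    refine R.Q.ex_mono fun ω _ => ?_
    have n1 := H683.lind_nonneg (R.C.Bad (cB K c) k (R.m * R.b1) ω)
    have n2 := H683.lind_nonneg (R.C.Bad (cB K c) i (R.m * R.b1) ω)
    have n3 := H683.lind_nonneg (H683.Bads R.C K k (R.m * R.b1) ω)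
    by_cases h : R.C.Bad (cB K c) k (R.m * R.b1) ω ∨
      (R.C.Bad (cB K c) i (R.m * R.b1) ω ∨ H683.Bads R.C K k (R.m * R.b1) ω)
    · rw [Law.ind_of h]
      rcases h with h | h | h
      · rw [Law.ind_of h]; linarith
      · rw [Law.ind_of h]; linarith
      · rw [Law.ind_of h]; linarith
    · rw [Law.ind_not h]
      linarith
  linarith

end base

end Vale.Agent.P106.U.H931
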