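import Vale.Agent.P106.U.H931.SC
import Vale.Agent.P106.U.H652.Kind
import Vale.Agent.P106.U.H833.WinS

/-!
# P106 / U / H931 : [SE0], the whole error of kind 0 at one scale (helper931)

`errO` = 833's error of a counted old step, `n = nz R i0`, `X = XN` (exceptional steps).

* `xn_le` : `3 m #XN ≤ (174 ε + η / 512) h + 3 m` for `x ≥ 768 (2 K1 + 4) / η`.
* **`ev_se0`** : the sum of `errO` is at most `η / 300 h`.
-/

set_option autoImplicit false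

namespace Vale.Agent.P106.U.H931

open Finset Vale.Agent.P127 Vale.Agent.P127.Stk Vale.Agent.P127.U Vale.Agent.P106.W Vale.Agent.P106.K Vale.Agent.P106.U
open Vale.Agent.P127.U.CellD (q2 q2_pos)
open Vale.Agent.P106.U.S3 (Run Pf F2o)
open Vale.Agent.P106.U.S5
open Vale.Agent.P106.U.H833 (aN RN kN fN lev_a lev_k lev_f lev_R errO)
open Vale.Agent.P106.U.H101 (lc)
open Vale.Agent.P106.U.H823
open Vale.Agent.P106.U.MIC (bc ix nz az WordOk)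
open Vale.Agent.P106.U.H652 (Ev3 err1 ev_kind ev_con)

/-- the exceptional steps apart -/
theorem errO_split (c1 c2 m A x : ℝ) (L : ℕ) (coll : ℕ → ℝ) (I1 I2 : ℕ → ℕ → ℝ) (X : Finset ℕ) (j : ℕ) :
    errO c1 c2 m A x L coll I1 I2 X j = err1 c1 c2 m A x L coll I1 I2 ∅ j + x * m * (if j ∈ X then 1 else 0) := by
  unfold errO err1
  rw [if_neg (Finset.notMem_empty j)]
  ring

theorem sum_ind_le (n : ℕ) (X : Finset ℕ) : ∑ j ∈ range n, (if j ∈ X then (1 : ℝ) else 0) ≤ X.card := by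
  rw [Finset.sum_boole]
  have : ((range n).filter fun j => j ∈ X) ⊆ X := fun j hj => (Finset.mem_filter.1 hj).2
  exact_mod_cast Finset.card_le_card this

section num

variable {σ : Cst} {ε : ℝ} {ρ : Thr} {m B : ℕ} {Ω : Type} [Fintype Ω] {Q : Law Ω} {l : Ω → Ry} {t : Ω → ℝ}
  {L h q r0 Rn : ℕ} {W : Ω → Cbx} {τ υ : Type} {R : Run Ω τ υ} {pn : Run.Num} {g' gU e κ₀ : ℝ} {a1 r1 : ℕ}

theorem rise_le (H : RunOk σ ε ρ m B Q l t L h q r0 Rn W R pn g' gU e κ₀ a1 r1) {i0 : ℕ} :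
    (m : ℝ) * ((MIC.rz R i0 (nz R i0) : ℝ) - MIC.rz R i0 0) ≤ (σ.K1 + 1) * h := by
  have hP := H.ok.pth
  have h1 : ix R i0 (nz R i0) ≤ R.n := Cmp.idx_le _
  have h2 : R.C.R (ix R i0 (nz R i0)) (R.m * R.b1) = R.r0 + R.m * MIC.rz R i0 (nz R i0) := lev_R hP R.b1 (by omega)
  have h4 := hP.leF (ix R i0 (nz R i0)) (by omega)
  have h5 := Cell.Pth.R_le_rf (C := R.C) (ix R i0 (nz R i0)) (R.m * R.b1)
  have h6 := hP.rF
  have h7 := H.qr
  have h8 := H.hq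
  have h9 := H.hr0
  have h10 := H.hm
  have h11 : m * MIC.rz R i0 (nz R i0) + r0 ≤ q := by
    rw [← h10]
    omega
  have h12 : ((m * MIC.rz R i0 (nz R i0) + r0 : ℕ) : ℝ) ≤ q := by exact_mod_cast h11
  push_cast at h12
  have h13 : (0 : ℝ) ≤ (m : ℝ) * MIC.rz R i0 0 := by positivity
  rw [mul_sub]
  linarith

/-- **the exceptional steps** -/
theorem xn_le (H : RunOk σ ε ρ m B Q l t L h q r0 Rn W R pn g' gU e κ₀ a1 r1) (hσ : σ.Ok) (hε : 0 ≤ ε) {η : ℝ} (hη : 0 < η)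
    {x : ℕ} (hx : 768 * (2 * σ.K1 + 4) / η ≤ x) {i0 : ℕ} {gd : ℕ → Prop} {E : Finset ℕ} {J0 : ℕ} {K : ℝ}
    (hw : WordOk K (20 * ε) h (m * Real.log 2) J0 (nz R i0) gd (az R i0) (MIC.rz R i0) E) :
    3 * (m : ℝ) * (XN x (nz R i0) (az R i0) (MIC.rz R i0) E).card ≤ (174 * ε + η / 512) * h + 3 * m := by
  have hK1 := hσ.bs.K10
  have hm0 : (0 : ℝ) ≤ m := Nat.cast_nonneg m
  have hh0 : (0 : ℝ) ≤ h := Nat.cast_nonneg h
  have c1 := card_XN_real hw.sd x E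
  have c2 := rise_le H (i0 := i0)
  have hx0 : (0 : ℝ) < (x : ℝ) + 1 := by positivity
  have hl2 : 0.69 ≤ Real.log 2 := by
    have := Real.log_two_gt_d9
    linarith
  have hE : (m : ℝ) * E.card ≤ 29 * ε * h := by
    have h1 := hw.cE
    have h2 : (0 : ℝ) ≤ m * E.card := by positivity
    have h3 : 0.69 * (m * E.card) ≤ 20 * ε * h := by
      calc 0.69 * ((m : ℝ) * E.card) ≤ Real.log 2 * (m * E.card) := mul_le_mul_of_nonneg_right hl2 h2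
        _ = m * Real.log 2 * E.card := by ring
        _ ≤ _ := h1
    have h4 : 0 ≤ ε * h := mul_nonneg hε hh0
    linarith
  have hr : (m : ℝ) * (((MIC.rz R i0 (nz R i0) : ℝ) - MIC.rz R i0 0) / ((x : ℝ) + 1)) ≤ η / 1536 * h := by
    rw [mul_div_assoc', div_le_iff₀ hx0]
    refine c2.trans ?_
    rw [div_le_iff₀ hη] at hx
    have h1 : 768 * (2 * σ.K1 + 4) ≤ η * ((x : ℝ) + 1) := by nlinarith
    have h2 := mul_le_mul_of_nonneg_right h1 hh0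
    have h3 : 0 ≤ σ.K1 * h := by positivity
    nlinarith
  have h1 : 3 * (m : ℝ) * (XN x (nz R i0) (az R i0) (MIC.rz R i0) E).card ≤
      3 * (m : ℝ) * (2 * (E.card : ℝ) + 1 + ((MIC.rz R i0 (nz R i0) : ℝ) - MIC.rz R i0 0) / ((x : ℝ) + 1)) :=
    mul_le_mul_of_nonneg_left c1 (by positivity)
  have h2 : 3 * (m : ℝ) * (2 * (E.card : ℝ) + 1 + ((MIC.rz R i0 (nz R i0) : ℝ) - MIC.rz R i0 0) / ((x : ℝ) + 1)) =
      6 * (m * E.card) + 3 * m + 3 * (m * (((MIC.rz R i0 (nz R i0) : ℝ) - MIC.rz R i0 0) / ((x : ℝ) + 1))) := by ring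
  rw [h2] at h1
  linarith

end num

/-- **[SE0]** : the sum of the errors of kind 0.  Constants: `cc`, `η`, `K1` → `κ` → (`ε`, `ρ`, ..) → `m` → `B` → `h`. -/
theorem ev_se0 {K1 η : ℝ} (hK1 : 0 < K1) (hη : 0 < η) (cc : ℕ) :
    ∃ κ : ℝ, 0 < κ ∧ ∀ (c0 : ℕ) {e c x : ℕ}, 2 * e < c → 1 ≤ x → 768 * (2 * K1 + 4) / η ≤ x →
      ∀ (L1 : ℕ) (A0 C D K' : ℝ) (X1 : ℕ → ℕ → ℝ), 0 ≤ A0 → 0 ≤ C → 0 ≤ D → 0 ≤ K' → Ev3 fun m B h =>
        ∀ (σ : Cst) (ε : ℝ) (ρ : Thr) (Ω : Type) [Fintype Ω] (Q : Law Ω) (l : Ω → Ry) (t : Ω → ℝ) (L q r0 Rn : ℕ)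
          (W : Ω → Cbx) (τ υ : Type) (R : Run Ω τ υ) (pn : Run.Num) (g' gU e' κ₀ : ℝ) (a1 r1 : ℕ), σ.Ok → σ.K1 = K1 → 0 ≤ ε →
          174000 * ε ≤ η / 10 →
          RunOk σ ε ρ m B Q l t L h q r0 Rn W R pn g' gU e' κ₀ a1 r1 → ∀ (i0 : ℕ) (gd : ℕ → Prop) (E : Finset ℕ) (J0 : ℕ)
          (K2 : ℝ), WordOk K2 (20 * ε) h (m * Real.log 2) J0 (nz R i0) gd (az R i0) (MIC.rz R i0) E →
          ∀ A : ℝ, 0 ≤ A → A ≤ A0 * 2 ^ (e * (x * m)) → ∀ (coll : ℕ → ℝ) (I1 I2 : ℕ → ℕ → ℝ), (∀ j k, 0 ≤ I1 j k) →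
          (∀ j k, 0 ≤ I2 j k) → (m : ℝ) * ∑ j ∈ range (nz R i0), coll j ≤ κ * h →
          ∑ j ∈ range (nz R i0), ∑ k ∈ Ioc j (j + L1), I1 j k ≤ D * ((h : ℝ) / B) +
            K' * (m + (8 * c * (x * m) : ℕ) + 1) * q2 (8 * c * (x * m) / 8) * (C * ((h : ℝ) / m)) + X1 m B →
          ∑ j ∈ range (nz R i0), ∑ k ∈ Ioc j (j + L1), I2 j k ≤ D * ((h : ℝ) / B) +
            K' * (m + (8 * c * (x * m) : ℕ) + 1) * q2 (8 * c * (x * m) / 8) * (C * ((h : ℝ) / m)) + X1 m B →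
          ∑ j ∈ range (nz R i0), errO (cc * (c0 + 1)) cc m A 3 L1 coll I1 I2
            (XN x (nz R i0) (az R i0) (MIC.rz R i0) E) j ≤ η / 300 * h := by
  obtain ⟨κ, e0, hκ, he0, H⟩ := ev_kind (K := 2 * K1 + 4) (τ := η / 1000) (c' := cc) (xx := 3) (l := 1) (by positivity)
    (by positivity) (Nat.cast_nonneg _) (by norm_num) one_pos
  refine ⟨κ, hκ, fun c0 e c x hec hx hxl L1 A0 C D K' X1 hA0 hC hD hK' => ?_⟩
  have H1 := H (cc * (c0 + 1)) (by positivity) hec hx L1 A0 C D K' X1 hA0 hC hD hK'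
  have H2 : Ev3 fun m B h => 3 * (m : ℝ) ≤ η / 10000 * h := Ev3.of_h fun m B => ev_con _ (by positivity)
  refine H1.mono2 H2 fun m B h P1 P2 => ?_
  intro σ ε ρ Ω _ Q l t L q r0 Rn W τ υ R pn g' gU e' κ₀ a1 r1 hσ hσK hε hε' HR i0 gd E J0 K2 hw A hA hAA coll I1 I2 hI1 hI2
    hcoll s1 s2
  have hx1 : 768 * (2 * σ.K1 + 4) / η ≤ x := by
    rw [hσK]
    exact hxl
  have hXN := xn_le HR hσ hε hη hx1 hw
  have hn := nz_le HR (i0 := i0)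
  rw [hσK] at hn
  have hh0 : (0 : ℝ) ≤ h := Nat.cast_nonneg h
  have key := P1 (nz R i0) (by rw [mul_one]; nlinarith) A hA hAA coll I1 I2 ∅ hI1 hI2 (by rw [mul_one]; exact hcoll) s1 s2
    (by rw [Finset.card_empty]; simp only [Nat.cast_zero, mul_zero]; positivity)
  rw [mul_one] at key
  have e1 : ∑ j ∈ range (nz R i0), errO (cc * (c0 + 1)) cc m A 3 L1 coll I1 I2
      (XN x (nz R i0) (az R i0) (MIC.rz R i0) E) j =
      ∑ j ∈ range (nz R i0), err1 (cc * (c0 + 1)) cc m A 3 L1 coll I1 I2 ∅ j +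
        3 * m * ∑ j ∈ range (nz R i0), (if j ∈ XN x (nz R i0) (az R i0) (MIC.rz R i0) E then (1 : ℝ) else 0) := by
    rw [Finset.mul_sum, ← Finset.sum_add_distrib]
    exact Finset.sum_congr rfl fun j _ => errO_split _ _ _ _ _ _ _ _ _ _ j
  have e2 := sum_ind_le (nz R i0) (XN x (nz R i0) (az R i0) (MIC.rz R i0) E)
  have e3 := mul_le_mul_of_nonneg_left e2 (show (0 : ℝ) ≤ 3 * m by positivity)
  rw [e1]
  have e4 : 174 * ε * h ≤ η / 10000 * h := mul_le_mul_of_nonneg_right (by linarith) hh0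
  have e5 : 0 ≤ η * h := by positivity
  linarith

end Vale.Agent.P106.U.H931
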