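import Vale.Agent.P106.U.H931.PC1
import Vale.Agent.P106.U.H459.End7
import Vale.Agent.P106.U.H495.Pdich
import Vale.Agent.P106.U.H996.C1E

/-!
# P106 / U / H931 : `PC1` and `PEnd7`, unconditional
-/

set_option autoImplicit false

namespace Vale.Agent.P106.U.End7

theorem pC1 : PC1 := pC1_of_dich (Vale.Agent.P106.U.H495.pdich 2 (by norm_num))

/-- **END7** -/
theorem pEnd7 : PEnd7 := pEnd7_of (Vale.Agent.P106.U.H495.pdich 3 (by norm_num)) pC1 Vale.Agent.P106.U.C1.H996.pE1

end Vale.Agent.P106.U.End7
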