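import Vale.Agent.P106.U.H931.HO
import Vale.Agent.P106.U.H459.XB
import Vale.Agent.P106.U.H357.USg

/-!
# P106 / U / H931 : the collisions of the heavy row at the old levels, in the letters of helpers 357 and 459 (helper931)

* **`cc_OB`** : sum over `AK R Vs i0 XL c` (any kinds `c`) outside `XB R i0 E`.
-/

set_option autoImplicit false

namespace Vale.Agent.P106.U.H931

open Finset Filter Vale.Agent.P127 Vale.Agent.P127.Stk Vale.Agent.P127.U Vale.Agent.P106.W Vale.Agent.P106.U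
open Vale.Agent.P106.U.S3 (Run Pf F2o)
open Vale.Agent.P106.U.S5
open Vale.Agent.P106.U.H101 (lc)
open Vale.Agent.P106.U.H357 (cTL cYL AK mem_AK)
open Vale.Agent.P106.U.MIC (bc ix nz az St Pre Suf μS KS xS)

theorem not_XEo {Ω : Type} [Fintype Ω] {τ υ : Type} {R : Run Ω τ υ} {i0 : ℕ} {E : Finset ℕ} {j : ℕ}
    (h : j ∉ H459.XB R i0 E) : j ∉ XEo (nz R i0) (az R i0) E := by
  classical
  intro h1
  apply h
  unfold XEo at h1
  unfold H459.XB
  rw [Finset.mem_filter] at h1 ⊢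
  exact ⟨h1.1, h1.2.1, Finset.mem_insert.2 h1.2.2⟩

open Classical in
/-- **[SC] of the heavy row, old levels** : `AK` minus `XB`, any exceptional levels `XL`, any kinds `c` -/
theorem cc_OB {κ : Bs → ℝ → ℕ → ℝ → ℝ → ℝ} (hκ : ∀ b η x δh e3, 0 < η → 0 < δh → 0 < e3 → 0 < κ b η x δh e3) :
    Pre fun b η x δh e3 σ ε ρ => Suf σ ε fun g m B h => ∀ s : St η x σ ε ρ g m B h, ∀ (XL : Finset ℕ) (c : Finset (Fin 4)),
      (m : ℝ) * ∑ j ∈ AK s.R s.Vs s.i0 XL c \ H459.XB s.R s.i0 s.E,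
        (cTL s.R.Q (lc s.R.C (μS x m) s.o) (s.R.m * s.R.b1) (ix s.R s.i0 (j + 1)) (MIC.gS x m) +
        cYL s.R.Q (lc s.R.C (μS x m) s.o) (s.R.m * s.R.b1) (ix s.R s.i0 (j + 1)) (MIC.gS x m)) ≤ κ b η x δh e3 * h := by
  refine (cc_O hκ).mono fun b η x δh e3 σ ε ρ => ?_
  intros
  rename_i H
  refine H.mono fun g m B h _ P s XL c => ?_
  refine P s _ fun j hj => ?_
  rw [Finset.mem_sdiff] at hj
  obtain ⟨h1, h2, _⟩ := mem_AK.1 hj.1
  exact ⟨h1, h2, not_XEo hj.2⟩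

end Vale.Agent.P106.U.H931
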