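import Vale.Agent.P106.H25.PKapW

/-!
# P106 / U / H931 : the N-step in the deep kappa regime, the direction given the cell only (helper931, proofs of helper25)

In the kappa regime the digits of the slope reveal the direction, so `MIC.cY` (given `Dp`) is not small there;
`cYc` = collision of the direction given the cell.
-/

set_option autoImplicit false

namespace Vale.Agent.P106.U.H931

open Finset Vale.Agent.P127 Vale.Agent.P127.Stk Vale.Agent.P127.U.Mic
open Vale.Agent.P127.U.CellD (q2 rd q2_pos q2_add q2_le rd_le lt_rd rd_err rd_mono rd_sub fl1_fl1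
  q2_mul_pow div_pow_eq)
open Vale.Agent.P106.TV
open Vale.Agent.P106.U.Cell Vale.Agent.P106.U.H84
open Vale.Agent.P106.U.H466 (Ctx Rep tol TT exists_rep)
open Vale.Agent.P106.U.MIC
open Vale.Agent.P106.U.H683 (Dp)
open Vale.Agent.P106.H25

variable {Ω τ : Type} [Fintype Ω]

/-- collision of the direction given the cell -/
noncomputable def cYc (P : Law Ω) (C : Pth Ω τ) (b k g : ℕ) : ℝ :=
  colp P (fun ω => fl1 (b + g) (C.l ω).v) (C.cell k b)

/-- **the N-step in the deep kappa regime**, the direction given the cell only -/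
theorem psatKapC (P : Law Ω) (C : Pth Ω τ) (K : ℝ) (c0 m g p b b' f j js i : ℕ) (ι₁ ι₂ : ℝ)
    (H : Ctx C (fun ω => 0 < P.w ω) K f (j + 1) js i b b' p) (hA : Adv C m b j)
    (hK : 2 * K ≤ 2 ^ c0) (hm : 1 ≤ m) (hmg : m ≤ g) (hμ : 800 * (g + c0 + 1) ≤ C.μ) (hp : C.μ ≤ p)
    (hfr : C.a (j + 1) = C.a j + m → f ≤ j) (hki : ¬ C.rf i ≤ b + C.rk i)
    (h1 : mi P (fun ω => fl1 (b + p) (C.l ω).v) (C.cell i b)
      (fun ω => (C.cell (j + 1) b ω, C.T i ω)) ≤ ι₁)
    (h2 : mi P (C.T i) (C.cell (j + 1) b') (C.cell (j + 1) b) ≤ ι₂) :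
    SatN P C b j i (wt C b j * Real.log 2 - (800 * (c0 + 1) + 800 * m * (cT P C b (j + 1) g +
      cL P C b f (j + 1) i (2 * g) + cYc P C b (j + 1) g) +
      (2 : ℝ) ^ (800 * (g + c0 + 1)) * (Real.sqrt ι₁ + Real.sqrt ι₂))) := by
  have hne : Nonempty Ω := by
    by_contra hcon
    rw [not_nonempty_iff] at hcon
    have := P.sum_one
    simp at this
  obtain ⟨dr, hdr⟩ := exists_rep (fun ω => 0 < P.w ω) (C.cell (j + 1) b)
  obtain ⟨tr, htr⟩ := exists_rep (fun ω => 0 < P.w ω) (fun ω => (C.cell (j + 1) b ω, C.T i ω))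
  have hK1 := H.K1
  have hb8 := H.b8
  have hRk := Ctx_Rk H
  obtain ⟨p₁, p₂, ha, hR, q1, q2', hwt, hf⟩ : ∃ p₁ p₂ : ℕ, C.a (j + 1) = C.a j + p₁ ∧
      C.R (j + 1) b = C.R j b + p₂ ∧ p₁ ≤ m ∧ p₂ ≤ m ∧
      wt C b j ≤ 3 * (p₁ : ℝ) + 2 * p₂ ∧ (f ≤ j ∨ C.a (j + 1) = C.a j) := by
    rcases hA with ⟨h3, h4⟩ | ⟨h3, h4⟩
    · refine ⟨m, 0, h3, by omega, le_rfl, by omega, ?_, Or.inl (hfr h3)⟩
      unfold wt
      rw [h3, h4]
      push_cast
      linarith
    · refine ⟨0, m, by omega, h4, by omega, le_rfl, ?_, Or.inr h3⟩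
      unfold wt
      rw [h3, h4]
      push_cast
      have : (0 : ℝ) ≤ m := Nat.cast_nonneg _
      linarith
  have L : LvK C K c0 m g p b f j p₁ p₂ (tol K C p) (12 * K ^ 5 * q2 C.μ ^ 7) :=
    { hK := hK
      m1 := hm
      mg := hmg
      gp := by omega
      gμ := by omega
      cμ := by omega
      a := ha
      R := hR
      q1 := q1
      q2' := q2'
      R2 := by omega
      fr := hf
      r0 := by
        unfold tol
        have := q2_pos p
        have := q2_pos C.μ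
        positivity
      r1 := tol_le hK1 hK hmg (by omega) hp
      r' := rr_le hK1 hK (by omega) }
  have main := satKC H L hdr htr (chainK H hdr htr) (fun ω hω => by
    have hv := htr.val ω hω
    have := H.TT_near hω (htr.mem ω hω) (Prod.mk.inj hv).1 (Prod.mk.inj hv).2
    refine this.trans (le_of_eq ?_)
    ring) (ι₁ := ι₁) (ι₂ := ι₂) (pw := cL P C b f (j + 1) i (2 * g)) le_rfl h1 h2
  refine SatN.of_T hki (le_trans ?_ main)
  -- the numbers
  have hlog := nK_log c0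
  have hl2 : 0 < Real.log 2 := Real.log_pos (by norm_num)
  have t1 : wt C b j * Real.log 2 ≤ (3 * (p₁ : ℝ) + 2 * p₂) * Real.log 2 :=
    mul_le_mul_of_nonneg_right hwt hl2.le
  have fnD : Fn P (C.cell (j + 1) b) (Dp C (j + 1) b) := fun _ _ _ _ e => congrArg Prod.fst e
  have t2 : colp P (fun ω => fl1 (C.a (j + 1) + g) (C.t ω)) (C.cell (j + 1) b) ≤
      cT P C b (j + 1) g := colp_mono_cond P _ fnD
  have t3 : colp P (fun ω => fl1 (b + g) (C.l ω).v) (C.cell (j + 1) b) ≤ cYc P C b (j + 1) g := le_rfl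
  have n1 : 0 ≤ cT P C b (j + 1) g := colp_nonneg P _ _
  have n2 : 0 ≤ cYc P C b (j + 1) g := colp_nonneg P _ _
  have n3 : 0 ≤ cL P C b f (j + 1) i (2 * g) :=
    Law.ex_nonneg _ fun _ _ => Law.ex_nonneg _ fun _ _ => Law.ex_nonneg _ fun _ _ => ind_nonneg _
  have m0 : (0 : ℝ) ≤ m := Nat.cast_nonneg _
  have c00 : (0 : ℝ) ≤ c0 := Nat.cast_nonneg _
  have t4 : 32 * (m : ℝ) * (colp P (fun ω => fl1 (C.a (j + 1) + g) (C.t ω)) (C.cell (j + 1) b) +
      colp P (fun ω => fl1 (b + g) (C.l ω).v) (C.cell (j + 1) b) + cL P C b f (j + 1) i (2 * g)) ≤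
      800 * m * (cT P C b (j + 1) g + cL P C b f (j + 1) i (2 * g) + cYc P C b (j + 1) g) := by
    calc _ ≤ 32 * (m : ℝ) * (cT P C b (j + 1) g + cYc P C b (j + 1) g +
          cL P C b f (j + 1) i (2 * g)) := by gcongr
      _ = 32 * (m * (cT P C b (j + 1) g + cL P C b f (j + 1) i (2 * g) + cYc P C b (j + 1) g)) := by
          ring
      _ ≤ 800 * (m * (cT P C b (j + 1) g + cL P C b f (j + 1) i (2 * g) +
          cYc P C b (j + 1) g)) := by
          apply mul_le_mul_of_nonneg_right (by norm_num)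
          positivity
      _ = _ := by ring
  have t5 : (2 : ℝ) ^ (57 * (g + 3 * c0 + 3)) * (Real.sqrt ι₁ + Real.sqrt ι₂) ≤
      2 ^ (800 * (g + c0 + 1)) * (Real.sqrt ι₁ + Real.sqrt ι₂) := by
    apply mul_le_mul_of_nonneg_right _ (by positivity)
    exact pow_le_pow_right₀ (by norm_num) (by omega)
  linarith

/-- **the N-step in the deep kappa regime, weak form**, the direction given the cell only -/
theorem psatKapWC (P : Law Ω) (C : Pth Ω τ) (K : ℝ) (c0 m g p b b' f j js i : ℕ) (ι₁ ι₂ : ℝ)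
    (H : Ctx C (fun ω => 0 < P.w ω) K f (j + 1) js i b b' p) (hA : Adv C m b j)
    (hK : 2 * K ≤ 2 ^ c0) (hm : 1 ≤ m) (hmg : m ≤ g) (hμ : 800 * (g + c0 + 1) ≤ C.μ) (hp : C.μ ≤ p)
    (hfr : C.a (j + 1) = C.a j + m → f ≤ j) (hki : ¬ C.rf i ≤ b + C.rk i)
    (h1 : mi P (fun ω => fl1 (b + p) (C.l ω).v) (C.cell i b)
      (fun ω => (C.cell (j + 1) b ω, C.T i ω)) ≤ ι₁)
    (h2 : mi P (C.T i) (C.cell (j + 1) b') (C.cell (j + 1) b) ≤ ι₂) :
    SatN P C b j i (wt C b j * Real.log 2 - (800 * (c0 + 1) + 800 * m * (cT P C b (j + 1) g +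
      cW P C b f (j + 1) i (2 * g) + cYc P C b (j + 1) g) +
      (2 : ℝ) ^ (800 * (g + c0 + 1)) * (Real.sqrt ι₁ + Real.sqrt ι₂))) := by
  have hne : Nonempty Ω := by
    by_contra hcon
    rw [not_nonempty_iff] at hcon
    have := P.sum_one
    simp at this
  obtain ⟨dr, hdr⟩ := exists_rep (fun ω => 0 < P.w ω) (C.cell (j + 1) b)
  obtain ⟨tr, htr⟩ := exists_rep (fun ω => 0 < P.w ω) (fun ω => (C.cell (j + 1) b ω, C.T i ω))
  have hK1 := H.K1
  have hb8 := H.b8
  have hRk := Ctx_Rk H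
  obtain ⟨p₁, p₂, ha, hR, q1, q2', hwt, hf⟩ : ∃ p₁ p₂ : ℕ, C.a (j + 1) = C.a j + p₁ ∧
      C.R (j + 1) b = C.R j b + p₂ ∧ p₁ ≤ m ∧ p₂ ≤ m ∧
      wt C b j ≤ 3 * (p₁ : ℝ) + 2 * p₂ ∧ (f ≤ j ∨ C.a (j + 1) = C.a j) := by
    rcases hA with ⟨h3, h4⟩ | ⟨h3, h4⟩
    · refine ⟨m, 0, h3, by omega, le_rfl, by omega, ?_, Or.inl (hfr h3)⟩
      unfold wt
      rw [h3, h4]
      push_cast
      linarith
    · refine ⟨0, m, by omega, h4, by omega, le_rfl, ?_, Or.inr h3⟩
      unfold wt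
      rw [h3, h4]
      push_cast
      have : (0 : ℝ) ≤ m := Nat.cast_nonneg _
      linarith
  have L : LvK C K c0 m g p b f j p₁ p₂ (tol K C p) (12 * K ^ 5 * q2 C.μ ^ 7) :=
    { hK := hK
      m1 := hm
      mg := hmg
      gp := by omega
      gμ := by omega
      cμ := by omega
      a := ha
      R := hR
      q1 := q1
      q2' := q2'
      R2 := by omega
      fr := hf
      r0 := by
        unfold tol
        have := q2_pos p
        have := q2_pos C.μ
        positivity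
      r1 := tol_le hK1 hK hmg (by omega) hp
      r' := rr_le hK1 hK (by omega) }
  have main := satKCw H L (tol_le2 hK1 hK hmg (by omega) hp) hdr htr (chainK H hdr htr)
    (fun ω hω => by
      have hv := htr.val ω hω
      have := H.TT_near hω (htr.mem ω hω) (Prod.mk.inj hv).1 (Prod.mk.inj hv).2
      refine this.trans (le_of_eq ?_)
      ring) h1 h2
  refine SatN.of_T hki (le_trans ?_ main)
  -- the numbers
  have hlog := nK_log c0
  have hl2 : 0 < Real.log 2 := Real.log_pos (by norm_num)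
  have t1 : wt C b j * Real.log 2 ≤ (3 * (p₁ : ℝ) + 2 * p₂) * Real.log 2 :=
    mul_le_mul_of_nonneg_right hwt hl2.le
  have fnD : Fn P (C.cell (j + 1) b) (Dp C (j + 1) b) := fun _ _ _ _ e => congrArg Prod.fst e
  have t3 : colp P (fun ω => fl1 (b + g) (C.l ω).v) (C.cell (j + 1) b) ≤ cYc P C b (j + 1) g := le_rfl
  have n1 : 0 ≤ cT P C b (j + 1) g := colp_nonneg P _ _
  have n2 : 0 ≤ cYc P C b (j + 1) g := colp_nonneg P _ _
  have n3 : 0 ≤ cW P C b f (j + 1) i (2 * g) := Law.ex_nonneg _ fun _ _ => ind_nonneg _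
  have m0 : (0 : ℝ) ≤ m := Nat.cast_nonneg _
  have c00 : (0 : ℝ) ≤ c0 := Nat.cast_nonneg _
  have t4 : 4 * (m : ℝ) * (cW P C b f (j + 1) i (2 * g) +
      18 * colp P (fun ω => fl1 (b + g) (C.l ω).v) (C.cell (j + 1) b)) ≤
      800 * m * (cT P C b (j + 1) g + cW P C b f (j + 1) i (2 * g) + cYc P C b (j + 1) g) := by
    calc _ ≤ 4 * (m : ℝ) * (cW P C b f (j + 1) i (2 * g) + 18 * cYc P C b (j + 1) g) := by gcongr
      _ = m * (4 * cW P C b f (j + 1) i (2 * g) + 72 * cYc P C b (j + 1) g) := by ring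
      _ ≤ m * (800 * (cT P C b (j + 1) g + cW P C b f (j + 1) i (2 * g) + cYc P C b (j + 1) g)) := by
          apply mul_le_mul_of_nonneg_left _ m0
          linarith
      _ = _ := by ring
  have t5 : (2 : ℝ) ^ (57 * (2 * g + 3 * c0 + 4)) * 4 / q2 (2 * g) *
      (Real.sqrt ι₁ + Real.sqrt ι₂) ≤
      2 ^ (800 * (g + c0 + 1)) * (Real.sqrt ι₁ + Real.sqrt ι₂) := by
    apply mul_le_mul_of_nonneg_right _ (by positivity)
    rw [div_le_iff₀ (q2_pos _)]
    have e : (2 : ℝ) ^ (57 * (2 * g + 3 * c0 + 4)) * 4 =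
        2 ^ (57 * (2 * g + 3 * c0 + 4) + 2 + 2 * g) * q2 (2 * g) := by
      rw [pow_add _ _ (2 * g), mul_assoc, q2_mul_pow, mul_one, pow_add]; norm_num
    rw [e]
    apply mul_le_mul_of_nonneg_right _ (q2_pos _).le
    exact pow_le_pow_right₀ (by norm_num) (by omega)
  linarith

end Vale.Agent.P106.U.H931
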