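import Vale.Agent.P106.U.H931.Coll
import Vale.Agent.P106.U.H931.Sd
import Vale.Agent.P106.U.MIC.Props

/-!
# P106 / U / H931 : collisions at the counted steps of a path along indices `f` (helper931)

`f` monotone (compressed path of one cap, from a start on), `N` steps, `f N ≤ n`; `g i := R.Good p ε b0 (f i)`.
For a counted step `j` outside `XN` the good time step is `q = f (nx N a (j + 1))`.

* `Nxt.q` : the facts on `k = f (j + 1)` and `q`.
* `cT_m`, `cF_m`, `cL_m` : `MIC.cT`, `MIC.cF` (phi regime), `MIC.cL` (kappa regime, type (i)) of the step `j + 1`.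
-/

set_option autoImplicit false

namespace Vale.Agent.P106.U.H931

open Finset Vale.Agent.P127 Vale.Agent.P127.Stk Vale.Agent.P106.W
open Vale.Agent.P127.U.CellD (q2 q2_pos q2_add q2_le q2_mul_pow)
open Vale.Agent.P106.U.Cell (Pth)
open Vale.Agent.P106.U.S3 (Run)
open Vale.Agent.P106.U.H833 (aN kN fN RN lev_a lev_k lev_f)
open Vale.Agent.P106.U.H118 (Sdat CS mem_CS)

section

variable {Ω : Type} [Fintype Ω] {τ υ : Type} {R : Run Ω τ υ} {p : Run.Num}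

/-- the step `k` and its good time step `q` at the cap `x` -/
structure Nq (R : Run Ω τ υ) (p : Run.Num) (ε : ℝ) (b0 x M k q : ℕ) : Prop where
  kq : k ≤ q
  qn : q < R.n
  good : R.Good p ε b0 q
  a : R.C.a k = R.C.a q
  RN : RN R x q ≤ RN R x k + M

/-- **the good time step of a counted step** -/
theorem nq_of (hP : R.Path p) {ε : ℝ} {b0 x M N : ℕ} {f : ℕ → ℕ} (hf : Monotone f) (hfN : f N ≤ R.n)
    (D : Sdat N (fun i => R.Good p ε b0 (f i)) (fun i => aN R (f i)) (fun i => RN R x (f i))) {E : Finset ℕ}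
    (hE : ∀ i < N, aN R (f (i + 1)) = aN R (f i) + 1 → ¬ R.Good p ε b0 (f i) → i ∈ E) {i e j : ℕ} (he : e ≤ N)
    (hj : j ∈ CS M N (fun i => R.Good p ε b0 (f i)) (fun i => aN R (f i)) (fun i => RN R x (f i)) i e)
    (hX : j ∉ XN M N (fun i => aN R (f i)) (fun i => RN R x (f i)) E) :
    Nq R p ε b0 x M (f (j + 1)) (f (nx N (fun i => aN R (f i)) (j + 1))) := by
  obtain ⟨h1, h2, h3, h4, h5⟩ := nx_counted D hE he hj hX
  have h6 : f (nx N (fun i => aN R (f i)) (j + 1)) ≤ R.n := (hf (by omega)).trans hfN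
  have h7 : f (j + 1) ≤ f (nx N (fun i => aN R (f i)) (j + 1)) := hf (by omega)
  refine ⟨h7, ?_, h3, ?_, h5⟩
  · refine lt_of_le_of_ne h6 fun e1 => ?_
    have h8 := D.ga _ h2 h3
    have h9 : f (nx N (fun i => aN R (f i)) (j + 1) + 1) = R.n :=
      le_antisymm ((hf (by omega)).trans hfN) (by
        have := hf (Nat.le_succ (nx N (fun i => aN R (f i)) (j + 1)))
        rw [← e1]
        exact this)
    rw [h9, e1] at h8
    omega
  · rw [lev_a hP (by omega), lev_a hP (by omega)]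
    rw [h4]

/-- the phi regime at `k`, with a margin -/
theorem Nq.phi {ε : ℝ} {b0 x M k q : ℕ} (h : Nq R p ε b0 x M k q) (hP : R.Path p)
    (hr : fN R k + M + 1 ≤ kN R k + x) (hx : R.m * x ≤ p.B₁) {g : ℕ} (hg : (M + 1) * R.m ≤ g) :
    R.C.rf q < p.QF ∧ R.C.rf q < R.rI q + p.B₁ ∧ R.C.rf q + R.m ≤ R.C.rf k + g := by
  have hqn := h.qn
  have hkq := h.kq
  have k0 := lev_k hP (i := k) (by omega)
  have k1 := lev_k hP (i := q) (by omega)
  have f0 := lev_f hP (i := k) (by omega)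
  have f1 := lev_f hP (i := q) (by omega)
  have hm := hP.m1
  have hkk : kN R k ≤ kN R q := by
    have := R.C.hk hkq
    exact Nat.le_of_mul_le_mul_left (by omega : R.m * kN R k ≤ R.m * kN R q) hm
  have hR := h.RN
  unfold H833.RN at hR
  have h1 : fN R q ≤ fN R k + M := by omega
  have h2 : fN R q + 1 ≤ kN R q + x := by omega
  have h3 : R.m * fN R q + R.m ≤ R.m * kN R q + R.m * x := by
    have := Nat.mul_le_mul_left R.m h2
    rw [Nat.mul_add, Nat.mul_add, Nat.mul_one] at this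
    exact this
  have h4 := hP.leI q (by omega) h.good.isA
  have h5 := (hP.stop q hqn).2
  have h6 := hP.rK.2
  have h7 : R.m * fN R q ≤ R.m * fN R k + R.m * M := by
    rw [← Nat.mul_add]
    exact Nat.mul_le_mul_left _ h1
  have h8 : (M + 1) * R.m = R.m * M + R.m := by ring
  refine ⟨by omega, by omega, by omega⟩

/-- the kappa regime at `k`, with a margin -/
theorem Nq.kap {ε : ℝ} {b0 x M k q s : ℕ} (h : Nq R p ε b0 x M k q) (hP : R.Path p)
    (hr : kN R k + x + M + 1 ≤ fN R k) (ht : R.rI q ≤ R.C.rk q + s * R.m) (hs : s ≤ x) :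
    R.rI q < R.C.rf q ∧ R.rI q + R.m ≤ R.C.rk k + (M + s + 1) * R.m ∧ R.C.rk k + R.m * x ≤ R.C.rf q ∧
      R.C.rk q ≤ R.C.rk k + M * R.m := by
  have hqn := h.qn
  have hkq := h.kq
  have k0 := lev_k hP (i := k) (by omega)
  have k1 := lev_k hP (i := q) (by omega)
  have f0 := lev_f hP (i := k) (by omega)
  have f1 := lev_f hP (i := q) (by omega)
  have hm := hP.m1
  have hff : fN R k ≤ fN R q := by
    have := R.C.hf hkq
    exact Nat.le_of_mul_le_mul_left (by omega : R.m * fN R k ≤ R.m * fN R q) hm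
  have hR := h.RN
  unfold H833.RN at hR
  have h1 : kN R q ≤ kN R k + M := by omega
  have h2 : kN R k + x + M + 1 ≤ fN R q := by omega
  have h3 : R.m * kN R q ≤ R.m * kN R k + R.m * M := by
    rw [← Nat.mul_add]
    exact Nat.mul_le_mul_left _ h1
  have h4 : R.m * kN R k + R.m * x + R.m * M + R.m ≤ R.m * fN R q := by
    have := Nat.mul_le_mul_left R.m h2
    rw [Nat.mul_add, Nat.mul_add, Nat.mul_add, Nat.mul_one] at this
    exact this
  have h5 : (M + s + 1) * R.m = R.m * M + s * R.m + R.m := by ring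
  have h6 : s * R.m ≤ R.m * x := by
    rw [Nat.mul_comm]
    exact Nat.mul_le_mul_left _ hs
  have h7 : M * R.m = R.m * M := Nat.mul_comm _ _
  refine ⟨by omega, by omega, by omega, by omega⟩

/-- the width of the strip -/
theorem hw_of {K : ℝ} (hK : 1 ≤ K) {c g M8 rk rI m s : ℕ} (hKc : K ≤ 2 ^ c) (hr : rI + m ≤ rk + s)
    (h1 : s + 2 * c + 1 ≤ g) (h2 : 2 * g + 6 * c + 6 ≤ M8) :
    K ^ 2 * (q2 g + 16 * K ^ 6 * q2 M8 + 4 * K ^ 3 * 2 ^ g * q2 M8) * q2 rk ≤ q2 (rI + m) := by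
  have hK0 : (0 : ℝ) ≤ K := by linarith
  have pc : ∀ n : ℕ, K ^ n ≤ 2 ^ (n * c) := fun n => by
    rw [Nat.mul_comm, pow_mul]
    exact pow_le_pow_left₀ hK0 hKc n
  have e1 : K ^ 2 * q2 g ≤ q2 (s + 1) := by
    have h3 : q2 g ≤ q2 (s + 1) * q2 (2 * c) := by
      rw [← q2_add]
      exact q2_le (by omega)
    calc K ^ 2 * q2 g ≤ 2 ^ (2 * c) * (q2 (s + 1) * q2 (2 * c)) :=
          mul_le_mul (pc 2) h3 (q2_pos _).le (by positivity)
      _ = q2 (s + 1) * (2 ^ (2 * c) * q2 (2 * c)) := by ring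
      _ = q2 (s + 1) := by rw [q2_mul_pow, mul_one]
  have e2 : K ^ 2 * (16 * K ^ 6 * q2 M8) ≤ q2 (s + 2) := by
    have h3 : q2 M8 ≤ q2 (s + 2) * q2 (8 * c + 4) := by
      rw [← q2_add]
      exact q2_le (by omega)
    have h4 : K ^ 2 * (16 * K ^ 6) ≤ 2 ^ (8 * c + 4) := by
      rw [pow_add]
      calc K ^ 2 * (16 * K ^ 6) = K ^ 8 * 16 := by ring
        _ ≤ 2 ^ (8 * c) * 2 ^ 4 := by
          have := pc 8
          norm_num
          linarith
    calc K ^ 2 * (16 * K ^ 6 * q2 M8) = K ^ 2 * (16 * K ^ 6) * q2 M8 := by ring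
      _ ≤ 2 ^ (8 * c + 4) * (q2 (s + 2) * q2 (8 * c + 4)) := mul_le_mul h4 h3 (q2_pos _).le (by positivity)
      _ = q2 (s + 2) * (2 ^ (8 * c + 4) * q2 (8 * c + 4)) := by ring
      _ = q2 (s + 2) := by rw [q2_mul_pow, mul_one]
  have e3 : K ^ 2 * (4 * K ^ 3 * 2 ^ g * q2 M8) ≤ q2 (s + 2) := by
    have h3 : q2 M8 ≤ q2 (s + 2) * q2 (5 * c + 2 + g) := by
      rw [← q2_add]
      exact q2_le (by omega)
    have h4 : K ^ 2 * (4 * K ^ 3 * 2 ^ g) ≤ 2 ^ (5 * c + 2 + g) := by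
      rw [pow_add, pow_add]
      calc K ^ 2 * (4 * K ^ 3 * 2 ^ g) = K ^ 5 * 4 * 2 ^ g := by ring
        _ ≤ 2 ^ (5 * c) * 2 ^ 2 * 2 ^ g := by
          refine mul_le_mul_of_nonneg_right ?_ (by positivity)
          have := pc 5
          norm_num
          linarith
    calc K ^ 2 * (4 * K ^ 3 * 2 ^ g * q2 M8) = K ^ 2 * (4 * K ^ 3 * 2 ^ g) * q2 M8 := by ring
      _ ≤ 2 ^ (5 * c + 2 + g) * (q2 (s + 2) * q2 (5 * c + 2 + g)) :=
        mul_le_mul h4 h3 (q2_pos _).le (by positivity)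
      _ = q2 (s + 2) * (2 ^ (5 * c + 2 + g) * q2 (5 * c + 2 + g)) := by ring
      _ = q2 (s + 2) := by rw [q2_mul_pow, mul_one]
  have e4 : q2 (s + 1) + q2 (s + 2) + q2 (s + 2) = q2 s := by
    have h1 : q2 1 = 1 / 2 := by unfold q2; norm_num
    have h2 : q2 2 = 1 / 4 := by unfold q2; norm_num
    rw [q2_add s 1, q2_add s 2, h1, h2]
    ring
  have e5 : K ^ 2 * (q2 g + 16 * K ^ 6 * q2 M8 + 4 * K ^ 3 * 2 ^ g * q2 M8) ≤ q2 s := by
    rw [mul_add, mul_add, ← e4]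
    linarith
  calc _ ≤ q2 s * q2 rk := mul_le_mul_of_nonneg_right e5 (q2_pos _).le
    _ = q2 (rk + s) := by rw [q2_add]; ring
    _ ≤ _ := q2_le hr

end

section coll

variable {Ω : Type} [Fintype Ω] {τ υ : Type} {R : Run Ω τ υ} {p : Run.Num} {K c' g' gU : ℝ}

/-- **time**, every regime -/
theorem cT_m (h : R.Ok p K c' g' gU) {f : ℕ → ℕ} (hf : Monotone f) {ε : ℝ} {b b0 x M k q g : ℕ}
    (n : Nq R p ε b0 x M (f k) q) (hmg : R.m ≤ g) {K' : ℕ} (hK : K ≤ K') :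
    MIC.cT R.Q (R.C.re f hf) b k g ≤ Real.sqrt (((2 * K' + 3 : ℕ) : ℝ) * ε) :=
  cT_le h n.good n.kq (by have := n.qn; omega) n.a hmg hK

/-- **own slope**, phi regime -/
theorem cF_m (h : R.Ok p K c' g' gU) {f : ℕ → ℕ} (hf : Monotone f) {ε : ℝ} {b b0 x M k q g : ℕ}
    (n : Nq R p ε b0 x M (f k) q) (hr : fN R (f k) + M + 1 ≤ kN R (f k) + x) (hx : R.m * x ≤ p.B₁)
    (hg : (M + 1) * R.m ≤ g) {K' : ℕ} (hK : K ≤ K') :
    MIC.cF R.Q (R.C.re f hf) b k g ≤ Real.sqrt (((2 * K' + 3 : ℕ) : ℝ) * ((2 * (K' + 1 : ℕ) + 1) * ε)) := by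
  obtain ⟨h1, h2, h3⟩ := n.phi h.pth hr hx hg
  exact cF_le h n.good n.kq (by have := n.qn; omega) h1 h2 h3 hK

/-- **three points given the cell**, kappa regime, type (i); frame `fr ≤ k` on the same level of the line -/
theorem cL_mf (h : R.Ok p K c' g' gU) {f : ℕ → ℕ} (hf : Monotone f) {ε : ℝ} {b b0 x M fr k js i q s c g : ℕ}
    (hfr : fr ≤ k) (hrk : R.C.rk (f fr) = R.C.rk (f k))
    (n : Nq R p ε b0 x M (f k) q) (hr : kN R (f k) + x + M + 1 ≤ fN R (f k))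
    (ht : R.rI q ≤ R.C.rk q + s * R.m) (hs : s ≤ x) (hkj : k ≤ js) (hji : js ≤ i) (hi : f i ≤ R.n)
    (r8 : R.C.rk (f k) + 8 * R.C.μ ≤ R.C.rk (f js)) (a8 : R.C.a (f js) + 8 * R.C.μ ≤ R.C.a (f i))
    (hx : 8 * R.C.μ ≤ R.m * x) (hK : 1 ≤ K) (hKc : K ≤ 2 ^ c) (hg1 : (M + s + 1) * R.m + 2 * c + 1 ≤ g)
    (hg2 : 2 * g + 6 * c + 6 ≤ 8 * R.C.μ) :
    MIC.cL R.Q (R.C.re f hf) b fr k i (2 * g) ≤ 10 * ε := by
  obtain ⟨h1, h2, h3, h4⟩ := n.kap h.pth hr ht hs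
  have hqn := n.qn
  have hm : R.m ≤ g := by
    have : R.m ≤ (M + s + 1) * R.m := Nat.le_mul_of_pos_left _ (by omega)
    omega
  have hδ : 2 * K ^ 2 * q2 (R.C.rk (f k) + 8 * R.C.μ) ≤ 1 := by
    have e1 : K ^ 2 ≤ 2 ^ (2 * c) := by
      rw [Nat.mul_comm, pow_mul]
      exact pow_le_pow_left₀ (by linarith) hKc 2
    calc 2 * K ^ 2 * q2 (R.C.rk (f k) + 8 * R.C.μ) ≤ 2 * 2 ^ (2 * c) * q2 (2 * c + 1) :=
          mul_le_mul (by linarith) (q2_le (by omega)) (q2_pos _).le (by positivity)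
      _ = 2 ^ (2 * c + 1) * q2 (2 * c + 1) := by rw [pow_succ]; ring
      _ = 1 := q2_mul_pow _
  exact cL_le h n.good (f := f fr) n.kq (by omega) (hf hfr) hrk (hf hkj) (hf hji) hi n.a hm (by omega) h1 r8 a8 hδ
    (by omega) (hw_of hK hKc h2 hg1 hg2)

/-- **three points given the cell**, kappa regime, type (i); frame `k` -/
theorem cL_m (h : R.Ok p K c' g' gU) {f : ℕ → ℕ} (hf : Monotone f) {ε : ℝ} {b b0 x M k js i q s c g : ℕ}
    (n : Nq R p ε b0 x M (f k) q) (hr : kN R (f k) + x + M + 1 ≤ fN R (f k))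
    (ht : R.rI q ≤ R.C.rk q + s * R.m) (hs : s ≤ x) (hkj : k ≤ js) (hji : js ≤ i) (hi : f i ≤ R.n)
    (r8 : R.C.rk (f k) + 8 * R.C.μ ≤ R.C.rk (f js)) (a8 : R.C.a (f js) + 8 * R.C.μ ≤ R.C.a (f i))
    (hx : 8 * R.C.μ ≤ R.m * x) (hK : 1 ≤ K) (hKc : K ≤ 2 ^ c) (hg1 : (M + s + 1) * R.m + 2 * c + 1 ≤ g)
    (hg2 : 2 * g + 6 * c + 6 ≤ 8 * R.C.μ) :
    MIC.cL R.Q (R.C.re f hf) b k k i (2 * g) ≤ 10 * ε :=
  cL_mf h hf le_rfl rfl n hr ht hs hkj hji hi r8 a8 hx hK hKc hg1 hg2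

end coll

end Vale.Agent.P106.U.H931
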