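import Vale.Agent.P106.U.H931.C1A
import Vale.Agent.P106.U.H495.DichDefs

/-!
# P106 / U / H931 : `PC1` from its blocks (helper931)

`pc1_of : PDich 2 → PFew1 → PFew2 → PFewI → PE2 → PGrowE → PLabC1 → PC1`.

1. fix the coordinate `k0` with `|π_k0| = 1`; 2. thin slab: `|π 2|` is not small (else `PFew1` against the growth of the slope);
   thick slab: the screen covector is not small (else `PFewI`); 3. label `Apl` of the level `h - r`; the dichotomy `PDich 2` for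
   the two coordinates `≠ k0` with the side variable `Apl`: saturated end against `PLabC1`, second plane (transversal) against the
   growth of the slope (`PFew2`).
-/

set_option autoImplicit false

namespace Vale.Agent.P106.U.End7.C1H

open Finset Vale.Agent.P127 Vale.Agent.P127.Stk Vale.Agent.P127.U.CellD Vale.Agent.P127.U.Mic Vale.Agent.P106.W
open Vale.Agent.P106.K (Ry RyOk bl Bin)
open Vale.Agent.P122.C2 (fw fn)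
open Vale.Agent.P106.U.EndA (Sta Zhd DhOk DfOk PsOk PDich)

section

variable {Ω : Type} [Fintype Ω] {ζ : Type}

theorem Fn_mono {S T : Type*} {P P' : Law Ω} {X : Ω → S} {Y : Ω → T} (h : Fn P X Y) (hd : ∀ ω, 0 < P'.w ω → 0 < P.w ω) :
    Fn P' X Y := fun ω ω' h1 h2 e => h ω ω' (hd ω h1) (hd ω' h2) e

/-- the data of `PC1` -/
structure Dat (E : Env Ω) (a' s : ℕ) (G : Ω → ζ) (π : ζ → Fin 3 → ℝ) (o : ζ → ℝ) (P : Law Ω) : Prop where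
  S : E.Supp P
  fn : Fn P G (fun ω => (E.l ω, fl1 a' (E.t ω)))
  pl : ∀ ω, 0 < P.w ω → (∀ k, |π (G ω) k| ≤ 1) ∧ (∃ k, |π (G ω) k| = 1) ∧
    |∑ k, π (G ω) k * E.Q ω k - o (G ω)| ≤ (1 / 2 : ℝ) ^ s

theorem Dat.mono {E : Env Ω} {a' s : ℕ} {G : Ω → ζ} {π : ζ → Fin 3 → ℝ} {o : ζ → ℝ} {P P' : Law Ω}
    (h : Dat E a' s G π o P) (hd : ∀ ω, 0 < P'.w ω → 0 < P.w ω) : Dat E a' s G π o P' :=
  ⟨Supp_mono h.S hd, Fn_mono h.fn hd, fun ω hω => h.pl ω (hd ω hω)⟩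

/-- the velocity is normalised -/
theorem Q_le {E : Env Ω} {P : Law Ω} (hS : E.Supp P) {ω : Ω} (hω : 0 < P.w ω) (k : Fin 3) : |E.Q ω k| ≤ 1 := by
  obtain ⟨r1, -, -⟩ := hS.ok ω hω
  obtain ⟨-, -, -, -, i5⟩ := hS.inn ω hω
  have s1 := r1.2.1
  have hc : |Real.cos E.B0.θ| ≤ 1 := Real.abs_cos_le_one _
  have hs : |Real.sin E.B0.θ| ≤ 1 := Real.abs_sin_le_one _
  have h0 : |fw E.B0.θ (E.l ω).s / 2| ≤ 1 := by
    have e : fw E.B0.θ (E.l ω).s = Real.cos E.B0.θ * (E.l ω).s 0 + Real.sin E.B0.θ * (E.l ω).s 1 := rfl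
    rw [e, abs_div, abs_two]
    have a1 : |Real.cos E.B0.θ * (E.l ω).s 0| ≤ 1 := by
      rw [abs_mul]
      have := mul_le_mul hc (s1 0) (abs_nonneg _) zero_le_one
      linarith
    have a2 : |Real.sin E.B0.θ * (E.l ω).s 1| ≤ 1 := by
      rw [abs_mul]
      have := mul_le_mul hs (s1 1) (abs_nonneg _) zero_le_one
      linarith
    have := abs_add_le (Real.cos E.B0.θ * (E.l ω).s 0) (Real.sin E.B0.θ * (E.l ω).s 1)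
    linarith
  have h1 : |(∑ k, (E.l ω).s k ^ 2) / 2| ≤ 1 := by
    rw [Fin.sum_univ_two, abs_div, abs_two]
    have a1 : (E.l ω).s 0 ^ 2 ≤ 1 := by
      have := s1 0
      rw [← sq_abs]
      nlinarith [abs_nonneg ((E.l ω).s 0)]
    have a2 : (E.l ω).s 1 ^ 2 ≤ 1 := by
      have := s1 1
      rw [← sq_abs]
      nlinarith [abs_nonneg ((E.l ω).s 1)]
    rw [abs_of_nonneg (by positivity)]
    linarith
  have h2 : |2 ^ E.q * E.B0.g1 (E.l ω).y (E.l ω).s (E.l ω).z| ≤ 1 := by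
    rw [abs_mul, abs_of_pos (by positivity : (0 : ℝ) < 2 ^ E.q)]
    have h3 : |E.B0.g1 (E.l ω).y (E.l ω).s (E.l ω).z| ≤ E.B0.u1 := i5
    rw [hS.u1] at h3
    calc (2 : ℝ) ^ E.q * |E.B0.g1 (E.l ω).y (E.l ω).s (E.l ω).z| ≤ 2 ^ E.q * (1 / 2 : ℝ) ^ E.q := by gcongr
      _ = 1 := by rw [← mul_pow]; norm_num
  fin_cases k
  · exact h0
  · exact h1
  · exact h2

/-- the end given the two coordinates -/
theorem Fn_Zhd2 (E : Env Ω) (P : Law Ω) (k0 : Fin 3) :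
    Fn P (Zhd (fun ω i => E.X ω (k0.succAbove i)) (fun ω i => E.Q ω (k0.succAbove i)) E.t E.h) (E.Zh E.h) := by
  intro ω ω' _ _ e
  obtain ⟨e1, e2⟩ := Prod.mk.injEq _ _ _ _ ▸ e
  refine Prod.ext e1 ?_
  funext i
  exact congrFun e2 (k0.succAbove i)

/-- **saturated end against the slab label** -/
theorem sat_ineq {p : Par} {E : Env Ω} {P : Law Ω} {G : Ω → ζ} {π : ζ → Fin 3 → ℝ} {a r : ℕ} {k0 : Fin 3} {x y CL b μ : ℝ}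
    (hsat : 2 * (r : ℝ) * Real.log 2 - x ≤ Stk.mi P (fun ω => ((fun i => E.X ω (k0.succAbove i)), fun i => E.Q ω (k0.succAbove i)))
      (Zhd (fun ω i => E.X ω (k0.succAbove i)) (fun ω i => E.Q ω (k0.succAbove i)) E.t E.h)
      (fun ω => (Apl E G π a ω, fl1 a (E.t ω))))
    (hA : Stk.hc P (Apl E G π a) (E.Zh E.h) ≤ y)
    (hlab : Stk.hc P E.l (Apl E G π a) ≤
      Stk.hc P E.l (E.Zh E.h) + ((2 - (p.β - p.lam - p.k)) * r + CL * (b + 1)) * Real.log 2 + μ) :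
    (p.β - p.lam - p.k) * r * Real.log 2 ≤ x + y + CL * (b + 1) * Real.log 2 + μ := by
  have h1 : Stk.mi P (fun ω => ((fun i => E.X ω (k0.succAbove i)), fun i => E.Q ω (k0.succAbove i)))
      (Zhd (fun ω i => E.X ω (k0.succAbove i)) (fun ω i => E.Q ω (k0.succAbove i)) E.t E.h)
      (fun ω => (Apl E G π a ω, fl1 a (E.t ω))) ≤
      Stk.mi P E.l (E.Zh E.h) (fun ω => (Apl E G π a ω, fl1 a (E.t ω))) := by
    refine (Stk.mi_mono_left P _ ?_).trans (Stk.mi_mono_right P E.l ?_)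
    · intro ω ω' _ _ e
      have e1 : E.l ω = E.l ω' := congrArg Prod.fst e
      have eX : E.X ω = E.X ω' := by unfold Env.X; rw [e1]
      have eQ : E.Q ω = E.Q ω' := by unfold Env.Q; rw [e1]
      exact Prod.ext (funext fun i => congrFun eX _) (funext fun i => congrFun eQ _)
    · intro ω ω' h h' e
      have e1 : E.Zh E.h ω = E.Zh E.h ω' := congrArg Prod.fst e
      exact Fn_Zhd2 E P k0 ω ω' h h' e1
  have h2 : Stk.mi P E.l (E.Zh E.h) (fun ω => (Apl E G π a ω, fl1 a (E.t ω))) = Stk.mi P E.l (E.Zh E.h) (Apl E G π a) :=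
    Stk.mi_congr_cond P _ _ (fun ω ω' h h' e => Prod.ext e (Fn_Apl_t E P G π a ω ω' h h' e)) (fun _ _ _ _ e => congrArg Prod.fst e)
  have h3 : Stk.hc P E.l (E.Zh E.h) ≤ Stk.hc P E.l (fun ω => (E.Zh E.h ω, Apl E G π a ω)) + Stk.hc P (Apl E G π a) (E.Zh E.h) := by
    have := Stk.hc_le_add' P E.l (Apl E G π a) (E.Zh E.h)
    refine this.trans (add_le_add (le_of_eq ?_) le_rfl)
    refine Stk.hc_congr P (fun _ _ _ _ e => congrArg Prod.fst e) (fun _ _ _ _ e => congrArg Prod.fst e) ?_ ?_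
    · intro ω ω' _ _ e
      exact Prod.ext (congrArg Prod.snd e) (congrArg Prod.fst e)
    · intro ω ω' _ _ e
      exact Prod.ext (congrArg Prod.snd e) (congrArg Prod.fst e)
  have h4 : Stk.mi P E.l (E.Zh E.h) (Apl E G π a) =
      Stk.hc P E.l (Apl E G π a) - Stk.hc P E.l (fun ω => (E.Zh E.h ω, Apl E G π a ω)) := rfl
  rw [h2, h4] at h1
  nlinarith

/-- a constant as a power of two -/
theorem exists_pow2 (C : ℝ) : ∃ c : ℕ, C ≤ 2 ^ c := pow_unbounded_of_one_lt C (by norm_num) |>.imp fun _ h => h.le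

/-- **few values of the slope against the growth** -/
theorem few_ineq {p : Par} (hp : p.Ok) {CG : ℝ} (hgr : ∀ (p : Par), p.Ok → ∀ {Ω : Type} [Fintype Ω] (E : Env Ω)
    (P : Law Ω) (μ : ℝ) (b : ℕ), E.Supp P → E.Lab p P μ → b ≤ E.h →
    cgp p * b * Real.log 2 - μ - CG ≤ Stk.hc P (fun ω => fl b (E.l ω).s) (E.Zh E.h))
    {E : Env Ω} {P : Law Ω} (hS : E.Supp P) {κ : ℝ} (hL : E.Lab p P κ) {υ : Type*} {Y : Ω → υ} {x y : ℝ} {b : ℕ} (hb : b ≤ E.h)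
    (h1 : Stk.hc P (fun ω => fl b (E.l ω).s) (fun ω => (Y ω, E.Zh E.h ω)) ≤ x) (h2 : Stk.hc P Y (E.Zh E.h) ≤ y) :
    cgp p * b * Real.log 2 ≤ κ + CG + x + y := by
  have h3 := hgr p hp E P κ b hS hL hb
  have h4 := Stk.hc_le_add' P (fun ω => fl b (E.l ω).s) Y (E.Zh E.h)
  linarith

theorem half_sq (m : ℕ) : Real.sqrt ((1 / 2 : ℝ) ^ (2 * m)) = (1 / 2 : ℝ) ^ m := by
  rw [mul_comm, pow_mul, Real.sqrt_sq (by positivity)]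

theorem q_mul {c b m : ℕ} (h : m = b + c) {C : ℝ} (hC : C ≤ 2 ^ c) : C * (1 / 2 : ℝ) ^ m ≤ (1 / 2 : ℝ) ^ b := by
  rw [h, pow_add]
  have e : (2 : ℝ) ^ c * (1 / 2 : ℝ) ^ c = 1 := by rw [← mul_pow]; norm_num
  calc C * ((1 / 2 : ℝ) ^ b * (1 / 2 : ℝ) ^ c) ≤ 2 ^ c * ((1 / 2 : ℝ) ^ b * (1 / 2 : ℝ) ^ c) := by gcongr
    _ = (1 / 2 : ℝ) ^ b * (2 ^ c * (1 / 2 : ℝ) ^ c) := by ring
    _ = (1 / 2 : ℝ) ^ b := by rw [e, mul_one]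

/-- small covector, thin slab -/
theorem steep_ineq {p : Par} (hp : p.Ok) {CG C1 : ℝ} (hgr : ∀ (p : Par), p.Ok → ∀ {Ω : Type} [Fintype Ω] (E : Env Ω)
    (P : Law Ω) (μ : ℝ) (b : ℕ), E.Supp P → E.Lab p P μ → b ≤ E.h →
    cgp p * b * Real.log 2 - μ - CG ≤ Stk.hc P (fun ω => fl b (E.l ω).s) (E.Zh E.h))
    (hf : ∀ {Ω : Type} [Fintype Ω] {ζ : Type} (E : Env Ω) (P : Law Ω) (Y : Ω → ζ)
    (π : ζ → Fin 3 → ℝ) (o : ζ → ℝ) (ρ : ℝ) (b : ℕ), E.Supp P → Fn P (E.Zh E.h) Y → 0 ≤ ρ →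
    (∀ ω, 0 < P.w ω → (∀ k, |π (Y ω) k| ≤ 1) ∧ (∃ k, |π (Y ω) k| = 1) ∧ |π (Y ω) 2| ≤ ρ ∧
      |∑ k, π (Y ω) k * E.Q ω k - o (Y ω)| ≤ ρ) →
    C1 * Real.sqrt (ρ + (1 / 2 : ℝ) ^ E.h + (1 / 2 : ℝ) ^ E.q) ≤ (1 / 2 : ℝ) ^ b →
    Stk.hc P (fun ω => fl b (E.l ω).s) Y ≤ C1) (hC1 : 0 ≤ C1) {c : ℕ} (hc : 2 * C1 ≤ 2 ^ c)
    {E : Env Ω} {P : Law Ω} {a' s : ℕ} {G : Ω → ζ} {π : ζ → Fin 3 → ℝ} {o : ζ → ℝ} (hD : Dat E a' s G π o P)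
    {κ : ℝ} (hL : E.Lab p P κ) (hG : Stk.hc P G (E.Zh E.h) ≤ κ) {m b : ℕ} (hm : m = b + c) (hs : 2 * m ≤ s)
    (hh : 2 * m ≤ E.h) (hq : 2 * m ≤ E.q) (hev : ∀ ω, 0 < P.w ω → |π (G ω) 2| ≤ (1 / 2 : ℝ) ^ (2 * m)) :
    cgp p * b * Real.log 2 ≤ κ + CG + C1 + κ := by
  have hmono : ∀ {i j : ℕ}, i ≤ j → (1 / 2 : ℝ) ^ j ≤ (1 / 2 : ℝ) ^ i := fun h =>
    pow_le_pow_of_le_one (by norm_num) (by norm_num) h
  refine few_ineq hp hgr hD.S hL (Y := G) (by omega) ?_ hG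
  refine hf E P (fun ω => (G ω, E.Zh E.h ω)) (fun y => π y.1) (fun y => o y.1) ((1 / 2 : ℝ) ^ (2 * m)) b hD.S
    (fun _ _ _ _ e => congrArg Prod.snd e) (by positivity) (fun ω hω => ?_) ?_
  · obtain ⟨h1, h2, h3⟩ := hD.pl ω hω
    exact ⟨h1, h2, hev ω hω, h3.trans (hmono hs)⟩
  · have e1 : (1 / 2 : ℝ) ^ (2 * m) + (1 / 2 : ℝ) ^ E.h + (1 / 2 : ℝ) ^ E.q ≤ 2 ^ 2 * (1 / 2 : ℝ) ^ (2 * m) := by
      have a1 := hmono hh
      have a2 := hmono hq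
      have a3 : 0 ≤ (1 / 2 : ℝ) ^ (2 * m) := by positivity
      linarith
    have e2 : Real.sqrt ((1 / 2 : ℝ) ^ (2 * m) + (1 / 2 : ℝ) ^ E.h + (1 / 2 : ℝ) ^ E.q) ≤ 2 * (1 / 2 : ℝ) ^ m := by
      refine (Real.sqrt_le_sqrt e1).trans (le_of_eq ?_)
      rw [Real.sqrt_mul (by positivity), Real.sqrt_sq (by norm_num), half_sq]
    calc C1 * Real.sqrt ((1 / 2 : ℝ) ^ (2 * m) + (1 / 2 : ℝ) ^ E.h + (1 / 2 : ℝ) ^ E.q) ≤ C1 * (2 * (1 / 2 : ℝ) ^ m) := by gcongr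
      _ = 2 * C1 * (1 / 2 : ℝ) ^ m := by ring
      _ ≤ (1 / 2 : ℝ) ^ b := q_mul hm hc

/-- small covector, thick slab -/
theorem circ_ineq {p : Par} (hp : p.Ok) {CG C1 : ℝ} (hgr : ∀ (p : Par), p.Ok → ∀ {Ω : Type} [Fintype Ω] (E : Env Ω)
    (P : Law Ω) (μ : ℝ) (b : ℕ), E.Supp P → E.Lab p P μ → b ≤ E.h →
    cgp p * b * Real.log 2 - μ - CG ≤ Stk.hc P (fun ω => fl b (E.l ω).s) (E.Zh E.h))
    (hf : ∀ {Ω : Type} [Fintype Ω] {ζ : Type} (E : Env Ω) (P : Law Ω) (Y : Ω → ζ)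
    (π : ζ → Fin 3 → ℝ) (o : ζ → ℝ) (ρ : ℝ) (b : ℕ), E.Supp P → Fn P (E.Zh E.h) Y → 0 ≤ ρ →
    (∀ ω, 0 < P.w ω → (∀ k, |π (Y ω) k| ≤ 1) ∧ (∃ k, |π (Y ω) k| = 1) ∧ (∀ k, |cov E (π (Y ω)) (E.l ω) k| ≤ ρ) ∧
      |∑ k, π (Y ω) k * E.Q ω k - o (Y ω)| ≤ ρ ^ 2) →
    C1 * (ρ + Real.sqrt ((2 : ℝ) ^ E.q * (1 / 2 : ℝ) ^ E.h)) ≤ (1 / 2 : ℝ) ^ b →
    Stk.hc P (fun ω => fl b (E.l ω).s) Y ≤ C1) (hC1 : 0 ≤ C1) {c : ℕ} (hc : 2 * C1 ≤ 2 ^ c)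
    {E : Env Ω} {P : Law Ω} {a' s : ℕ} {G : Ω → ζ} {π : ζ → Fin 3 → ℝ} {o : ζ → ℝ} (hD : Dat E a' s G π o P)
    {κ : ℝ} (hL : E.Lab p P κ) (hG : Stk.hc P G (E.Zh E.h) ≤ κ) {m b : ℕ} (hm : m = b + c) (hs : 2 * m ≤ s)
    (hh : 2 * m + E.q ≤ E.h) (hev : ∀ ω, 0 < P.w ω → ∀ k, |cov E (π (G ω)) (E.l ω) k| ≤ (1 / 2 : ℝ) ^ m) :
    cgp p * b * Real.log 2 ≤ κ + CG + C1 + κ := by
  have hmono : ∀ {i j : ℕ}, i ≤ j → (1 / 2 : ℝ) ^ j ≤ (1 / 2 : ℝ) ^ i := fun h =>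
    pow_le_pow_of_le_one (by norm_num) (by norm_num) h
  refine few_ineq hp hgr hD.S hL (Y := G) (by omega) ?_ hG
  refine hf E P (fun ω => (G ω, E.Zh E.h ω)) (fun y => π y.1) (fun y => o y.1) ((1 / 2 : ℝ) ^ m) b hD.S
    (fun _ _ _ _ e => congrArg Prod.snd e) (by positivity) (fun ω hω => ?_) ?_
  · obtain ⟨h1, h2, h3⟩ := hD.pl ω hω
    refine ⟨h1, h2, hev ω hω, h3.trans ?_⟩
    rw [← pow_mul, mul_comm m 2]
    exact hmono hs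
  · have e1 : (2 : ℝ) ^ E.q * (1 / 2 : ℝ) ^ E.h ≤ (1 / 2 : ℝ) ^ (2 * m) := by
      calc (2 : ℝ) ^ E.q * (1 / 2 : ℝ) ^ E.h ≤ (2 : ℝ) ^ E.q * (1 / 2 : ℝ) ^ (2 * m + E.q) := by
            have := hmono hh
            gcongr
        _ = (1 / 2 : ℝ) ^ (2 * m) * (2 ^ E.q * (1 / 2 : ℝ) ^ E.q) := by rw [pow_add]; ring
        _ = (1 / 2 : ℝ) ^ (2 * m) := by rw [← mul_pow]; norm_num
    have e2 : Real.sqrt ((2 : ℝ) ^ E.q * (1 / 2 : ℝ) ^ E.h) ≤ (1 / 2 : ℝ) ^ m := by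
      refine (Real.sqrt_le_sqrt e1).trans (le_of_eq ?_)
      rw [half_sq]
    calc C1 * ((1 / 2 : ℝ) ^ m + Real.sqrt ((2 : ℝ) ^ E.q * (1 / 2 : ℝ) ^ E.h)) ≤ C1 * ((1 / 2 : ℝ) ^ m + (1 / 2 : ℝ) ^ m) := by
          gcongr
      _ = 2 * C1 * (1 / 2 : ℝ) ^ m := by ring
      _ ≤ (1 / 2 : ℝ) ^ b := q_mul hm hc

/-- **second plane against the growth** -/
theorem slab_ineq {p : Par} (hp : p.Ok) {CG C2 : ℝ} (hgr : ∀ (p : Par), p.Ok → ∀ {Ω : Type} [Fintype Ω] (E : Env Ω)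
    (P : Law Ω) (μ : ℝ) (b : ℕ), E.Supp P → E.Lab p P μ → b ≤ E.h →
    cgp p * b * Real.log 2 - μ - CG ≤ Stk.hc P (fun ω => fl b (E.l ω).s) (E.Zh E.h))
    (hf : ∀ {Ω : Type} [Fintype Ω] {ζ : Type} (E : Env Ω) (P : Law Ω) (Y : Ω → ζ)
    (π π' : ζ → Fin 3 → ℝ) (o o' : ζ → ℝ) (k0 : ζ → Fin 3) (ρ : ℝ) (b : ℕ), E.Supp P → Fn P (E.Zh E.h) Y → 0 ≤ ρ →
    (∀ ω, 0 < P.w ω → (∀ k, |π (Y ω) k| ≤ 1) ∧ (∀ k, |π' (Y ω) k| ≤ 1) ∧ |π (Y ω) (k0 (Y ω))| = 1 ∧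
      π' (Y ω) (k0 (Y ω)) = 0 ∧ (∃ k, 1 / 2 ≤ |π' (Y ω) k|) ∧
      |∑ k, π (Y ω) k * E.Q ω k - o (Y ω)| ≤ ρ ∧ |∑ k, π' (Y ω) k * E.Q ω k - o' (Y ω)| ≤ ρ) →
    C2 * Real.sqrt (ρ + (1 / 2 : ℝ) ^ E.h) ≤ (1 / 2 : ℝ) ^ b →
    Stk.hc P (fun ω => fl b (E.l ω).s) Y ≤ C2) (hC2 : 0 ≤ C2) {c : ℕ} (hc : 2 * C2 ≤ 2 ^ c)
    {E : Env Ω} {P : Law Ω} {a' s a : ℕ} {G : Ω → ζ} {π : ζ → Fin 3 → ℝ} {o : ζ → ℝ} (hD : Dat E a' s G π o P)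
    {κ : ℝ} (hL : E.Lab p P κ) {y x : ℝ} (hA : Stk.hc P (Apl E G π a) (E.Zh E.h) ≤ y) {k0 : Fin 3}
    (hk0 : ∀ ω, 0 < P.w ω → |π (G ω) k0| = 1)
    {w : Ω → Sta 2} {π' : Sta 2 → Fin 2 → ℝ} {o' : Sta 2 → ℝ} {s' : ℕ}
    (hw : Stk.hc P w (fun ω => (Zhd (fun ω i => E.X ω (k0.succAbove i)) (fun ω i => E.Q ω (k0.succAbove i)) E.t E.h ω,
      Apl E G π a ω)) ≤ x)
    (hπ' : ∀ ω, 0 < P.w ω → (∀ k, |π' (w ω) k| ≤ 1) ∧ (∃ k, |π' (w ω) k| = 1) ∧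
        |∑ k, π' (w ω) k * E.Q ω (k0.succAbove k) - o' (w ω)| ≤ (1 / 2 : ℝ) ^ s')
    {m b : ℕ} (hm : m = b + c) (hs' : 2 * m ≤ s') (hs : s' ≤ s) (hh : s' ≤ E.h) :
    cgp p * b * Real.log 2 ≤ κ + CG + C2 + (y + x) := by
  have hmono : ∀ {i j : ℕ}, i ≤ j → (1 / 2 : ℝ) ^ j ≤ (1 / 2 : ℝ) ^ i := fun h =>
    pow_le_pow_of_le_one (by norm_num) (by norm_num) h
  have hY : Stk.hc P (fun ω => (Apl E G π a ω, w ω)) (E.Zh E.h) ≤ y + x := by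
    rw [Stk.hc_pair]
    refine add_le_add hA ((Stk.hc_mono_right P w ?_).trans hw)
    intro ω ω' h h' e
    obtain ⟨e1, e2⟩ := Prod.mk.injEq _ _ _ _ ▸ e
    exact Prod.ext (Fn_Zhd2 E P k0 ω ω' h h' e2) e1
  refine few_ineq hp hgr hD.S hL (Y := fun ω => (Apl E G π a ω, w ω)) (by omega) ?_ hY
  refine hf E P (fun ω => ((Apl E G π a ω, w ω), E.Zh E.h ω)) (fun z => π z.1.1.1) (fun z => Fin.insertNth k0 0 (π' z.1.2))
    (fun z => o z.1.1.1) (fun z => o' z.1.2) (fun _ => k0) ((1 / 2 : ℝ) ^ (2 * m)) b hD.S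
    (fun _ _ _ _ e => congrArg Prod.snd e) (by positivity) (fun ω hω => ?_) ?_
  · obtain ⟨h1, h2, h3⟩ := hD.pl ω hω
    obtain ⟨g1, ⟨k1, g2⟩, g3⟩ := hπ' ω hω
    refine ⟨h1, ?_, hk0 ω hω, ?_, ⟨k0.succAbove k1, ?_⟩, h3.trans (hmono (hs'.trans hs)), ?_⟩
    · intro k
      show |Fin.insertNth (α := fun _ => ℝ) k0 0 (π' (w ω)) k| ≤ 1
      refine Fin.succAboveCases k0 ?_ ?_ k
      · rw [Fin.insertNth_apply_same]; norm_num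
      · intro i
        rw [Fin.insertNth_apply_succAbove]
        exact g1 i
    · show Fin.insertNth (α := fun _ => ℝ) k0 0 (π' (w ω)) k0 = 0
      rw [Fin.insertNth_apply_same]
    · show 1 / 2 ≤ |Fin.insertNth (α := fun _ => ℝ) k0 0 (π' (w ω)) (k0.succAbove k1)|
      rw [Fin.insertNth_apply_succAbove, g2]
      norm_num
    · show |∑ k, Fin.insertNth (α := fun _ => ℝ) k0 0 (π' (w ω)) k * E.Q ω k - o' (w ω)| ≤ _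
      rw [Fin.sum_univ_succAbove _ k0, Fin.insertNth_apply_same, zero_mul, zero_add]
      simp only [Fin.insertNth_apply_succAbove]
      exact g3.trans (hmono hs')
  · have e1 : (1 / 2 : ℝ) ^ (2 * m) + (1 / 2 : ℝ) ^ E.h ≤ 2 ^ 2 * (1 / 2 : ℝ) ^ (2 * m) := by
      have a1 := hmono (hs'.trans hh)
      have a3 : 0 ≤ (1 / 2 : ℝ) ^ (2 * m) := by positivity
      linarith
    have e2 : Real.sqrt ((1 / 2 : ℝ) ^ (2 * m) + (1 / 2 : ℝ) ^ E.h) ≤ 2 * (1 / 2 : ℝ) ^ m := by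
      refine (Real.sqrt_le_sqrt e1).trans (le_of_eq ?_)
      rw [Real.sqrt_mul (by positivity), Real.sqrt_sq (by norm_num), half_sq]
    calc C2 * Real.sqrt ((1 / 2 : ℝ) ^ (2 * m) + (1 / 2 : ℝ) ^ E.h) ≤ C2 * (2 * (1 / 2 : ℝ) ^ m) := by gcongr
      _ = 2 * C2 * (1 / 2 : ℝ) ^ m := by ring
      _ ≤ (1 / 2 : ℝ) ^ b := q_mul hm hc

theorem Gd.le {E : Env Ω} {P0 : Law Ω} {df : Law Ω → ℝ} {ν : ℝ} {G : Ω → ζ} {κ κ' : ℝ} {P : Law Ω}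
    (h : Gd E P0 df ν G κ P) (hk : κ ≤ κ') : Gd E P0 df ν G κ' P := ⟨h.dom, h.df.trans hk, h.ent.trans hk⟩

/-- an event which is impossible for the laws of small defect can be removed -/
theorem Gd.split {p : Par} {E : Env Ω} {P0 : Law Ω} {df : Law Ω → ℝ} {ν : ℝ} {G : Ω → ζ} {κ κ' ν' : ℝ} {P : Law Ω}
    (hp : 0 ≤ p.cN) (hA : E.Ax p P0 df ν) (h : Gd E P0 df ν G κ P) (S : Ω → Prop) (hν : ν ≤ ν')
    (hκ : (2 * κ + p.cN * Real.log 2 + ν') / (1 / 2) ≤ κ')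
    (hno : ∀ P' : Law Ω, Gd E P0 df ν G κ' P' → (∀ ω, 0 < P'.w ω → 0 < P.w ω) → (∀ ω, 0 < P'.w ω → S ω) → False) :
    ∃ P' : Law Ω, Gd E P0 df ν G κ' P' ∧ (∀ ω, 0 < P'.w ω → 0 < P.w ω) ∧ ∀ ω, 0 < P'.w ω → ¬ S ω := by
  classical
  have hH : Stk.hc P (fun ω => decide (S ω)) (fun _ => ()) ≤ Real.log 2 := by
    refine (hc_fin P _).trans (le_of_eq ?_)
    simp
  by_cases hpr : 1 / 2 ≤ prE P S
  · exfalso
    obtain ⟨z, z1, z2, z3⟩ := h.cond hp hA (fun ω => decide (S ω)) (fun z => z = true) (ρ := 1 / 2) (by norm_num)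
      (by simpa using hpr) hH hν
    refine hno _ (z3.le hκ) (fun ω hω => Vale.Agent.P127.U.JSB.cond_supp P _ z hω) (fun ω hω => ?_)
    have := Vale.Agent.P127.U.JSB.cond_supp' P _ z z2 hω
    rw [z1] at this
    simpa using this
  · have hpr' : 1 / 2 ≤ prE P (fun ω => ¬ S ω) := by
      rw [prE_not]
      push Not at hpr
      linarith
    obtain ⟨z, z1, z2, z3⟩ := h.cond hp hA (fun ω => decide (S ω)) (fun z => z = false) (ρ := 1 / 2) (by norm_num)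
      (by simpa using hpr') hH hν
    refine ⟨_, z3.le hκ, fun ω hω => Vale.Agent.P127.U.JSB.cond_supp P _ z hω, fun ω hω => ?_⟩
    have := Vale.Agent.P127.U.JSB.cond_supp' P _ z z2 hω
    rw [z1] at this
    simpa using this

/-- fixing the large coordinate of the covector -/
theorem Gd.coord {p : Par} {E : Env Ω} {P : Law Ω} {df : Law Ω → ℝ} {ν : ℝ} {G : Ω → ζ} {κ κ' ν' : ℝ}
    (hp : 0 ≤ p.cN) (hA : E.Ax p P df ν) (h : Gd E P df ν G κ P) {π : ζ → Fin 3 → ℝ}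
    (hπ : ∀ ω, 0 < P.w ω → ∃ k, |π (G ω) k| = 1) (hν : ν ≤ ν') (hκ : 2 * κ + p.cN * Real.log 3 + ν' ≤ κ') :
    ∃ (k0 : Fin 3) (P' : Law Ω), Gd E P df ν G κ' P' ∧ ∀ ω, 0 < P'.w ω → |π (G ω) k0| = 1 := by
  classical
  set kk : ζ → Fin 3 := fun g => if h : ∃ k, |π g k| = 1 then h.choose else 0 with hkk
  have hkk1 : ∀ ω, 0 < P.w ω → |π (G ω) (kk (G ω))| = 1 := by
    intro ω hω
    have h := hπ ω hω
    simp only [hkk]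
    rw [dif_pos h]
    exact h.choose_spec
  obtain ⟨k0, -, hk0p, g1⟩ := h.cond (p := p) hp hA (fun ω => kk (G ω)) (fun _ => True) (ρ := 1) (Hb := Real.log 3)
    (ν' := ν') one_pos (by
      have : prE P (fun _ => True) = 1 := by
        unfold prE
        simp [P.sum_one]
      rw [this]) (by
      refine (hc_fin P _).trans (le_of_eq ?_)
      simp) hν
  refine ⟨k0, _, g1.le (by rw [div_one]; exact hκ), fun ω hω => ?_⟩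
  have h1 := Vale.Agent.P127.U.JSB.cond_supp' P _ k0 hk0p hω
  have h2 := hkk1 ω (Vale.Agent.P127.U.JSB.cond_supp P _ k0 hω)
  rwa [h1] at h2

/-- the covector is long: thin slab -/
theorem step_thin {p : Par} (hp : p.Ok) {CG C1 : ℝ} (hgr : ∀ (p : Par), p.Ok → ∀ {Ω : Type} [Fintype Ω] (E : Env Ω)
    (P : Law Ω) (μ : ℝ) (b : ℕ), E.Supp P → E.Lab p P μ → b ≤ E.h →
    cgp p * b * Real.log 2 - μ - CG ≤ Stk.hc P (fun ω => fl b (E.l ω).s) (E.Zh E.h))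
    (hf : ∀ {Ω : Type} [Fintype Ω] {ζ : Type} (E : Env Ω) (P : Law Ω) (Y : Ω → ζ)
    (π : ζ → Fin 3 → ℝ) (o : ζ → ℝ) (ρ : ℝ) (b : ℕ), E.Supp P → Fn P (E.Zh E.h) Y → 0 ≤ ρ →
    (∀ ω, 0 < P.w ω → (∀ k, |π (Y ω) k| ≤ 1) ∧ (∃ k, |π (Y ω) k| = 1) ∧ |π (Y ω) 2| ≤ ρ ∧
      |∑ k, π (Y ω) k * E.Q ω k - o (Y ω)| ≤ ρ) →
    C1 * Real.sqrt (ρ + (1 / 2 : ℝ) ^ E.h + (1 / 2 : ℝ) ^ E.q) ≤ (1 / 2 : ℝ) ^ b →
    Stk.hc P (fun ω => fl b (E.l ω).s) Y ≤ C1) (hC1 : 0 ≤ C1) {c : ℕ} (hc : 2 * C1 ≤ 2 ^ c)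
    {E : Env Ω} {P P1 : Law Ω} {df : Law Ω → ℝ} {ν κ κ' ν' : ℝ} {a' s : ℕ} {G : Ω → ζ} {π : ζ → Fin 3 → ℝ} {o : ζ → ℝ}
    (hA : E.Ax p P df ν) (hD : Dat E a' s G π o P) (h : Gd E P df ν G κ P1) (hν : ν ≤ ν')
    (hκ : (2 * κ + p.cN * Real.log 2 + ν') / (1 / 2) ≤ κ') {m b : ℕ} (hm : m = b + c) (hs : 2 * m ≤ s)
    (hh : 2 * m ≤ E.h) (hq : 2 * m + 4 ≤ E.q) (hcon : ¬ (cgp p * b * Real.log 2 ≤ κ' + CG + C1 + κ')) :
    ∃ P2 : Law Ω, Gd E P df ν G κ' P2 ∧ (∀ ω, 0 < P2.w ω → 0 < P1.w ω) ∧ ∀ ω, 0 < P2.w ω →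
      (2 : ℝ) ^ E.q / 2 ^ (3 * m + 3) ≤ |cov E (π (G ω)) (E.l ω) 0| + |cov E (π (G ω)) (E.l ω) 1| := by
  obtain ⟨P2, h1, h2, h3⟩ := h.split hp.cN0 hA (fun ω => |π (G ω) 2| ≤ (1 / 2 : ℝ) ^ (2 * m)) hν hκ (by
    intro P' h1 h2 h3
    exact hcon (steep_ineq hp hgr hf hC1 hc (hD.mono h1.dom) (h1.lab hA) h1.ent hm hs hh (by omega) h3))
  refine ⟨P2, h1, h2, fun ω hω => ?_⟩
  have h4 := h3 ω hω
  push Not at h4
  have e : (2 : ℝ) ^ E.q / 2 ^ (2 * m) = (1 / 2 : ℝ) ^ (2 * m) * 2 ^ E.q := by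
    rw [one_div, inv_pow]
    field_simp
  have h5 := cov_ge (Supp_mono hD.S h1.dom) hω (hD.pl ω (h1.dom ω hω)).1
    (x := (2 : ℝ) ^ E.q / 2 ^ (2 * m)) (by
      rw [le_div_iff₀ (by positivity)]
      calc (16 : ℝ) * 2 ^ (2 * m) = 2 ^ (2 * m + 4) := by rw [pow_add]; norm_num; ring
        _ ≤ 2 ^ E.q := pow_le_pow_right₀ (by norm_num) hq) (by
      rw [e]
      exact mul_le_mul_of_nonneg_right h4.le (by positivity))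
  refine le_trans ?_ h5
  rw [div_div]
  refine div_le_div_of_nonneg_left (by positivity) (by positivity) ?_
  calc (2 : ℝ) ^ (2 * m) * 8 = 2 ^ (2 * m + 3) := by rw [pow_add]; norm_num
    _ ≤ 2 ^ (3 * m + 3) := pow_le_pow_right₀ (by norm_num) (by omega)

/-- the covector is long: thick slab -/
theorem step_thick {p : Par} (hp : p.Ok) {CG C1 : ℝ} (hgr : ∀ (p : Par), p.Ok → ∀ {Ω : Type} [Fintype Ω] (E : Env Ω)
    (P : Law Ω) (μ : ℝ) (b : ℕ), E.Supp P → E.Lab p P μ → b ≤ E.h →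
    cgp p * b * Real.log 2 - μ - CG ≤ Stk.hc P (fun ω => fl b (E.l ω).s) (E.Zh E.h))
    (hf : ∀ {Ω : Type} [Fintype Ω] {ζ : Type} (E : Env Ω) (P : Law Ω) (Y : Ω → ζ)
    (π : ζ → Fin 3 → ℝ) (o : ζ → ℝ) (ρ : ℝ) (b : ℕ), E.Supp P → Fn P (E.Zh E.h) Y → 0 ≤ ρ →
    (∀ ω, 0 < P.w ω → (∀ k, |π (Y ω) k| ≤ 1) ∧ (∃ k, |π (Y ω) k| = 1) ∧ (∀ k, |cov E (π (Y ω)) (E.l ω) k| ≤ ρ) ∧
      |∑ k, π (Y ω) k * E.Q ω k - o (Y ω)| ≤ ρ ^ 2) →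
    C1 * (ρ + Real.sqrt ((2 : ℝ) ^ E.q * (1 / 2 : ℝ) ^ E.h)) ≤ (1 / 2 : ℝ) ^ b →
    Stk.hc P (fun ω => fl b (E.l ω).s) Y ≤ C1) (hC1 : 0 ≤ C1) {c : ℕ} (hc : 2 * C1 ≤ 2 ^ c)
    {E : Env Ω} {P P1 : Law Ω} {df : Law Ω → ℝ} {ν κ κ' ν' : ℝ} {a' s : ℕ} {G : Ω → ζ} {π : ζ → Fin 3 → ℝ} {o : ζ → ℝ}
    (hA : E.Ax p P df ν) (hD : Dat E a' s G π o P) (h : Gd E P df ν G κ P1) (hν : ν ≤ ν')
    (hκ : (2 * κ + p.cN * Real.log 2 + ν') / (1 / 2) ≤ κ') {m b : ℕ} (hm : m = b + c) (hs : 2 * m ≤ s)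
    (hh : 4 * m + 3 ≤ E.h) (hq : E.q < 2 * m + 4) (hcon : ¬ (cgp p * b * Real.log 2 ≤ κ' + CG + C1 + κ')) :
    ∃ P2 : Law Ω, Gd E P df ν G κ' P2 ∧ (∀ ω, 0 < P2.w ω → 0 < P1.w ω) ∧ ∀ ω, 0 < P2.w ω →
      (2 : ℝ) ^ E.q / 2 ^ (3 * m + 3) ≤ |cov E (π (G ω)) (E.l ω) 0| + |cov E (π (G ω)) (E.l ω) 1| := by
  obtain ⟨P2, h1, h2, h3⟩ := h.split hp.cN0 hA (fun ω => ∀ k, |cov E (π (G ω)) (E.l ω) k| ≤ (1 / 2 : ℝ) ^ m) hν hκ (by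
    intro P' h1 h2 h3
    exact hcon (circ_ineq hp hgr hf hC1 hc (hD.mono h1.dom) (h1.lab hA) h1.ent hm hs (by omega) h3))
  refine ⟨P2, h1, h2, fun ω hω => ?_⟩
  have h4 := h3 ω hω
  push Not at h4
  obtain ⟨k, h4⟩ := h4
  have h5 : |cov E (π (G ω)) (E.l ω) k| ≤ |cov E (π (G ω)) (E.l ω) 0| + |cov E (π (G ω)) (E.l ω) 1| := by
    have b0 := abs_nonneg (cov E (π (G ω)) (E.l ω) 0)
    have b1 := abs_nonneg (cov E (π (G ω)) (E.l ω) 1)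
    fin_cases k
    · exact le_add_of_nonneg_right b1
    · exact le_add_of_nonneg_left b0
  refine le_trans ?_ (h4.le.trans h5)
  have e : (1 / 2 : ℝ) ^ m = 2 ^ (2 * m + 3) / 2 ^ (3 * m + 3) := by
    rw [one_div, inv_pow, eq_div_iff (by positivity), inv_mul_eq_iff_eq_mul₀ (by positivity), ← pow_add]
    congr 1
    ring
  rw [e]
  refine div_le_div_of_nonneg_right ?_ (by positivity)
  exact pow_le_pow_right₀ (by norm_num) (by omega)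

theorem ev {a b : ℝ} (ha : 0 < a) : ∃ h0 : ℕ, ∀ h : ℕ, h0 ≤ h → b ≤ a * h := by
  refine ⟨⌈b / a⌉₊, fun h hh => ?_⟩
  have h1 : b / a ≤ h := (Nat.le_ceil _).trans (by exact_mod_cast hh)
  rw [div_le_iff₀ ha] at h1
  linarith

end

/-! ### numbers -/

theorem num_ev {cg c0 H m c η CG C1 L : ℝ} (hcg : 0 < cg) (hL : 69 / 100 < L) (h1 : c0 * H < m + 1)
    (h2 : 200 * η * H ≤ cg * c0 * H) (h3 : CG + C1 + cg * (3 + c) ≤ cg * c0 / 8 * H) (hc : c ≤ m) (hc0 : 0 ≤ c)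
    (hG : 0 ≤ CG) (hC : 0 ≤ C1) : ¬ (cg * (m - c) * L ≤ 23 * (η * H) + CG + C1 + 23 * (η * H)) := by
  intro h
  have a0 : 0 ≤ m - c := by linarith
  have a1 : cg * (m - c) * (69 / 100) ≤ cg * (m - c) * L := mul_le_mul_of_nonneg_left hL.le (by positivity)
  have a2 : cg * (c0 * H - 1 - c) ≤ cg * (m - c) := mul_le_mul_of_nonneg_left (by linarith) hcg.le
  have a3 : 0 ≤ cg * c := by positivity
  linarith

theorem num_slab {cg σ H m c η CG C1 L s : ℝ} (hcg : 0 < cg) (hL : 69 / 100 < L) (h1 : σ * H ≤ s) (h1' : s ≤ 2 * m + 1)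
    (h2 : 1000 * η * H ≤ cg * σ * H) (h3 : CG + C1 + 36 + cg * (3 + c) ≤ cg * σ / 20 * H) (hc : c ≤ m) (hc0 : 0 ≤ c)
    (hG : 0 ≤ CG) (hC : 0 ≤ C1) : ¬ (cg * (m - c) * L ≤ 23 * (η * H) + CG + C1 + (23 * (η * H) + 36 + cg * σ / 10 * H)) := by
  intro h
  have a0 : 0 ≤ m - c := by linarith
  have a1 : cg * (m - c) * (69 / 100) ≤ cg * (m - c) * L := mul_le_mul_of_nonneg_left hL.le (by positivity)
  have a2 : cg * (σ * H / 2 - 1 - c) ≤ cg * (m - c) := mul_le_mul_of_nonneg_left (by linarith) hcg.le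
  have a3 : 0 ≤ cg * c := by positivity
  linarith

theorem num_sat {γ ρ H r m η CL L x y μ c0 : ℝ} (hγ : 0 < γ) (hL : 69 / 100 < L) (hL1 : L ≤ 1) (hr : ρ * H < r + 1) (hr0 : 0 ≤ r)
    (h2 : 100 ≤ ρ * H) (hCL : 1 ≤ CL) (hm0 : 0 ≤ m) (hm : m ≤ c0 * H) (hc : c0 * (100 * CL) * H ≤ γ * ρ * H)
    (h5 : 4 * CL ≤ γ * ρ / 50 * H) (hx : x ≤ γ * ρ / 20 * H) (hy : y ≤ γ * ρ / 20 * H)
    (hμ : μ ≤ γ * ρ / 20 * H + η * H) (h6 : 20 * η * H ≤ γ * ρ * H) : ¬ (γ * r * L ≤ x + y + CL * (3 * m + 4) * L + μ) := by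
  intro h
  have a1 : CL * (3 * m + 4) * L ≤ CL * (3 * m + 4) * 1 := mul_le_mul_of_nonneg_left hL1 (by positivity)
  have a2 : CL * (3 * m) ≤ CL * (3 * (c0 * H)) := by gcongr
  have a3 : γ * (ρ * H - 1) ≤ γ * r := mul_le_mul_of_nonneg_left (by linarith) hγ.le
  have a4 : γ * r * (69 / 100) ≤ γ * r * L := mul_le_mul_of_nonneg_left hL.le (by positivity)
  have a6 : γ * 100 ≤ γ * (ρ * H) := mul_le_mul_of_nonneg_left h2 hγ.le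
  nlinarith

/-! ### the two alternatives -/

section alt

variable {Ω : Type} [Fintype Ω] {ζ : Type}

/-- the conclusion of the dichotomy for the coordinates `≠ k0` with the side variable `Apl` -/
def Alt (E : Env Ω) (G : Ω → ζ) (π : ζ → Fin 3 → ℝ) (df : Law Ω → ℝ) (P2 : Law Ω) (k0 : Fin 3) (a : ℕ) (τ σ ρ κ : ℝ) : Prop :=
  (∃ P' : Law Ω, (∀ ω, 0 < P'.w ω → 0 < P2.w ω) ∧ df P' ≤ τ * E.h ∧
      Stk.hc P' (Apl E G π a) (E.Zh E.h) ≤ Stk.hc P2 (Apl E G π a) (E.Zh E.h) / κ ∧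
      2 * ((E.h : ℝ) - a) * Real.log 2 - τ * E.h ≤
        Stk.mi P' (fun ω => ((fun i => E.X ω (k0.succAbove i)), fun i => E.Q ω (k0.succAbove i)))
          (Zhd (fun ω i => E.X ω (k0.succAbove i)) (fun ω i => E.Q ω (k0.succAbove i)) E.t E.h)
          (fun ω => (Apl E G π a ω, fl1 a (E.t ω)))) ∨
    (∃ (w : Ω → Sta 2) (π' : Sta 2 → Fin 2 → ℝ) (o' : Sta 2 → ℝ) (s' : ℕ), σ * E.h ≤ s' ∧ s' ≤ τ * E.h ∧
      Stk.hc P2 w (fun ω => (Zhd (fun ω i => E.X ω (k0.succAbove i)) (fun ω i => E.Q ω (k0.succAbove i)) E.t E.h ω,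
        Apl E G π a ω)) ≤ ρ * E.h ∧
      ∀ ω, 0 < P2.w ω → (∀ k, |π' (w ω) k| ≤ 1) ∧ (∃ k, |π' (w ω) k| = 1) ∧
        |∑ k, π' (w ω) k * E.Q ω (k0.succAbove k) - o' (w ω)| ≤ (1 / 2 : ℝ) ^ s')

/-- the dichotomy gives `Alt` -/
theorem alt_of {cN ct c1 τ σ ρ κ η Ka ν : ℝ} {h0 : ℕ} (hD : ∀ {Ω : Type} [Fintype Ω] {α ξ : Type} (P0 P : Law Ω) (X Q : Ω → Fin 2 → ℝ)
    (t : Ω → ℝ) (A : Ω → α) (l : Ω → ξ) (df Ψ : Law Ω → ℝ) (ν : ℝ) (H a0 h : ℕ),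
    (∀ ω, 0 < P.w ω → 0 < P0.w ω) → DhOk P X Q t A l a0 → DfOk P0 l t H cN ct c1 Ka ν df → PsOk P0 Ψ →
    h0 ≤ H → τ * H ≤ a0 → a0 ≤ h → h ≤ H → df P ≤ η * H → ν ≤ η * H →
    (∃ P' : Law Ω, (∀ ω, 0 < P'.w ω → 0 < P.w ω) ∧ df P' ≤ τ * H ∧ Ψ P' ≤ Ψ P / κ ∧
      ((2 : ℕ) : ℝ) * ((h : ℝ) - a0) * Real.log 2 - τ * H ≤
        Stk.mi P' (fun ω => (X ω, Q ω)) (Zhd X Q t h) (fun ω => (A ω, fl1 a0 (t ω)))) ∨
    (∃ (G : Ω → Sta 2) (π : Sta 2 → Fin 2 → ℝ) (o : Sta 2 → ℝ) (s : ℕ), σ * H ≤ s ∧ s ≤ τ * H ∧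
      Stk.Fn P G (fun ω => ((Zhd X Q t h ω, A ω), Q ω)) ∧
      Stk.hc P G (fun ω => (Zhd X Q t h ω, A ω)) ≤ ρ * H ∧ Stk.hc P G Q ≤ τ * H ∧
      ∀ ω, 0 < P.w ω → (∀ k, |π (G ω) k| ≤ 1) ∧ (∃ k, |π (G ω) k| = 1) ∧
        |∑ k, π (G ω) k * Q ω k - o (G ω)| ≤ (1 / 2 : ℝ) ^ s))
    {p : Par} {E : Env Ω} {P P2 : Law Ω} {df : Law Ω → ℝ} {a' s a : ℕ} {G : Ω → ζ} {π : ζ → Fin 3 → ℝ} {o : ζ → ℝ}
    (hA : E.Ax p P df ν) (hcN : p.cN = cN) (hct : p.ct = ct) (hc1 : p.c1 = c1) (hKa : p.Ka = Ka)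
    (hDat : Dat E a' s G π o P) (hd : ∀ ω, 0 < P2.w ω → 0 < P.w ω) (k0 : Fin 3) (ha' : a' ≤ a) (ha : a ≤ E.h) (hh : h0 ≤ E.h)
    (hτ : τ * E.h ≤ a) (hdf : df P2 ≤ η * E.h) (hν : ν ≤ η * E.h) : Alt E G π df P2 k0 a τ σ ρ κ := by
  subst hcN hct hc1 hKa
  have hDf : DfOk P E.l E.t E.h p.cN p.ct p.c1 p.Ka ν df :=
    ⟨fun P' h ε e => hA.mix P' h ε e, fun P' h => hA.low P' h, fun P' h m a0 n h1 h2 => hA.act P' h m a0 n h1 h2⟩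
  have hPs : PsOk P (fun P' => Stk.hc P' (Apl E G π a) (E.Zh E.h)) :=
    ⟨fun P' _ => Stk.hc_nonneg P' _ _, fun P' _ ε e => by
      rw [← Vale.Agent.P127.U.JSB.hc_cond_sum]
      exact Stk.hc_mono_right P' _ fun ω ω' _ _ hh => congrArg Prod.fst hh⟩
  have hDh : DhOk P2 (fun ω i => E.X ω (k0.succAbove i)) (fun ω i => E.Q ω (k0.succAbove i)) E.t (Apl E G π a) E.l a :=
    ⟨fun ω hω k => Q_le hDat.S (hd ω hω) _, fun ω hω => (hDat.S.ok ω (hd ω hω)).2.1, fun ω hω => (hDat.S.ok ω (hd ω hω)).2.2,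
      fun ω ω' _ _ e => by
        have eX : E.X ω = E.X ω' := by unfold Env.X; rw [e]
        have eQ : E.Q ω = E.Q ω' := by unfold Env.Q; rw [e]
        exact Prod.ext (funext fun i => congrFun eX _) (funext fun i => congrFun eQ _),
      Fn_Apl E P2 G π ha' (Fn_mono hDat.fn hd)⟩
  rcases hD P P2 (fun ω i => E.X ω (k0.succAbove i)) (fun ω i => E.Q ω (k0.succAbove i)) E.t (Apl E G π a) E.l df
    (fun P' => Stk.hc P' (Apl E G π a) (E.Zh E.h)) ν E.h a E.h hd hDh hDf hPs hh hτ ha le_rfl hdf hν with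
    ⟨P3, f1, f2, f3, f4⟩ | ⟨w, π', o', s', f1, f2, -, f4, -, f6⟩
  · exact Or.inl ⟨P3, f1, f2, f3, by simpa using f4⟩
  · exact Or.inr ⟨w, π', o', s', f1, f2, f4, f6⟩

end alt

/-! ### the composition -/

section fin

variable {Ω : Type} [Fintype Ω] {ζ : Type}

/-- the end of the proof: both alternatives are impossible -/
theorem c1_end {p : Par} (hp : p.Ok) {CG C2 CL : ℝ} (hCG : 0 ≤ CG) (hgr : ∀ (p : Par), p.Ok → ∀ {Ω : Type} [Fintype Ω] (E : Env Ω)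
    (P : Law Ω) (μ : ℝ) (b : ℕ), E.Supp P → E.Lab p P μ → b ≤ E.h →
    cgp p * b * Real.log 2 - μ - CG ≤ Stk.hc P (fun ω => fl b (E.l ω).s) (E.Zh E.h))
    (hf : ∀ {Ω : Type} [Fintype Ω] {ζ : Type} (E : Env Ω) (P : Law Ω) (Y : Ω → ζ)
    (π π' : ζ → Fin 3 → ℝ) (o o' : ζ → ℝ) (k0 : ζ → Fin 3) (ρ : ℝ) (b : ℕ), E.Supp P → Fn P (E.Zh E.h) Y → 0 ≤ ρ →
    (∀ ω, 0 < P.w ω → (∀ k, |π (Y ω) k| ≤ 1) ∧ (∀ k, |π' (Y ω) k| ≤ 1) ∧ |π (Y ω) (k0 (Y ω))| = 1 ∧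
      π' (Y ω) (k0 (Y ω)) = 0 ∧ (∃ k, 1 / 2 ≤ |π' (Y ω) k|) ∧
      |∑ k, π (Y ω) k * E.Q ω k - o (Y ω)| ≤ ρ ∧ |∑ k, π' (Y ω) k * E.Q ω k - o' (Y ω)| ≤ ρ) →
    C2 * Real.sqrt (ρ + (1 / 2 : ℝ) ^ E.h) ≤ (1 / 2 : ℝ) ^ b →
    Stk.hc P (fun ω => fl b (E.l ω).s) Y ≤ C2) (hC2 : 0 ≤ C2) {c : ℕ} (hc : 2 * C2 ≤ 2 ^ c)
    (hLab : ∀ (p : Par), p.Ok → ∀ {Ω : Type} [Fintype Ω] {ζ : Type} (E : Env Ω) (P : Law Ω) (μ : ℝ)
    (r b s : ℕ) (G : Ω → ζ) (π : ζ → Fin 3 → ℝ) (o : ζ → ℝ), E.Supp P → E.Lab p P μ → 2 * b + CL ≤ r → r ≤ E.h → r ≤ s →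
    (∀ ω, 0 < P.w ω → (∀ k, |π (G ω) k| ≤ 1) ∧ (∃ k, |π (G ω) k| = 1) ∧
      |∑ k, π (G ω) k * E.Q ω k - o (G ω)| ≤ (1 / 2 : ℝ) ^ s ∧
      (2 : ℝ) ^ E.q / 2 ^ b ≤ |cov E (π (G ω)) (E.l ω) 0| + |cov E (π (G ω)) (E.l ω) 1|) →
    Stk.hc P E.l (Apl E G π (E.h - r)) ≤
      Stk.hc P E.l (E.Zh E.h) + ((2 - (p.β - p.lam - p.k)) * r + CL * (b + 1)) * Real.log 2 + μ)
    {E : Env Ω} {P P2 : Law Ω} {df : Law Ω → ℝ} {ν : ℝ} {a' s r m0 : ℕ} {G : Ω → ζ} {π : ζ → Fin 3 → ℝ} {o : ζ → ℝ}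
    (hA : E.Ax p P df ν) (hD : Dat E a' s G π o P) {k0 : Fin 3}
    {γ ρ1 c0 τD σD ρD κD η CL' : ℝ} (hγ : p.β - p.lam - p.k = γ) (hγ0 : 0 < γ)
    (g2 : Gd E P df ν G (23 * (η * E.h)) P2) (hk0 : ∀ ω, 0 < P2.w ω → |π (G ω) k0| = 1)
    (hcov : ∀ ω, 0 < P2.w ω → (2 : ℝ) ^ E.q / 2 ^ (3 * m0 + 3) ≤ |cov E (π (G ω)) (E.l ω) 0| + |cov E (π (G ω)) (E.l ω) 1|)
    (hν : ν ≤ η * E.h) (hCL : CL ≤ CL') (hCL' : 1 ≤ CL') (hκD : 0 < κD) (hr1 : r ≤ E.h) (hr2 : r ≤ s)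
    (hr3 : 6 * (m0 : ℝ) + 6 + CL' ≤ r) (hr4 : ρ1 * E.h < r + 1) (hm0 : (m0 : ℝ) ≤ c0 * E.h)
    (n1 : 100 ≤ ρ1 * E.h) (n2 : c0 * (100 * CL') * E.h ≤ γ * ρ1 * E.h) (n3 : 4 * CL' ≤ γ * ρ1 / 50 * E.h)
    (n4 : τD * E.h ≤ γ * ρ1 / 20 * E.h) (n5 : τD * E.h ≤ s) (n6 : τD * E.h ≤ E.h) (n7 : 20 * η * E.h ≤ γ * ρ1 * E.h)
    (n8 : 36 ≤ η * E.h) (n9 : 480 * η * E.h ≤ κD * γ * ρ1 * E.h) (n10 : 1000 * η * E.h ≤ cgp p * σD * E.h)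
    (n11 : CG + C2 + 36 + cgp p * (3 + c) ≤ cgp p * σD / 20 * E.h) (n12 : 2 * c + 4 ≤ σD * E.h) (hρD : ρD = cgp p * σD / 10)
    (halt : Alt E G π df P2 k0 (E.h - r) τD σD ρD κD) : False := by
  have hl2 : (69 / 100 : ℝ) < Real.log 2 := by have := Real.log_two_gt_d9; linarith
  have hl2' : Real.log 2 ≤ 1 := by have := Real.log_two_lt_d9; linarith
  have hDat2 : Dat E a' s G π o P2 := hD.mono g2.dom
  have har : ((E.h - r : ℕ) : ℝ) = E.h - r := by rw [Nat.cast_sub hr1]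
  have hAz : Stk.hc P2 (Apl E G π (E.h - r)) (E.Zh E.h) ≤ 23 * (η * E.h) + 36 := by
    have h1 := hc_Apl E P2 (fun ω hω k => Q_le hDat2.S hω k) G π o (a := E.h - r) (s := s) (by omega) (by omega) fun ω hω =>
      ⟨(hDat2.pl ω hω).1, (hDat2.pl ω hω).2.2⟩
    have h2 := g2.ent
    linarith
  rcases halt with ⟨P3, f1, f2, f3, f4⟩ | ⟨w, π', o', s', f1, f2, f4, f6⟩
  · have hd3 : ∀ ω, 0 < P3.w ω → 0 < P.w ω := fun ω hω => g2.dom ω (f1 ω hω)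
    have hsat : 2 * (r : ℝ) * Real.log 2 - τD * E.h ≤ Stk.mi P3
        (fun ω => ((fun i => E.X ω (k0.succAbove i)), fun i => E.Q ω (k0.succAbove i)))
        (Zhd (fun ω i => E.X ω (k0.succAbove i)) (fun ω i => E.Q ω (k0.succAbove i)) E.t E.h)
        (fun ω => (Apl E G π (E.h - r) ω, fl1 (E.h - r) (E.t ω))) := by
      refine le_trans (le_of_eq ?_) f4
      rw [har]
      ring
    have hlab := hLab p hp E P3 (df P3 + ν) r (3 * m0 + 3) s G π o (Supp_mono hD.S hd3) (hA.lab P3 hd3) (by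
        push_cast
        linarith) hr1 hr2 (fun ω hω => ⟨(hD.pl ω (hd3 ω hω)).1, (hD.pl ω (hd3 ω hω)).2.1, (hD.pl ω (hd3 ω hω)).2.2,
          hcov ω (f1 ω hω)⟩)
    have h5 := sat_ineq (p := p) (k0 := k0) (π := π) (G := G) (a := E.h - r) (x := τD * E.h)
      (y := Stk.hc P3 (Apl E G π (E.h - r)) (E.Zh E.h)) hsat le_rfl hlab
    have h6 : Stk.hc P3 (Apl E G π (E.h - r)) (E.Zh E.h) ≤ γ * ρ1 / 20 * E.h := by
      refine f3.trans ?_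
      rw [div_le_iff₀ hκD]
      refine hAz.trans ?_
      linarith
    rw [hγ] at h5
    refine num_sat (γ := γ) (ρ := ρ1) (H := E.h) (r := r) (m := m0) (η := η) (CL := CL') (L := Real.log 2) (x := τD * E.h)
      (y := Stk.hc P3 (Apl E G π (E.h - r)) (E.Zh E.h)) (μ := df P3 + ν) (c0 := c0) hγ0 hl2 hl2' hr4 (Nat.cast_nonneg _) n1 hCL'
      (Nat.cast_nonneg _) hm0 n2 n3 n4 h6 (by linarith) n7 ?_
    refine h5.trans ?_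
    have b1 : CL * (((3 * m0 + 3 : ℕ) : ℝ) + 1) * Real.log 2 ≤ CL' * (3 * m0 + 4) * Real.log 2 := by
      have e : CL' * (3 * (m0 : ℝ) + 4) = CL' * (((3 * m0 + 3 : ℕ) : ℝ) + 1) := by push_cast; ring
      rw [e]
      refine mul_le_mul_of_nonneg_right (mul_le_mul_of_nonneg_right hCL (by positivity)) (by linarith)
    linarith
  · have hs'1 : (s' : ℝ) ≤ 2 * ((s' / 2 : ℕ) : ℝ) + 1 := by
      have : s' ≤ 2 * (s' / 2) + 1 := by omega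
      exact_mod_cast this
    have hcm : c ≤ s' / 2 := by
      have h1 : (2 * c + 4 : ℝ) ≤ s' := n12.trans f1
      have h2 : 2 * c + 4 ≤ s' := by exact_mod_cast h1
      omega
    have h1 := slab_ineq hp hgr hf hC2 hc hDat2 (g2.lab hA) hAz hk0
      f4 f6 (m := s' / 2) (b := s' / 2 - c) (by omega) (by omega) (by
        have : (s' : ℝ) ≤ s := f2.trans n5
        exact_mod_cast this) (by
        have : (s' : ℝ) ≤ E.h := f2.trans n6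
        exact_mod_cast this)
    rw [Nat.cast_sub hcm] at h1
    refine num_slab (cg := cgp p) (σ := σD) (H := E.h) (m := ((s' / 2 : ℕ) : ℝ)) (c := c) (η := η) (CG := CG) (C1 := C2)
      (L := Real.log 2) (s := s') (cgp_pos hp) hl2 f1 hs'1 n10 n11 (by exact_mod_cast hcm) (Nat.cast_nonneg _) hCG hC2 ?_
    refine h1.trans (le_of_eq ?_)
    rw [hρD]

end fin

/-- **`PC1` from its blocks** -/
theorem pc1_of (hD : PDich 2) (hF1 : PFew1) (hF2 : PFew2) (hFI : PFewI) (hE2 : PE2) (hGr : PGrowE) (hLab : PLabC1) : PC1 := by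
  obtain ⟨CG, hCG, hgr⟩ := grow_any hE2 hGr
  obtain ⟨C1, hC1, hF1⟩ := hF1
  obtain ⟨C2, hC2, hF2⟩ := hF2
  obtain ⟨CI, hCI, hFI⟩ := hFI
  obtain ⟨CL, hLab⟩ := hLab
  intro p σ τ hp hσ hτ
  -- the constants
  have hl2' : Real.log 2 ≤ 1 := by have := Real.log_two_lt_d9; linarith
  have hl2 : (69 / 100 : ℝ) < Real.log 2 := by have := Real.log_two_gt_d9; linarith
  have hl3 : Real.log 3 ≤ 2 := (Real.log_le_sub_one_of_pos (by norm_num)).trans (by norm_num)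
  obtain ⟨c, hc⟩ := exists_pow2 (2 * (C1 + C2 + CI))
  obtain ⟨γ, hγd⟩ : ∃ γ, p.β - p.lam - p.k = γ := ⟨_, rfl⟩
  have hγ : 0 < γ := by
    have h1 := hp.lamβ
    have h2 := hp.k2
    have h3 := hp.k0
    linarith
  have hcg := cgp_pos hp
  obtain ⟨cg, hcgd⟩ : ∃ cg, cgp p = cg := ⟨_, rfl⟩
  rw [hcgd] at hcg
  obtain ⟨ρ1, hρ1, hρσ, hρτ, hρ4⟩ : ∃ ρ1 : ℝ, 0 < ρ1 ∧ 2 * ρ1 ≤ σ ∧ 2 * ρ1 ≤ τ ∧ ρ1 ≤ 1 / 4 := by
    refine ⟨min (min σ τ) (1 / 2) / 2, ?_, ?_, ?_, ?_⟩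
    · have : 0 < min (min σ τ) (1 / 2) := lt_min (lt_min hσ hτ) (by norm_num)
      linarith
    · have := (min_le_left (min σ τ) (1 / 2)).trans (min_le_left σ τ)
      linarith
    · have := (min_le_left (min σ τ) (1 / 2)).trans (min_le_right σ τ)
      linarith
    · have := min_le_right (min σ τ) (1 / 2)
      linarith
  obtain ⟨CL', hCL0, hCL1⟩ : ∃ CL' : ℝ, 1 ≤ CL' ∧ CL ≤ CL' := ⟨max 1 CL, le_max_left _ _, le_max_right _ _⟩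
  obtain ⟨c0, hc0, hc01, hc02⟩ : ∃ c0 : ℝ, 0 < c0 ∧ c0 ≤ ρ1 / 16 ∧ c0 * (100 * CL') ≤ γ * ρ1 := by
    refine ⟨min (ρ1 / 16) (γ * ρ1 / (100 * CL')), lt_min (by positivity) (by positivity), min_le_left _ _, ?_⟩
    have : min (ρ1 / 16) (γ * ρ1 / (100 * CL')) ≤ γ * ρ1 / (100 * CL') := min_le_right _ _
    rwa [le_div_iff₀ (by positivity)] at this
  obtain ⟨τD, hτD, hτD1, hτD2, hτD3⟩ : ∃ τD : ℝ, 0 < τD ∧ τD ≤ γ * ρ1 / 20 ∧ τD ≤ σ ∧ τD ≤ 1 / 2 :=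
    ⟨min (min (γ * ρ1 / 20) σ) (1 / 2), lt_min (lt_min (by positivity) hσ) (by norm_num),
      (min_le_left _ _).trans (min_le_left _ _), (min_le_left _ _).trans (min_le_right _ _), min_le_right _ _⟩
  obtain ⟨σD, hσD, hD⟩ := hD p.cN p.ct p.c1 τD hp.cN0 hp.ct0 hp.c10 hτD
  obtain ⟨κD, hκD, ηD, hηD, hD⟩ := hD (cg * σD / 10) (by positivity)
  obtain ⟨η, hη, hη1, hη2, hη3, hη4, hη5⟩ : ∃ η : ℝ, 0 < η ∧ 24 * η ≤ ηD ∧ 480 * η ≤ κD * γ * ρ1 ∧ 1000 * η ≤ cg * σD ∧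
      200 * η ≤ cg * c0 ∧ 20 * η ≤ γ * ρ1 := by
    refine ⟨min (min (ηD / 24) (κD * γ * ρ1 / 480)) (min (min (cg * σD / 1000) (cg * c0 / 200)) (γ * ρ1 / 20)),
      lt_min (lt_min (by positivity) (by positivity)) (lt_min (lt_min (by positivity) (by positivity)) (by positivity)),
      ?_, ?_, ?_, ?_, ?_⟩
    · have := (min_le_left (min (ηD / 24) (κD * γ * ρ1 / 480)) (min (min (cg * σD / 1000) (cg * c0 / 200)) (γ * ρ1 / 20))).trans (min_le_left _ _)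
      linarith
    · have := (min_le_left (min (ηD / 24) (κD * γ * ρ1 / 480)) (min (min (cg * σD / 1000) (cg * c0 / 200)) (γ * ρ1 / 20))).trans (min_le_right _ _)
      linarith
    · have := (min_le_right (min (ηD / 24) (κD * γ * ρ1 / 480)) (min (min (cg * σD / 1000) (cg * c0 / 200)) (γ * ρ1 / 20))).trans ((min_le_left _ _).trans (min_le_left _ _))
      linarith
    · have := (min_le_right (min (ηD / 24) (κD * γ * ρ1 / 480)) (min (min (cg * σD / 1000) (cg * c0 / 200)) (γ * ρ1 / 20))).trans ((min_le_left _ _).trans (min_le_right _ _))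
      linarith
    · have := (min_le_right (min (ηD / 24) (κD * γ * ρ1 / 480)) (min (min (cg * σD / 1000) (cg * c0 / 200)) (γ * ρ1 / 20))).trans (min_le_right _ _)
      linarith
  refine ⟨η, hη, fun Ka hKa => ?_⟩
  obtain ⟨hD0, hD⟩ := hD Ka hKa
  obtain ⟨n1, e1⟩ := ev (a := η) (b := 10 * p.cN + 36) hη
  obtain ⟨n2, e2⟩ := ev (a := ρ1) (b := 100) hρ1
  obtain ⟨n3, e3⟩ := ev (a := ρ1 / 4) (b := 10 + CL') (by positivity)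
  obtain ⟨n4, e4⟩ := ev (a := c0) (b := c + 2) hc0
  obtain ⟨n5, e5⟩ := ev (a := γ * ρ1 / 50) (b := 4 * CL') (by positivity)
  obtain ⟨n6, e6⟩ := ev (a := cg * σD / 20) (b := CG + C2 + 36 + cg * (3 + c)) (by positivity)
  obtain ⟨n7, e7⟩ := ev (a := cg * c0 / 8) (b := CG + (C1 + CI) + cg * (3 + c)) (by positivity)
  obtain ⟨n8, e8⟩ := ev (a := σD) (b := 2 * c + 4) hσD
  refine ⟨hD0 + n1 + n2 + n3 + n4 + n5 + n6 + n7 + n8, fun {Ω} _ {ζ} E P df ν a' s G π o hS hA hh hdf hν ha' hs hG hGe hπ => ?_⟩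
  replace e1 := e1 E.h (by omega)
  replace e2 := e2 E.h (by omega)
  replace e3 := e3 E.h (by omega)
  replace e4 := e4 E.h (by omega)
  replace e5 := e5 E.h (by omega)
  replace e6 := e6 E.h (by omega)
  replace e7 := e7 E.h (by omega)
  replace e8 := e8 E.h (by omega)
  have hh1 : hD0 ≤ E.h := by omega
  clear hh
  have hh0 : (0 : ℝ) ≤ E.h := Nat.cast_nonneg _
  have hηh : 0 ≤ η * E.h := by positivity
  have hp' : Par.Ok { p with Ka := Ka } :=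
    ⟨hp.lam0, hp.lamβ, hp.β2, hp.k0, hp.k1, hp.k2, hp.c0, hp.cN0, hp.ct0, hp.c10, hKa⟩
  have hcN := hp.cN0
  -- the integers
  obtain ⟨r, hr1, hr2⟩ : ∃ r : ℕ, (r : ℝ) ≤ ρ1 * E.h ∧ ρ1 * E.h < r + 1 :=
    ⟨⌊ρ1 * E.h⌋₊, Nat.floor_le (by positivity), Nat.lt_floor_add_one _⟩
  obtain ⟨m0, hm1, hm2⟩ : ∃ m0 : ℕ, (m0 : ℝ) ≤ c0 * E.h ∧ c0 * E.h < m0 + 1 :=
    ⟨⌊c0 * E.h⌋₊, Nat.floor_le (by positivity), Nat.lt_floor_add_one _⟩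
  have hc0h : c0 * E.h ≤ ρ1 / 16 * E.h := mul_le_mul_of_nonneg_right hc01 hh0
  have hρh : ρ1 * E.h ≤ 1 / 4 * E.h := mul_le_mul_of_nonneg_right hρ4 hh0
  have hσh : 2 * ρ1 * E.h ≤ s := (mul_le_mul_of_nonneg_right hρσ hh0).trans hs
  have hτh : 2 * ρ1 * E.h ≤ τ * E.h := mul_le_mul_of_nonneg_right hρτ hh0
  have hrh : r ≤ E.h := by
    have : (r : ℝ) ≤ E.h := by linarith
    exact_mod_cast this
  have hrs : r ≤ s := by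
    have : (r : ℝ) ≤ s := by linarith
    exact_mod_cast this
  have hra : a' ≤ E.h - r := by
    have : (a' : ℝ) + r ≤ E.h := by linarith
    have h2 : a' + r ≤ E.h := by exact_mod_cast this
    omega
  have hm4s : 4 * m0 ≤ s := by
    have : (4 : ℝ) * m0 ≤ s := by linarith
    exact_mod_cast this
  have hmc : c ≤ m0 := by
    have : (c : ℝ) ≤ m0 := by linarith
    exact_mod_cast this
  have hm4h : 4 * m0 + 3 ≤ E.h := by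
    have : (4 : ℝ) * m0 + 3 ≤ E.h := by linarith
    exact_mod_cast this
  have hmb : m0 = (m0 - c) + c := by omega
  have hmcr : ((m0 - c : ℕ) : ℝ) = m0 - c := by rw [Nat.cast_sub hmc]
  -- step 0
  have g0 : Gd E P df ν G (2 * (η * E.h)) P := ⟨fun _ h => h, by linarith, by linarith⟩
  have hDat : Dat E a' s G π o P := ⟨hS, hG, hπ⟩
  -- step 1 : the coordinate
  obtain ⟨k0, P1, g1, hk1⟩ := g0.coord (p := { p with Ka := Ka }) hcN hA (π := π) (fun ω hω => (hπ ω hω).2.1) hν le_rfl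
  -- step 2 : the covector
  have hκ2 : (2 * (2 * (2 * (η * E.h)) + p.cN * Real.log 3 + η * E.h) + p.cN * Real.log 2 + η * E.h) / (1 / 2) ≤
      23 * (η * E.h) := by
    have a1 : p.cN * Real.log 3 ≤ p.cN * 2 := mul_le_mul_of_nonneg_left hl3 hcN
    have a2 : p.cN * Real.log 2 ≤ p.cN * 1 := mul_le_mul_of_nonneg_left hl2' hcN
    rw [div_le_iff₀ (by norm_num)]
    linarith
  have hcontr : ∀ C : ℝ, 0 ≤ C → C ≤ C1 + CI → ¬ (cg * ((m0 - c : ℕ) : ℝ) * Real.log 2 ≤ 23 * (η * E.h) + CG + C + 23 * (η * E.h)) := by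
    intro C hC0 hC
    rw [hmcr]
    exact num_ev (c0 := c0) hcg hl2 hm2 (mul_le_mul_of_nonneg_right hη4 hh0) (by linarith) (by exact_mod_cast hmc)
      (Nat.cast_nonneg _) hCG hC0
  have key2 : ∃ P2 : Law Ω, Gd E P df ν G (23 * (η * E.h)) P2 ∧ (∀ ω, 0 < P2.w ω → 0 < P1.w ω) ∧
      ∀ ω, 0 < P2.w ω → (2 : ℝ) ^ E.q / 2 ^ (3 * m0 + 3) ≤ |cov E (π (G ω)) (E.l ω) 0| + |cov E (π (G ω)) (E.l ω) 1| := by
    rcases le_or_gt (2 * m0 + 4) E.q with hq | hq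
    · exact step_thin hp' hgr hF1 (by linarith) (c := c) (by linarith) hA hDat g1 hν hκ2 hmb (by omega) (by omega) hq
        (by rw [← hcgd] at hcontr; exact hcontr C1 (by linarith) (by linarith))
    · exact step_thick hp' hgr hFI (by linarith) (c := c) (by linarith) hA hDat g1 hν hκ2 hmb (by omega) (by omega) hq
        (by rw [← hcgd] at hcontr; exact hcontr CI (by linarith) (by linarith))
  obtain ⟨P2, g2, hd2, hcov⟩ := key2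
  -- step 3 : the dichotomy
  have hdf2 : df P2 ≤ ηD * E.h := by
    have h1 := g2.df
    have h3 : 24 * η * E.h ≤ ηD * E.h := mul_le_mul_of_nonneg_right hη1 hh0
    have h4 := hA.low P (fun _ h => h)
    linarith
  have hνD : ν ≤ ηD * E.h := by
    have h3 : 24 * η * E.h ≤ ηD * E.h := mul_le_mul_of_nonneg_right hη1 hh0
    linarith
  have hτ3 : τD * E.h ≤ 1 / 2 * E.h := mul_le_mul_of_nonneg_right hτD3 hh0
  have hτa : τD * E.h ≤ ((E.h - r : ℕ) : ℝ) := by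
    rw [Nat.cast_sub hrh]
    linarith
  have halt : Alt E G π df P2 k0 (E.h - r) τD σD (cg * σD / 10) κD :=
    alt_of hD hA rfl rfl rfl rfl hDat g2.dom k0 hra (by omega) hh1 hτa hdf2 hνD
  have hcg' : cgp { p with Ka := Ka } = cg := hcgd
  exact c1_end hp' (CL' := CL') hCG hgr hF2 (by linarith) (c := c) (by linarith) hLab hA hDat (γ := γ) (ρ1 := ρ1) (c0 := c0)
    (η := η) hγd hγ g2 (fun ω hω => hk1 ω (hd2 ω hω)) hcov hν hCL1 hCL0 hκD hrh hrs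
    (by linarith) hr2 hm1 e2 (mul_le_mul_of_nonneg_right hc02 hh0) e5 (mul_le_mul_of_nonneg_right hτD1 hh0)
    ((mul_le_mul_of_nonneg_right hτD2 hh0).trans hs) (by linarith) (mul_le_mul_of_nonneg_right hη5 hh0) (by linarith)
    (mul_le_mul_of_nonneg_right hη2 hh0) (by rw [hcg']; exact mul_le_mul_of_nonneg_right hη3 hh0) (by rw [hcg']; exact e6) e8
    (by rw [hcg']) halt

end Vale.Agent.P106.U.End7.C1H
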