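import Vale.Agent.P106.U.H459.C1Props
import Vale.Agent.P127.U.JS

/-!
# P106 / U / H931 : tools of the composition `PC1` (helper931)

* `sel` selection of a value of a letter, `pr_event` probability of an event, `half` one of two complementary events is likely.
* `grow_any` : the slope has at least `cg b` digits of entropy given the end (from GROW and E2).
* `Fn_Apl`, `hc_Apl` : the slab label given the ray, given the end.
* `cov_ge` : the screen covector is long if `π 2` is not small and the slab is thin.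
-/

set_option autoImplicit false

namespace Vale.Agent.P106.U.End7.C1H

open Finset Vale.Agent.P127 Vale.Agent.P127.Stk Vale.Agent.P127.U.CellD Vale.Agent.P127.U.Mic Vale.Agent.P106.W
open Vale.Agent.P106.K (Ry RyOk bl Bin)
open Vale.Agent.P122.C2 (fw fn)

section sel

variable {Ω : Type} [Fintype Ω]

theorem prE_sum {ε : Type} (P : Law Ω) (e : Ω → ε) (good : ε → Prop) [DecidablePred good] :
    prE P (fun ω => good (e ω)) = ∑ z ∈ (img e).filter good, P.pr e z := by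
  classical
  unfold prE Law.pr
  rw [← Finset.sum_fiberwise_of_maps_to (g := e) (t := (img e).filter good)]
  · refine Finset.sum_congr rfl fun z hz => ?_
    refine Finset.sum_congr ?_ fun _ _ => rfl
    ext ω
    simp only [Finset.mem_filter, Finset.mem_univ, true_and]
    constructor
    · exact fun h => h.2
    · intro h
      refine ⟨?_, h⟩
      rw [h]
      exact (Finset.mem_filter.1 hz).2
  · intro ω hω
    simp only [Finset.mem_filter, Finset.mem_univ, true_and] at hω ⊢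
    exact ⟨mem_img.2 ⟨ω, rfl⟩, hω⟩

/-- selection of a value -/
theorem sel {ε : Type} (P : Law Ω) (e : Ω → ε) (good : ε → Prop) (D : ε → ℝ) {M ρ : ℝ} (hρ : 0 < ρ)
    (hg : ρ ≤ prE P (fun ω => good (e ω))) (hD : ∀ z, 0 < P.pr e z → 0 ≤ D z)
    (hM : ∑ z ∈ img e, P.pr e z * D z ≤ M) : ∃ z, good z ∧ 0 < P.pr e z ∧ D z ≤ M / ρ := by
  classical
  by_contra hcon
  push Not at hcon
  rw [prE_sum] at hg
  have h0 : ∀ z ∈ img e, 0 ≤ P.pr e z * D z := fun z _ => by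
    rcases (P.pr_nonneg e z).eq_or_lt with h | h
    · rw [← h, zero_mul]
    · exact mul_nonneg h.le (hD z h)
  have hM0 : 0 ≤ M := (Finset.sum_nonneg h0).trans hM
  have h1 : ∑ z ∈ (img e).filter good, P.pr e z * D z ≤ M :=
    (Finset.sum_le_sum_of_subset_of_nonneg (Finset.filter_subset _ _) fun z hz _ => h0 z hz).trans hM
  have hlt : ∃ z ∈ (img e).filter good, 0 < P.pr e z := by
    by_contra hc
    push Not at hc
    have : ∑ z ∈ (img e).filter good, P.pr e z ≤ 0 := Finset.sum_nonpos hc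
    linarith
  obtain ⟨z0, hz0, hp0⟩ := hlt
  have h2 : ∑ z ∈ (img e).filter good, P.pr e z * (M / ρ) < ∑ z ∈ (img e).filter good, P.pr e z * D z := by
    refine Finset.sum_lt_sum (fun z hz => ?_) ⟨z0, hz0, ?_⟩
    · rcases (P.pr_nonneg e z).eq_or_lt with h | h
      · rw [← h, zero_mul, zero_mul]
      · exact mul_le_mul_of_nonneg_left (hcon z (Finset.mem_filter.1 hz).2 h).le h.le
    · exact mul_lt_mul_of_pos_left (hcon z0 (Finset.mem_filter.1 hz0).2 hp0) hp0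
  rw [← Finset.sum_mul] at h2
  have h3 : ρ * (M / ρ) ≤ (∑ z ∈ (img e).filter good, P.pr e z) * (M / ρ) :=
    mul_le_mul_of_nonneg_right hg (div_nonneg hM0 hρ.le)
  rw [mul_div_cancel₀ _ hρ.ne'] at h3
  linarith

/-- entropy of a letter with values in a finite type -/
theorem hc_fin {ε : Type} [Fintype ε] (P : Law Ω) (e : Ω → ε) : Stk.hc P e (fun _ => ()) ≤ Real.log (Fintype.card ε) :=
  (Stk.hc_le_H P e _).trans (P.H_le_log_card e)

end sel

/-! ### the state -/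

section st

variable {Ω : Type} [Fintype Ω] {ζ : Type}

/-- a law dominated by `P0`, defect and entropy of the side letter given the end at most `κ` -/
structure Gd (E : Env Ω) (P0 : Law Ω) (df : Law Ω → ℝ) (ν : ℝ) (G : Ω → ζ) (κ : ℝ) (P : Law Ω) : Prop where
  dom : ∀ ω, 0 < P.w ω → 0 < P0.w ω
  df : df P + ν ≤ κ
  ent : Stk.hc P G (E.Zh E.h) ≤ κ

theorem Supp_mono {E : Env Ω} {P0 P : Law Ω} (h : E.Supp P0) (hd : ∀ ω, 0 < P.w ω → 0 < P0.w ω) : E.Supp P :=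
  ⟨fun ω hω => h.ok ω (hd ω hω), h.u2, h.u1, h.α8, h.κ8, h.p1, h.v1, fun ω hω => h.inn ω (hd ω hω), h.hL⟩

/-- conditioning -/
theorem Gd.cond {p : Par} {E : Env Ω} {P0 : Law Ω} {df : Law Ω → ℝ} {ν : ℝ} {G : Ω → ζ} {κ : ℝ} {P : Law Ω}
    (hp : 0 ≤ p.cN) (hA : E.Ax p P0 df ν) (h : Gd E P0 df ν G κ P) {ε : Type} (e : Ω → ε) (good : ε → Prop) {ρ Hb ν' : ℝ} (hρ : 0 < ρ)
    (hg : ρ ≤ prE P (fun ω => good (e ω))) (he : Stk.hc P e (fun _ => ()) ≤ Hb) (hν : ν ≤ ν') :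
    ∃ z, good z ∧ 0 < P.pr e z ∧ Gd E P0 df ν G ((2 * κ + p.cN * Hb + ν') / ρ) (P.cond e z) := by
  classical
  have hdom : ∀ z, 0 < P.pr e z → ∀ ω, 0 < (P.cond e z).w ω → 0 < P0.w ω := fun z _ ω hω =>
    h.dom ω (Vale.Agent.P127.U.JSB.cond_supp P e z hω)
  have key : ∑ z ∈ img e, P.pr e z * ((df (P.cond e z) + ν) + Stk.hc (P.cond e z) G (E.Zh E.h)) ≤
      2 * κ + p.cN * Hb + ν' := by
    have e1 : ∑ z ∈ img e, P.pr e z * ((df (P.cond e z) + ν) + Stk.hc (P.cond e z) G (E.Zh E.h)) =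
        ∑ z ∈ img e, P.pr e z * df (P.cond e z) + ν * ∑ z ∈ img e, P.pr e z +
          ∑ z ∈ img e, P.pr e z * Stk.hc (P.cond e z) G (E.Zh E.h) := by
      rw [Finset.mul_sum, ← Finset.sum_add_distrib, ← Finset.sum_add_distrib]
      exact Finset.sum_congr rfl fun z _ => by ring
    have e2 : ∑ z ∈ img e, P.pr e z = 1 := P.sum_pr_image e
    rw [e1, e2, ← Vale.Agent.P127.U.JSB.hc_cond_sum]
    have h1 := hA.mix P h.dom ε e
    have h2 : Stk.hc P G (fun ω => (E.Zh E.h ω, e ω)) ≤ Stk.hc P G (E.Zh E.h) :=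
      Stk.hc_mono_right P G fun ω ω' _ _ hh => congrArg Prod.fst hh
    have h3 := mul_le_mul_of_nonneg_left he hp
    have h4 := h.df
    have h5 := h.ent
    linarith
  obtain ⟨z, hz1, hz2, hz3⟩ := sel P e good (fun z => (df (P.cond e z) + ν) + Stk.hc (P.cond e z) G (E.Zh E.h)) hρ hg
    (fun z hz => by
      have h1 := hA.low _ (hdom z hz)
      have h2 := Stk.hc_nonneg (P.cond e z) G (E.Zh E.h)
      linarith) key
  refine ⟨z, hz1, hz2, hdom z hz2, ?_, ?_⟩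
  · have := Stk.hc_nonneg (P.cond e z) G (E.Zh E.h)
    linarith
  · have := hA.low _ (hdom z hz2)
    linarith

/-- the label inequality -/
theorem Gd.lab {p : Par} {E : Env Ω} {P0 : Law Ω} {df : Law Ω → ℝ} {ν : ℝ} {G : Ω → ζ} {κ : ℝ} {P : Law Ω}
    (hA : E.Ax p P0 df ν) (h : Gd E P0 df ν G κ P) : E.Lab p P κ := by
  intro a b R h1 h2 h3 Ω' i P' π A h4 h5
  have := hA.lab P h.dom a b R h1 h2 h3 Ω' i P' π A h4 h5
  have h6 := h.df
  linarith

end st

/-! ### the slope given the end -/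

/-- the gain -/
noncomputable def cgp (p : Par) : ℝ := (p.lam - p.k) * p.β / 4

theorem cgp_pos {p : Par} (h : p.Ok) : 0 < cgp p := by
  have h1 := h.lam0
  have h2 := h.lamβ
  have h3 := h.k1
  have h4 := h.k0
  unfold cgp
  have : 0 < p.lam - p.k := by linarith
  have h5 : 0 < p.β := by linarith
  positivity

/-- **the slope has at least `cg b` digits given the end** -/
theorem grow_any (h2 : PE2) (hg : PGrowE) : ∃ C : ℝ, 0 ≤ C ∧ ∀ (p : Par), p.Ok → ∀ {Ω : Type} [Fintype Ω] (E : Env Ω)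
    (P : Law Ω) (μ : ℝ) (b : ℕ), E.Supp P → E.Lab p P μ → b ≤ E.h →
    cgp p * b * Real.log 2 - μ - C ≤ Stk.hc P (fun ω => fl b (E.l ω).s) (E.Zh E.h) := by
  obtain ⟨C2, h2⟩ := h2
  obtain ⟨Cg, hg⟩ := hg
  refine ⟨max (max C2 Cg) 0, le_max_right _ _, fun p hp Ω _ E P μ b hS hL hb => ?_⟩
  have c1 : C2 ≤ max (max C2 Cg) 0 := (le_max_left _ _).trans (le_max_left _ _)
  have c2 : Cg ≤ max (max C2 Cg) 0 := (le_max_right _ _).trans (le_max_left _ _)
  have hl : 0 < Real.log 2 := Real.log_pos (by norm_num)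
  have p1 := hp.lam0
  have p2 := hp.lamβ
  have p3 := hp.β2
  have p4 := hp.k0
  have p5 := hp.k1
  have p6 := hp.k2
  have hb0 : (0 : ℝ) ≤ b := Nat.cast_nonneg _
  have hβ : 0 < p.β := by linarith
  have hlk : 0 < p.lam - p.k := by linarith
  by_cases hq : p.β / 4 * b ≤ E.q
  · set b' := min E.q b with hb'
    have h1 := hg p hp E P μ b' hS hL (min_le_left _ _)
    have h3 : Stk.hc P (fun ω => fl b' (E.l ω).s) (E.Zh E.h) ≤ Stk.hc P (fun ω => fl b (E.l ω).s) (E.Zh E.h) := by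
      refine Stk.hc_mono_left P fun ω ω' _ _ e => ?_
      have e1 : fl b (E.l ω).s = fl b (E.l ω').s := congrArg Prod.fst e
      funext k
      exact fl1_fl1 (min_le_right _ _) (congrFun e1 k)
    have h4 : p.β / 4 * b ≤ (b' : ℝ) := by
      rw [hb', Nat.cast_min, le_min_iff]
      refine ⟨hq, ?_⟩
      nlinarith
    have h5 : cgp p * b * Real.log 2 ≤ (p.lam - p.k) * b' * Real.log 2 := by
      unfold cgp
      have : (p.lam - p.k) * (p.β / 4 * b) ≤ (p.lam - p.k) * b' := mul_le_mul_of_nonneg_left h4 hlk.le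
      have h6 : (p.lam - p.k) * p.β / 4 * b * Real.log 2 = (p.lam - p.k) * (p.β / 4 * b) * Real.log 2 := by ring
      rw [h6]
      exact mul_le_mul_of_nonneg_right this hl.le
    linarith
  · push Not at hq
    have h1 := h2 p hp E P μ b hS hL hb
    have h5 : cgp p * b ≤ (p.β - 2 * p.k) * b - (1 + p.k) * E.q := by
      have a1 : (1 + p.k) * E.q ≤ (1 + p.k) * (p.β / 4 * b) := by
        refine mul_le_mul_of_nonneg_left hq.le (by linarith)
      have a2 : cgp p ≤ p.β / 2 := by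
        unfold cgp
        nlinarith
      have a3 : p.k ≤ p.β / 100 := by linarith
      have a4 : p.k ≤ 1 / 50 := by linarith
      have a5 : cgp p * b ≤ p.β / 2 * b := mul_le_mul_of_nonneg_right a2 hb0
      have a6 : (1 + p.k) * (p.β / 4 * b) ≤ 51 / 50 * (p.β / 4 * b) := by
        refine mul_le_mul_of_nonneg_right (by linarith) (by positivity)
      have a7 : p.k * b ≤ p.β / 100 * b := mul_le_mul_of_nonneg_right a3 hb0
      have a8 : 0 ≤ p.β * b := by positivity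
      linarith
    have h6 := mul_le_mul_of_nonneg_right h5 hl.le
    linarith

/-! ### the slab label -/

section apl

variable {Ω : Type} [Fintype Ω] {ζ : Type}

theorem Fn_Zh (E : Env Ω) (P : Law Ω) (a : ℕ) : Fn P (E.Zh a) (fun ω => (E.l ω, fl1 a (E.t ω))) := by
  intro ω ω' _ _ e
  obtain ⟨e1, e2⟩ := Prod.mk.injEq _ _ _ _ ▸ e
  have e3 : rd a (E.t ω) = rd a (E.t ω') := by unfold rd; rw [e2]
  unfold Env.Zh Env.X Env.Q
  rw [e1, e2, e3]

theorem Fn_Apl (E : Env Ω) (P : Law Ω) (G : Ω → ζ) (π : ζ → Fin 3 → ℝ) {a' a : ℕ} (ha : a' ≤ a)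
    (hG : Fn P G (fun ω => (E.l ω, fl1 a' (E.t ω)))) : Fn P (Apl E G π a) (fun ω => (E.l ω, fl1 a (E.t ω))) := by
  intro ω ω' h h' e
  obtain ⟨e1, e2⟩ := Prod.mk.injEq _ _ _ _ ▸ e
  have e3 : rd a (E.t ω) = rd a (E.t ω') := by unfold rd; rw [e2]
  have e4 : G ω = G ω' := hG ω ω' h h' (Prod.ext e1 (fl1_fl1 ha e2))
  have e5 : E.Zh a ω = E.Zh a ω' := Fn_Zh E P a ω ω' h h' e
  unfold Apl
  rw [e4, e5]
  unfold Env.X Env.Q
  rw [e1, e3]

theorem Fn_Apl_t (E : Env Ω) (P : Law Ω) (G : Ω → ζ) (π : ζ → Fin 3 → ℝ) (a : ℕ) :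
    Fn P (fun ω => fl1 a (E.t ω)) (Apl E G π a) := fun ω ω' _ _ e => by
  have : E.Zh a ω = E.Zh a ω' := congrArg (fun x => x.2.1) e
  exact congrArg Prod.fst this

theorem Fn_Apl_G (E : Env Ω) (P : Law Ω) (G : Ω → ζ) (π : ζ → Fin 3 → ℝ) (a : ℕ) :
    Fn P G (Apl E G π a) := fun _ _ _ _ e => congrArg Prod.fst e

omit [Fintype Ω] in
theorem fl1_abs {n : ℕ} {x y : ℝ} {N : ℕ} (h : |x - y| ≤ N * q2 n) : |fl1 n x - fl1 n y| ≤ (N + 1 : ℕ) := by
  have h2 : (0 : ℝ) < 2 ^ n := by positivity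
  have e := q2_mul_pow n
  have h3 : |2 ^ n * x - 2 ^ n * y| ≤ N := by
    rw [← mul_sub, abs_mul, abs_of_pos h2]
    calc (2 : ℝ) ^ n * |x - y| ≤ 2 ^ n * (N * q2 n) := by gcongr
      _ = N * (2 ^ n * q2 n) := by ring
      _ = N := by rw [e, mul_one]
  have a1 := Int.floor_le (2 ^ n * x)
  have a2 := Int.lt_floor_add_one (2 ^ n * x)
  have a3 := Int.floor_le (2 ^ n * y)
  have a4 := Int.lt_floor_add_one (2 ^ n * y)
  have h5 : |((fl1 n x - fl1 n y : ℤ) : ℝ)| < N + 2 := by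
    unfold fl1
    push_cast
    rw [abs_le] at h3
    rw [abs_lt]
    constructor <;> linarith [h3.1, h3.2]
  have h6 : |fl1 n x - fl1 n y| < N + 2 := by exact_mod_cast h5
  push_cast
  omega

/-- variables of bounded diameter given `Y` -/
theorem hc_diam {ι : Type} [Fintype ι] {T : Type*} (P : Law Ω) (X : Ω → ι → ℤ) (Y : Ω → T) (N : ℕ)
    (h : ∀ ω ω', 0 < P.w ω → 0 < P.w ω' → Y ω' = Y ω → ∀ i, |X ω' i - X ω i| ≤ N) :
    Stk.hc P X Y ≤ Fintype.card ι * Real.log (2 * N + 1) := by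
  classical
  have h1 : Stk.hc P X Y ≤ Real.log (((2 * N + 1) ^ Fintype.card ι : ℕ) : ℝ) := by
    refine Stk.hc_le_log P X _ _ fun ω hω => ?_
    refine ⟨Fintype.piFinset fun i => Finset.Icc (X ω i - N) (X ω i + N), ?_, ?_⟩
    · rw [Fintype.card_piFinset]
      have : ∀ i, (Finset.Icc (X ω i - N) (X ω i + N)).card = 2 * N + 1 := by
        intro i
        rw [Int.card_Icc]
        omega
      simp only [this, Finset.prod_const, Finset.card_univ]
      exact le_rfl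
    · intro ω' hω' e
      rw [Fintype.mem_piFinset]
      intro i
      have h2 := abs_le.1 (h ω ω' hω hω' e i)
      rw [Finset.mem_Icc]
      constructor <;> linarith [h2.1, h2.2]
  refine h1.trans (le_of_eq ?_)
  push_cast
  rw [Real.log_pow]

omit [Fintype Ω] in
theorem fl1_eq_abs {n : ℕ} {x y : ℝ} (h : fl1 n x = fl1 n y) : |x - y| ≤ q2 n := by
  have h2 : (0 : ℝ) < 2 ^ n := by positivity
  unfold fl1 at h
  have a1 := Int.floor_le (2 ^ n * x)
  have a2 := Int.lt_floor_add_one (2 ^ n * x)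
  have a3 := Int.floor_le (2 ^ n * y)
  have a4 := Int.lt_floor_add_one (2 ^ n * y)
  rw [h] at a1 a2
  have h5 : |2 ^ n * x - 2 ^ n * y| ≤ 1 := by
    rw [abs_le]
    constructor <;> linarith
  rw [← mul_sub, abs_mul, abs_of_pos h2] at h5
  have e := q2_mul_pow n
  calc |x - y| = (2 ^ n * |x - y|) * q2 n := by rw [mul_comm ((2 : ℝ) ^ n), mul_assoc, e, mul_one]
    _ ≤ 1 * q2 n := by gcongr; exact (q2_pos n).le
    _ = q2 n := one_mul _

/-- **the slab label given the end** -/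
theorem hc_Apl (E : Env Ω) (P : Law Ω) (hS : ∀ ω, 0 < P.w ω → ∀ k, |E.Q ω k| ≤ 1) (G : Ω → ζ) (π : ζ → Fin 3 → ℝ) (o : ζ → ℝ)
    {a s : ℕ} (ha : a ≤ E.h) (hs : E.h ≤ a + s) (hπ : ∀ ω, 0 < P.w ω → (∀ k, |π (G ω) k| ≤ 1) ∧
      |∑ k, π (G ω) k * E.Q ω k - o (G ω)| ≤ (1 / 2 : ℝ) ^ s) :
    Stk.hc P (Apl E G π a) (E.Zh E.h) ≤ Stk.hc P G (E.Zh E.h) + 36 := by
  have h0 : Stk.hc P (Apl E G π a) (E.Zh E.h) = Stk.hc P G (E.Zh E.h) +
      Stk.hc P (fun ω => (E.Zh a ω, fl1 E.h (∑ k, π (G ω) k * (E.X ω k + rd a (E.t ω) * E.Q ω k))))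
        (fun ω => (G ω, E.Zh E.h ω)) := Stk.hc_pair P G _ _
  rw [h0]
  have ht : ∀ ω ω', E.Zh E.h ω' = E.Zh E.h ω → fl1 E.h (E.t ω') = fl1 E.h (E.t ω) := fun ω ω' e => congrArg Prod.fst e
  have hx : ∀ ω ω', E.Zh E.h ω' = E.Zh E.h ω → ∀ k, fl1 E.h (E.X ω' k + rd E.h (E.t ω') * E.Q ω' k) =
      fl1 E.h (E.X ω k + rd E.h (E.t ω) * E.Q ω k) := fun ω ω' e k => congrFun (congrArg Prod.snd e) k
  have hrd : ∀ {n : ℕ} {x y : ℝ}, fl1 n x = fl1 n y → rd n x = rd n y := fun h => by unfold rd; rw [h]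
  -- the cell of the level `a`
  have h1 : Stk.hc P (E.Zh a) (fun ω => (G ω, E.Zh E.h ω)) ≤ 3 * Real.log 9 := by
    have e1 : Stk.hc P (E.Zh a) (fun ω => (G ω, E.Zh E.h ω)) ≤
        Stk.hc P (fun ω k => fl1 a (E.X ω k + rd a (E.t ω) * E.Q ω k)) (fun ω => (G ω, E.Zh E.h ω)) := by
      refine Stk.hc_mono_left P fun ω ω' _ _ e => ?_
      obtain ⟨e1, e2⟩ := Prod.mk.injEq _ _ _ _ ▸ e
      have e3 : E.Zh E.h ω = E.Zh E.h ω' := congrArg Prod.snd e2
      exact Prod.ext (fl1_fl1 ha (ht _ _ e3)) e1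
    refine e1.trans ?_
    have e2 := hc_diam P (fun ω k => fl1 a (E.X ω k + rd a (E.t ω) * E.Q ω k)) (fun ω => (G ω, E.Zh E.h ω)) 4 (by
      intro ω ω' hω hω' e k
      have e3 : E.Zh E.h ω' = E.Zh E.h ω := congrArg Prod.snd e
      have near : ∀ ω, 0 < P.w ω → |fl1 a (E.X ω k + rd a (E.t ω) * E.Q ω k) -
          fl1 a (E.X ω k + rd E.h (E.t ω) * E.Q ω k)| ≤ 2 := by
        intro ω hω
        refine fl1_near ?_
        have e4 : E.X ω k + rd a (E.t ω) * E.Q ω k - (E.X ω k + rd E.h (E.t ω) * E.Q ω k) =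
            -((rd E.h (E.t ω) - rd a (E.t ω)) * E.Q ω k) := by ring
        rw [e4, abs_neg, abs_mul]
        calc |rd E.h (E.t ω) - rd a (E.t ω)| * |E.Q ω k| ≤ q2 a * 1 :=
              mul_le_mul (rd_sub ha _) (hS ω hω k) (abs_nonneg _) (q2_pos a).le
          _ = q2 a := mul_one _
      have n1 := near ω hω
      have n2 := near ω' hω'
      have n3 : fl1 a (E.X ω' k + rd E.h (E.t ω') * E.Q ω' k) = fl1 a (E.X ω k + rd E.h (E.t ω) * E.Q ω k) :=
        fl1_fl1 ha (hx _ _ e3 k)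
      rw [n3] at n2
      rw [abs_le] at n1 n2 ⊢
      push_cast
      constructor <;> linarith [n1.1, n1.2, n2.1, n2.2])
    refine e2.trans (le_of_eq ?_)
    norm_num
  -- the functional
  have h2 : Stk.hc P (fun ω => fl1 E.h (∑ k, π (G ω) k * (E.X ω k + rd a (E.t ω) * E.Q ω k)))
      (fun ω => (G ω, E.Zh E.h ω)) ≤ Real.log 13 := by
    have e1 : Stk.hc P (fun ω => fl1 E.h (∑ k, π (G ω) k * (E.X ω k + rd a (E.t ω) * E.Q ω k)))
        (fun ω => (G ω, E.Zh E.h ω)) ≤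
        Stk.hc P (fun ω (_ : Unit) => fl1 E.h (∑ k, π (G ω) k * (E.X ω k + rd a (E.t ω) * E.Q ω k)))
        (fun ω => (G ω, E.Zh E.h ω)) := by
      refine Stk.hc_mono_left P fun ω ω' _ _ e => ?_
      obtain ⟨e1, _⟩ := Prod.mk.injEq _ _ _ _ ▸ e
      exact congrFun e1 ()
    refine e1.trans ?_
    have e2 := hc_diam P (fun ω (_ : Unit) => fl1 E.h (∑ k, π (G ω) k * (E.X ω k + rd a (E.t ω) * E.Q ω k)))
      (fun ω => (G ω, E.Zh E.h ω)) 6 (by
      intro ω ω' hω hω' e _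
      have eG : G ω' = G ω := congrArg Prod.fst e
      have e3 : E.Zh E.h ω' = E.Zh E.h ω := congrArg Prod.snd e
      have t1 : rd E.h (E.t ω') = rd E.h (E.t ω) := hrd (ht _ _ e3)
      have t2 : rd a (E.t ω') = rd a (E.t ω) := hrd (fl1_fl1 ha (ht _ _ e3))
      have p1 := (hπ ω hω).1
      have p2 := (hπ ω hω).2
      have p3 := (hπ ω' hω').2
      rw [eG] at p3 ⊢
      have hk : ∀ k, |π (G ω) k * ((E.X ω' k + rd E.h (E.t ω') * E.Q ω' k) - (E.X ω k + rd E.h (E.t ω) * E.Q ω k))| ≤ q2 E.h := by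
        intro k
        rw [abs_mul]
        calc _ ≤ 1 * q2 E.h := mul_le_mul (p1 k) (fl1_eq_abs (hx _ _ e3 k)) (abs_nonneg _) zero_le_one
          _ = q2 E.h := one_mul _
      have hd : |(rd E.h (E.t ω) - rd a (E.t ω)) * ((∑ k, π (G ω) k * E.Q ω' k - o (G ω)) -
          (∑ k, π (G ω) k * E.Q ω k - o (G ω)))| ≤ 2 * q2 E.h := by
        rw [abs_mul]
        have a1 : |(∑ k, π (G ω) k * E.Q ω' k - o (G ω)) - (∑ k, π (G ω) k * E.Q ω k - o (G ω))| ≤ 2 * q2 s := by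
          refine (abs_sub _ _).trans ?_
          have : q2 s = (1 / 2 : ℝ) ^ s := rfl
          linarith
        calc _ ≤ q2 a * (2 * q2 s) := mul_le_mul (rd_sub ha _) a1 (abs_nonneg _) (q2_pos a).le
          _ = 2 * q2 (a + s) := by rw [q2_add]; ring
          _ ≤ 2 * q2 E.h := by
            have := q2_le hs
            linarith
      refine fl1_abs (N := 5) ?_
      have e4 : ∑ k, π (G ω) k * (E.X ω' k + rd a (E.t ω') * E.Q ω' k) - ∑ k, π (G ω) k * (E.X ω k + rd a (E.t ω) * E.Q ω k) =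
          ∑ k, π (G ω) k * ((E.X ω' k + rd E.h (E.t ω') * E.Q ω' k) - (E.X ω k + rd E.h (E.t ω) * E.Q ω k)) -
          (rd E.h (E.t ω) - rd a (E.t ω)) * ((∑ k, π (G ω) k * E.Q ω' k - o (G ω)) -
          (∑ k, π (G ω) k * E.Q ω k - o (G ω))) := by
        rw [t1, t2]
        simp only [Fin.sum_univ_three]
        ring
      rw [e4]
      have h5 : |∑ k, π (G ω) k * ((E.X ω' k + rd E.h (E.t ω') * E.Q ω' k) - (E.X ω k + rd E.h (E.t ω) * E.Q ω k))| ≤
          3 * q2 E.h := by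
        refine (Finset.abs_sum_le_sum_abs _ _).trans ?_
        rw [Fin.sum_univ_three]
        linarith [hk 0, hk 1, hk 2]
      refine (abs_sub _ _).trans ?_
      push_cast
      linarith)
    refine e2.trans (le_of_eq ?_)
    norm_num
  have h3 : Stk.hc P (fun ω => (E.Zh a ω, fl1 E.h (∑ k, π (G ω) k * (E.X ω k + rd a (E.t ω) * E.Q ω k))))
        (fun ω => (G ω, E.Zh E.h ω)) ≤ 3 * Real.log 9 + Real.log 13 := by
    rw [Stk.hc_pair]
    refine add_le_add h1 ((Stk.hc_mono_right P _ ?_).trans h2)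
    exact fun ω ω' _ _ e => congrArg Prod.snd e
  have n1 : Real.log 9 ≤ 8 := (Real.log_le_sub_one_of_pos (by norm_num)).trans (by norm_num)
  have n2 : Real.log 13 ≤ 12 := (Real.log_le_sub_one_of_pos (by norm_num)).trans (by norm_num)
  linarith

end apl

/-! ### the screen covector -/

section cov

variable {Ω : Type} [Fintype Ω]

/-- the screen covector is long if `|π 2| 2^q` is large -/
theorem cov_ge {E : Env Ω} {P : Law Ω} (hS : E.Supp P) {ω : Ω} (hω : 0 < P.w ω) {π : Fin 3 → ℝ} (hπ : ∀ k, |π k| ≤ 1)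
    {x : ℝ} (hx : 16 ≤ x) (h2 : x ≤ |π 2| * 2 ^ E.q) : x / 8 ≤ |cov E π (E.l ω) 0| + |cov E π (E.l ω) 1| := by
  have hok : E.B0.ok (1 / 8) E.B0.u1 0 := by
    have h1 : E.B0.u1 ≤ 1 := by rw [hS.u1]; exact pow_le_one₀ (by norm_num) (by norm_num)
    have h0 : 0 ≤ E.B0.u1 := by rw [hS.u1]; positivity
    have e2 := hS.u2
    refine ⟨le_rfl, by rw [e2]; exact h1, by rw [e2], ?_, ?_, ?_, ?_⟩
    · rw [e2, mul_one]; exact hS.α8
    · rw [e2, mul_one]; exact hS.κ8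
    · rw [mul_zero]; exact h0
    · rw [mul_zero]; exact h0
  obtain ⟨i1, i2, -⟩ := hS.inn ω hω
  obtain ⟨L, θ', l1, l2, n0, n1⟩ := Cbx.nn_len hok le_rfl (E.l ω).y (E.l ω).s i1 i2
  obtain ⟨r1, -, -⟩ := hS.ok ω hω
  have s1 := r1.2.1
  -- length of the normal
  have hn : 2 / 5 ≤ |E.B0.nn (E.l ω).y (E.l ω).s 0| + |E.B0.nn (E.l ω).y (E.l ω).s 1| := by
    have hsq : (E.B0.nn (E.l ω).y (E.l ω).s 0) ^ 2 + (E.B0.nn (E.l ω).y (E.l ω).s 1) ^ 2 = L ^ 2 := by
      rw [n0, n1]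
      have := Real.sin_sq_add_cos_sq θ'
      linear_combination L ^ 2 * this
    have h3 : L ^ 2 ≤ (|E.B0.nn (E.l ω).y (E.l ω).s 0| + |E.B0.nn (E.l ω).y (E.l ω).s 1|) ^ 2 := by
      rw [← hsq, ← sq_abs (E.B0.nn (E.l ω).y (E.l ω).s 0), ← sq_abs (E.B0.nn (E.l ω).y (E.l ω).s 1)]
      have := mul_nonneg (abs_nonneg (E.B0.nn (E.l ω).y (E.l ω).s 0)) (abs_nonneg (E.B0.nn (E.l ω).y (E.l ω).s 1))
      nlinarith
    have h4 := abs_le_abs_of_nonneg (a := L) (by linarith) le_rfl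
    have h5 : L ≤ |E.B0.nn (E.l ω).y (E.l ω).s 0| + |E.B0.nn (E.l ω).y (E.l ω).s 1| :=
      le_of_sq_le_sq h3 (by positivity)
    linarith
  set n := E.B0.nn (E.l ω).y (E.l ω).s with hnn
  have hc : |Real.cos E.B0.θ| ≤ 1 := Real.abs_cos_le_one _
  have hs : |Real.sin E.B0.θ| ≤ 1 := Real.abs_sin_le_one _
  have hq : (0 : ℝ) < 2 ^ E.q := by positivity
  have f : ∀ k, |π 2| * 2 ^ E.q * |n k| ≤ |cov E π (E.l ω) k| + 3 / 2 := by
    intro k
    have e1 : π 2 * (2 ^ E.q * n k) = cov E π (E.l ω) k -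
        (π 0 * (![Real.cos E.B0.θ, Real.sin E.B0.θ] : Fin 2 → ℝ) k / 2) - π 1 * (E.l ω).s k := by
      unfold cov
      rw [← hnn]
      ring
    have e2 : |π 2| * 2 ^ E.q * |n k| = |π 2 * (2 ^ E.q * n k)| := by
      rw [abs_mul, abs_mul, abs_of_pos hq]
      ring
    rw [e2, e1]
    have a1 : |π 0 * (![Real.cos E.B0.θ, Real.sin E.B0.θ] : Fin 2 → ℝ) k / 2| ≤ 1 / 2 := by
      rw [abs_div, abs_mul, abs_two]
      have : |(![Real.cos E.B0.θ, Real.sin E.B0.θ] : Fin 2 → ℝ) k| ≤ 1 := by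
        fin_cases k
        · exact hc
        · exact hs
      have h3 := mul_le_mul (hπ 0) this (abs_nonneg _) zero_le_one
      linarith
    have a2 : |π 1 * (E.l ω).s k| ≤ 1 := by
      rw [abs_mul]
      have h3 := mul_le_mul (hπ 1) (s1 k) (abs_nonneg _) zero_le_one
      linarith
    refine (abs_sub _ _).trans ?_
    refine (add_le_add (abs_sub _ _) a2).trans ?_
    linarith
  have h6 : x * (|n 0| + |n 1|) ≤ |π 2| * 2 ^ E.q * (|n 0| + |n 1|) :=
    mul_le_mul_of_nonneg_right h2 (by positivity)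
  have h7 : x * (2 / 5) ≤ x * (|n 0| + |n 1|) := mul_le_mul_of_nonneg_left hn (by linarith)
  have f0 := f 0
  have f1 := f 1
  linarith

end cov

end Vale.Agent.P106.U.End7.C1H
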