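import Vale.Agent.P106.U.S3.Good
import Vale.Agent.P106.U.H683.RedC
import Vale.Agent.P106.U.H466.Defs
import Vale.Agent.P106.H25.SatKN
import Vale.Agent.P106.U.H377.FrmA
import Vale.Agent.P106.U.H404.ActX

/-!
# P106 / U / H931 : collisions given the cells, from `Run.Good` at one time step (helper931)

`R : S3.Run`, `R.Good p ε b q`, `k ≤ q`: everything is pointwise.

* `side` : `(Z q, cell q b)` determines the ray, `T k` and the own slope to `rf k` digits.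
* `cT_le`, `cT_cell` : time; `cF_le` : own slope.
* `TT_bd`, `TT_rel` : the coordinate `TT C f i` given the ray, `T f` and the own slope.
* `cL_le` : three copies given `cell k b` are not collinear.
-/

set_option autoImplicit false

namespace Vale.Agent.P106.U.H931

open Finset Vale.Agent.P127 Vale.Agent.P127.Stk Vale.Agent.P106.W
open Vale.Agent.P106.K (Ry RyOk bl Bin)
open Vale.Agent.P127.U.CellD (q2 rd q2_pos q2_add q2_le q2_mul_pow rd_le lt_rd)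
open Vale.Agent.P127.U.Mic (colp colp_mono_cond colp_mono_var colp_nonneg pair_near_le)
open Vale.Agent.P106.U.Cell (Pth Ray)
open Vale.Agent.P106.U.S3 (Run NoStrip)
open Vale.Agent.P106.U.H404 (fl1_le)
open Vale.Agent.P106.U.H683 (Dp slR Side)
open Vale.Agent.P106.U.H466 (TT rho)

section side

variable {Ω : Type} [Fintype Ω] {τ υ : Type} {R : Run Ω τ υ} {p : Run.Num} {K c' g' gU : ℝ}

theorem side (h : R.Ok p K c' g' gU) {k q : ℕ} (b : ℕ) (hkq : k ≤ q) (hq : q ≤ R.n + p.J) :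
    Side R.Q R.C k (fun ω => (R.Z q ω, R.C.cell q b ω)) := by
  intro x y hx hy e
  simp only [Prod.mk.injEq] at e
  refine ⟨?_, ?_, ?_⟩
  · rw [h.Cl, h.Cl]
    have : R.ry x = R.ry y := congrArg Prod.fst e.1
    rw [this]
  · exact H683.T_mono hkq (congrArg Prod.fst e.2)
  · exact fl1_le (R.C.hf hkq) (h.Uf q hq x y hx hy e.1)

theorem time_le (h : R.Ok p K c' g' gU) {ε : ℝ} {b q k g : ℕ} (G : R.Good p ε b q) (ha : R.C.a k = R.C.a q)
    (hmg : R.m ≤ g) :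
    colp R.Q (fun ω => fl1 (R.C.a k + g) (R.C.t ω)) (fun ω => (R.Z q ω, R.C.cell q b ω)) ≤ ε := by
  refine le_trans ?_ G.time
  refine colp_mono_var R.Q _ ?_
  intro x y _ _ e
  have h2 : fl1 (R.C.a k + g) (R.C.t x) = fl1 (R.C.a k + g) (R.C.t y) := (Prod.mk.inj e).1
  show fl1 (R.C.a q + R.m) (R.t x) = fl1 (R.C.a q + R.m) (R.t y)
  rw [h.Ct, h.Ct] at h2
  exact fl1_le (by omega) h2

/-- **time** -/
theorem cT_le (h : R.Ok p K c' g' gU) {ε : ℝ} {b b' q k g : ℕ} (G : R.Good p ε b q) (hkq : k ≤ q)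
    (hq : q ≤ R.n + p.J) (ha : R.C.a k = R.C.a q) (hmg : R.m ≤ g) {M : ℕ} (hM : K ≤ M) :
    colp R.Q (fun ω => fl1 (R.C.a k + g) (R.C.t ω)) (Dp R.C k b') ≤ Real.sqrt (((2 * M + 3 : ℕ) : ℝ) * ε) :=
  (H683.colp_Dp R.Q _ (side h b hkq hq) h.ok hM).trans
    (Real.sqrt_le_sqrt (mul_le_mul_of_nonneg_left (time_le h G ha hmg) (Nat.cast_nonneg _)))

/-- the cell alone in the condition -/
theorem cT_cell (h : R.Ok p K c' g' gU) {ε : ℝ} {b b' q k g : ℕ} (G : R.Good p ε b q) (hkq : k ≤ q)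
    (hq : q ≤ R.n + p.J) (ha : R.C.a k = R.C.a q) (hmg : R.m ≤ g) :
    colp R.Q (fun ω => fl1 (R.C.a k + g) (R.C.t ω)) (R.C.cell k b') ≤ ε := by
  refine le_trans (colp_mono_cond R.Q _ ?_) (time_le h G ha hmg)
  intro x y hx hy e
  obtain ⟨h1, h2, h3⟩ := side h b hkq hq x y hx hy e
  exact H683.cell_side h1 h2 h3

/-- **own slope** -/
theorem cF_le (h : R.Ok p K c' g' gU) {ε : ℝ} {b b' q k g : ℕ} (G : R.Good p ε b q) (hkq : k ≤ q)
    (hq : q ≤ R.n + p.J) (h1 : R.C.rf q < p.QF) (h2 : R.C.rf q < R.rI q + p.B₁)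
    (hfg : R.C.rf q + R.m ≤ R.C.rf k + g) {M : ℕ} (hM : K ≤ M) :
    colp R.Q (fun ω => fl1 (R.C.rf k + g) (slR R.C k b' ω)) (Dp R.C k b') ≤
      Real.sqrt (((2 * M + 3 : ℕ) : ℝ) * ((2 * (M + 1 : ℕ) + 1) * ε)) := by
  refine (H683.colp_slR R.Q (side h b hkq hq) h.ok hM _).trans ?_
  refine Real.sqrt_le_sqrt (mul_le_mul_of_nonneg_left (mul_le_mul_of_nonneg_left ?_ (by positivity))
    (Nat.cast_nonneg _))
  refine le_trans ?_ (G.phi h1 h2)
  refine colp_mono_var R.Q _ ?_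
  intro x y _ _ e
  have h2 : fl1 (R.C.rf k + g) (R.C.p x) = fl1 (R.C.rf k + g) (R.C.p y) := (Prod.mk.inj e).1
  exact fl1_le hfg h2

end side

/-! ### the coordinate `TT` -/

section tt

variable {Ω τ : Type} {C : Pth Ω τ} {K : ℝ} {f js i : ℕ} {ω ω' : Ω}

theorem ag_cN (h : C.Ok K ω) {f i : ℕ} (hfi : f ≤ i) :
    |(C.F i ω).cN (C.l ω) (C.s i ω) - (C.F f ω).cN (C.l ω) (C.s f ω)| ≤ K * q2 (C.rk f) := by
  have h1 := (h.ag f i hfi).cN
  have h2 := Cell.Fu.cN_sh (C.F f ω) (C.l ω) (C.s f ω) (C.s i ω - C.s f ω)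
  rw [show C.s f ω + (C.s i ω - C.s f ω) = C.s i ω by ring] at h2
  rwa [h2] at h1

theorem ag_ka (h : C.Ok K ω) {f i : ℕ} (hfi : f ≤ i) :
    |(C.F i ω).ka - ((C.F f ω).ka - (C.s i ω - C.s f ω) * (C.F f ω).al)| ≤ K * q2 (C.rk f) :=
  (h.ag f i hfi).ka

theorem ag_al (h : C.Ok K ω) {f i : ℕ} (hfi : f ≤ i) :
    |(C.F i ω).al - (C.F f ω).al| * q2 (C.a i) ≤ K * q2 (C.rk f) :=
  (h.ag f i hfi).al

theorem rho_one (h : C.Ok K ω) {f i : ℕ} (hfi : f ≤ i) : |rho C f i ω - 1| ≤ K ^ 2 * q2 (C.rk f) := by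
  have hK := H683.K_one h
  have h1 := ag_cN h hfi
  have h2 := h.n1 i
  have h3 := H683.cN_pos (i := i) h
  unfold rho
  set c := (C.F i ω).cN (C.l ω) (C.s i ω)
  set d := (C.F f ω).cN (C.l ω) (C.s f ω)
  have e : d / c - 1 = -(c - d) / c := by field_simp; ring
  rw [e, abs_div, abs_neg, abs_of_pos h3, div_le_iff₀ h3]
  have h4 : K * q2 (C.rk f) * 1 ≤ K * q2 (C.rk f) * (K * c) :=
    mul_le_mul_of_nonneg_left h2 (by have := q2_pos (C.rk f); positivity)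
  nlinarith

theorem rho_pos (h : C.Ok K ω) (f i : ℕ) : 0 < rho C f i ω :=
  div_pos (H683.cN_pos h) (H683.cN_pos h)

theorem rho_le (h : C.Ok K ω) (f i : ℕ) : rho C f i ω ≤ K ^ 2 := by
  have hK := H683.K_one h
  have h3 := H683.cN_pos (i := i) h
  unfold rho
  rw [div_le_iff₀ h3]
  have h2 := h.n1 i
  have h4 := h.n2 f
  nlinarith

theorem le_rho (h : C.Ok K ω) (f i : ℕ) : 1 ≤ K ^ 2 * rho C f i ω := by
  have hK := H683.K_one h
  have h3 := H683.cN_pos (i := i) h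
  unfold rho
  rw [← mul_div_assoc, le_div_iff₀ h3]
  have h2 := h.n1 f
  have h4 := h.n2 i
  nlinarith

/-- size of `TT` -/
theorem TT_bd (h : C.Ok K ω) {f i : ℕ} (hfi : f ≤ i) : |TT C f i ω| ≤ 2 * K ^ 3 * q2 (C.rk f) := by
  have hK := H683.K_one h
  have h1 := ag_ka h hfi
  have h2 := rho_one h hfi
  have h3 := h.k1 i
  have hq := q2_pos (C.rk f)
  have e : TT C f i ω = (rho C f i ω - 1) * (C.F i ω).ka +
      ((C.F i ω).ka - ((C.F f ω).ka - (C.s i ω - C.s f ω) * (C.F f ω).al)) := by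
    unfold TT; ring
  rw [e]
  refine (abs_add_le _ _).trans ?_
  rw [abs_mul]
  have h4 : |rho C f i ω - 1| * |(C.F i ω).ka| ≤ K ^ 2 * q2 (C.rk f) * K :=
    mul_le_mul h2 h3 (abs_nonneg _) (by positivity)
  have h5 : K * q2 (C.rk f) ≤ K ^ 3 * q2 (C.rk f) := by
    refine mul_le_mul_of_nonneg_right ?_ hq.le
    nlinarith [sq_nonneg K]
  nlinarith

end tt

section rel

variable {Ω τ : Type} {C : Pth Ω τ} {K : ℝ} {f js i : ℕ} {ω ω' : Ω}

/-- the late step against the functional of `W` (`cN`, `κ`, time `tW`) -/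
structure Lat (C : Pth Ω τ) (K δ : ℝ) (i : ℕ) (ω : Ω) (cW κ tW : ℝ) : Prop where
  ca : |cW - (C.F i ω).cN (C.l ω) (C.s i ω)| ≤ K * δ
  kk : |κ - ((C.F i ω).ka - (tW - C.s i ω) * (C.F i ω).al)| ≤ K * δ
  un : |cW ^ 2 * (1 + C.p ω ^ 2) - 1| ≤ K * δ
  tt : |tW - C.s i ω| ≤ q2 (C.a i)

theorem al_late (h : C.Ok K ω) (hfj : f ≤ js) (hji : js ≤ i) (r8 : C.rk f + 8 * C.μ ≤ C.rk js)
    (a8 : C.a js + 8 * C.μ ≤ C.a i) :
    |(C.F i ω).al - (C.F f ω).al| * q2 (C.a i) ≤ 2 * K * q2 (C.rk f + 8 * C.μ) := by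
  have hK := H683.K_one h
  have h1 := ag_al h hji
  have h2 := ag_al h hfj
  have h3 : |(C.F js ω).al - (C.F f ω).al| * q2 (C.a i) ≤ K * q2 (C.rk f + 8 * C.μ) := by
    have e1 : q2 (C.a i) ≤ q2 (C.a js) * q2 (8 * C.μ) := by
      rw [← q2_add]
      exact q2_le a8
    calc |(C.F js ω).al - (C.F f ω).al| * q2 (C.a i)
        ≤ |(C.F js ω).al - (C.F f ω).al| * (q2 (C.a js) * q2 (8 * C.μ)) :=
          mul_le_mul_of_nonneg_left e1 (abs_nonneg _)
      _ = |(C.F js ω).al - (C.F f ω).al| * q2 (C.a js) * q2 (8 * C.μ) := by ring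
      _ ≤ K * q2 (C.rk f) * q2 (8 * C.μ) := mul_le_mul_of_nonneg_right h2 (q2_pos _).le
      _ = K * q2 (C.rk f + 8 * C.μ) := by rw [q2_add]; ring
  have h4 : K * q2 (C.rk js) ≤ K * q2 (C.rk f + 8 * C.μ) :=
    mul_le_mul_of_nonneg_left (q2_le r8) (by linarith)
  have h5 : |(C.F i ω).al - (C.F f ω).al| ≤ |(C.F i ω).al - (C.F js ω).al| + |(C.F js ω).al - (C.F f ω).al| :=
    abs_sub_le _ _ _
  have h6 := mul_le_mul_of_nonneg_right h5 (q2_pos (C.a i)).le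
  rw [add_mul] at h6
  linarith

/-- kappa of the late step -/
theorem ka_late (h : C.Ok K ω) (hfj : f ≤ js) (hji : js ≤ i) (r8 : C.rk f + 8 * C.μ ≤ C.rk js)
    (a8 : C.a js + 8 * C.μ ≤ C.a i) {cW κ tW : ℝ}
    (L : Lat C K (q2 (C.rk f + 8 * C.μ)) i ω cW κ tW) :
    |(C.F i ω).ka - (κ + (tW - C.s i ω) * (C.F f ω).al)| ≤ 3 * K * q2 (C.rk f + 8 * C.μ) := by
  have h1 := al_late h hfj hji r8 a8
  have h2 := L.kk
  have h3 := L.tt
  have h4 : |(tW - C.s i ω) * ((C.F i ω).al - (C.F f ω).al)| ≤ 2 * K * q2 (C.rk f + 8 * C.μ) := by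
    rw [abs_mul]
    calc |tW - C.s i ω| * |(C.F i ω).al - (C.F f ω).al| ≤ q2 (C.a i) * |(C.F i ω).al - (C.F f ω).al| :=
          mul_le_mul_of_nonneg_right h3 (abs_nonneg _)
      _ = |(C.F i ω).al - (C.F f ω).al| * q2 (C.a i) := by ring
      _ ≤ _ := h1
  have e : (C.F i ω).ka - (κ + (tW - C.s i ω) * (C.F f ω).al) =
      -(κ - ((C.F i ω).ka - (tW - C.s i ω) * (C.F i ω).al)) +
        (tW - C.s i ω) * ((C.F i ω).al - (C.F f ω).al) := by ring
  rw [e]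
  refine (abs_add_le _ _).trans ?_
  rw [abs_neg]
  linarith

/-- the normalisations of two late steps -/
theorem cN_late (h : C.Ok K ω) (h' : C.Ok K ω') {δ : ℝ} (hδ0 : 0 ≤ δ) (hδ : 2 * K ^ 2 * δ ≤ 1)
    (hp : |C.p ω - C.p ω'| ≤ δ) {cW κ tW cW' κ' tW' : ℝ} (L : Lat C K δ i ω cW κ tW)
    (L' : Lat C K δ i ω' cW' κ' tW') :
    |(C.F i ω).cN (C.l ω) (C.s i ω) - (C.F i ω').cN (C.l ω') (C.s i ω')| ≤ 8 * K ^ 2 * δ := by
  have hK := H683.K_one h
  have a1 := h.n1 i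
  have a2 := h'.n1 i
  have b1 := L.ca
  have b2 := L'.ca
  have hp1 : |C.p ω| ≤ 1 := h.p1.trans (by
    have := q2_le (Nat.zero_le (2 * C.μ))
    unfold q2 at this ⊢
    simpa using this)
  have hp2 : |C.p ω'| ≤ 1 := h'.p1.trans (by
    have := q2_le (Nat.zero_le (2 * C.μ))
    unfold q2 at this ⊢
    simpa using this)
  have u1 := L.un
  have u2 := L'.un
  set c := (C.F i ω).cN (C.l ω) (C.s i ω)
  set c' := (C.F i ω').cN (C.l ω') (C.s i ω')
  set x := C.p ω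
  set y := C.p ω'
  have hKδ : K * δ ≤ 1 / 2 := by nlinarith
  have hK2 : K * (K * δ) ≤ 1 / 2 := by nlinarith
  rw [abs_le] at b1 b2 u1 u2 hp1 hp2
  -- lower bound of `cW + cW'`
  have k1 : 1 / 2 ≤ K * cW := by
    have := mul_le_mul_of_nonneg_left b1.1 (by linarith : 0 ≤ K)
    nlinarith
  have k2 : 1 / 2 ≤ K * cW' := by
    have := mul_le_mul_of_nonneg_left b2.1 (by linarith : 0 ≤ K)
    nlinarith
  have hcW : 0 < cW := by
    by_contra hcon
    push Not at hcon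
    have := mul_nonpos_of_nonneg_of_nonpos (by linarith : 0 ≤ K) hcon
    linarith
  have hcW' : 0 < cW' := by
    by_contra hcon
    push Not at hcon
    have := mul_nonpos_of_nonneg_of_nonpos (by linarith : 0 ≤ K) hcon
    linarith
  have k3 : cW' ^ 2 ≤ 2 := by
    have : cW' ^ 2 * 1 ≤ cW' ^ 2 * (1 + y ^ 2) := mul_le_mul_of_nonneg_left (by nlinarith [sq_nonneg y]) (sq_nonneg _)
    linarith
  -- difference of the squares
  have k4 : |x ^ 2 - y ^ 2| ≤ 2 * δ := by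
    have e : x ^ 2 - y ^ 2 = (x - y) * (x + y) := by ring
    rw [e, abs_mul]
    have h1 : |x + y| ≤ 2 := by rw [abs_le]; constructor <;> linarith
    calc |x - y| * |x + y| ≤ δ * 2 := mul_le_mul hp h1 (abs_nonneg _) hδ0
      _ = 2 * δ := by ring
  have k5 : |cW ^ 2 - cW' ^ 2| ≤ 6 * K * δ := by
    have e : (cW ^ 2 - cW' ^ 2) * (1 + x ^ 2) = (cW ^ 2 * (1 + x ^ 2) - 1) - (cW' ^ 2 * (1 + y ^ 2) - 1) -
        cW' ^ 2 * (x ^ 2 - y ^ 2) := by ring
    have h1 : |(cW ^ 2 - cW' ^ 2) * (1 + x ^ 2)| ≤ 6 * K * δ := by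
      rw [e]
      have g1 : |cW' ^ 2 * (x ^ 2 - y ^ 2)| ≤ 2 * (2 * δ) := by
        rw [abs_mul, abs_of_nonneg (sq_nonneg _)]
        exact mul_le_mul k3 k4 (abs_nonneg _) (by norm_num)
      have g2 := abs_le.1 g1
      have g3 : δ ≤ K * δ := by nlinarith
      rw [abs_le]
      constructor <;> linarith
    rw [abs_mul, abs_of_pos (by positivity : (0 : ℝ) < 1 + x ^ 2)] at h1
    have h2 : |cW ^ 2 - cW' ^ 2| * 1 ≤ |cW ^ 2 - cW' ^ 2| * (1 + x ^ 2) :=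
      mul_le_mul_of_nonneg_left (by nlinarith [sq_nonneg x]) (abs_nonneg _)
    linarith
  have k6 : |cW - cW'| ≤ 6 * K ^ 2 * δ := by
    have e : cW ^ 2 - cW' ^ 2 = (cW - cW') * (cW + cW') := by ring
    rw [e, abs_mul, abs_of_pos (by linarith : 0 < cW + cW')] at k5
    have h1 : |cW - cW'| * 1 ≤ |cW - cW'| * (K * (cW + cW')) :=
      mul_le_mul_of_nonneg_left (by linarith) (abs_nonneg _)
    have h2 := mul_le_mul_of_nonneg_left k5 (by linarith : 0 ≤ K)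
    nlinarith
  have k7 := abs_le.1 k6
  have k8 : K * δ ≤ K ^ 2 * δ := by nlinarith
  rw [abs_le]
  constructor <;> linarith

/-- **`TT` is affine in `(κ, t)` given the ray, `T f` and the own slope** -/
theorem TT_rel (h : C.Ok K ω) (h' : C.Ok K ω') (hfj : f ≤ js) (hji : js ≤ i)
    (r8 : C.rk f + 8 * C.μ ≤ C.rk js) (a8 : C.a js + 8 * C.μ ≤ C.a i)
    (hδ : 2 * K ^ 2 * q2 (C.rk f + 8 * C.μ) ≤ 1) (hl : C.l ω = C.l ω') (hT : C.T f ω = C.T f ω')
    (hp : |C.p ω - C.p ω'| ≤ q2 (C.rk f + 8 * C.μ)) {cW κ tW cW' κ' tW' : ℝ}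
    (L : Lat C K (q2 (C.rk f + 8 * C.μ)) i ω cW κ tW) (L' : Lat C K (q2 (C.rk f + 8 * C.μ)) i ω' cW' κ' tW') :
    |TT C f i ω' - TT C f i ω - (rho C f i ω * (κ' - κ) + (C.F f ω).al * (tW' - tW))| ≤
      16 * K ^ 6 * q2 (C.rk f + 8 * C.μ) := by
  have hK := H683.K_one h
  have hfi : f ≤ i := hfj.trans hji
  set δ := q2 (C.rk f + 8 * C.μ) with hδd
  have hδ0 : 0 < δ := q2_pos _
  -- the early step is common
  have hs : C.s f ω = C.s f ω' := H683.s_T hT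
  have hcf : (C.F f ω).cN (C.l ω) (C.s f ω) = (C.F f ω').cN (C.l ω') (C.s f ω') := by
    show C.ga f (C.T f ω) - C.ka f (C.T f ω) * (C.l ω).w - C.al f (C.T f ω) * (C.l ω).N (C.s f ω) =
      C.ga f (C.T f ω') - C.ka f (C.T f ω') * (C.l ω').w - C.al f (C.T f ω') * (C.l ω').N (C.s f ω')
    rw [hT, hl, hs]
  have hkf : (C.F f ω').ka = (C.F f ω).ka := by
    show C.ka f (C.T f ω') = C.ka f (C.T f ω)
    rw [hT]
  have haf : (C.F f ω').al = (C.F f ω).al := by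
    show C.al f (C.T f ω') = C.al f (C.T f ω)
    rw [hT]
  have e1 := ka_late h hfj hji r8 a8 L
  have e2 := ka_late h' hfj hji r8 a8 L'
  rw [haf] at e2
  have e3 := cN_late h h' hδ0.le hδ hp L L'
  -- `rho`
  have c0 := H683.cN_pos (i := i) h
  have c0' := H683.cN_pos (i := i) h'
  have d0 := H683.cN_pos (i := f) h
  have d1 := h.n2 f
  have n1 := h.n1 i
  have n1' := h'.n1 i
  have r1 : |rho C f i ω' - rho C f i ω| ≤ 8 * K ^ 5 * δ := by
    unfold rho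
    rw [← hcf]
    set d := (C.F f ω).cN (C.l ω) (C.s f ω)
    set c := (C.F i ω).cN (C.l ω) (C.s i ω)
    set c' := (C.F i ω').cN (C.l ω') (C.s i ω')
    have e : d / c' - d / c = d * (c - c') / (c * c') := by field_simp
    rw [e, abs_div, abs_mul, abs_of_pos d0, abs_of_pos (mul_pos c0 c0'), div_le_iff₀ (mul_pos c0 c0')]
    have g1 : d * |c - c'| ≤ K * (8 * K ^ 2 * δ) := mul_le_mul d1 e3 (abs_nonneg _) (by linarith)
    have g2 : 1 ≤ K ^ 2 * (c * c') := by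
      have : 1 * 1 ≤ (K * c) * (K * c') := mul_le_mul n1 n1' zero_le_one (by positivity)
      nlinarith
    have g3 : 8 * K ^ 3 * δ * 1 ≤ 8 * K ^ 3 * δ * (K ^ 2 * (c * c')) :=
      mul_le_mul_of_nonneg_left g2 (by positivity)
    nlinarith
  have r2 := rho_le h f i
  have r3 := rho_pos h f i
  have r4 := rho_one h hfi
  have k1 := h'.k1 i
  -- the frame at the late time
  have t1 := L.tt
  have t2 := L'.tt
  have s1 : |(rho C f i ω - 1) * ((C.F f ω).al * ((tW' - C.s i ω') - (tW - C.s i ω)))| ≤ 2 * K ^ 3 * δ := by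
    rw [abs_mul, abs_mul]
    have g1 : |(tW' - C.s i ω') - (tW - C.s i ω)| ≤ 2 * q2 (C.a i) := by
      refine (abs_sub _ _).trans ?_
      linarith
    have g2 : |(C.F f ω).al| * (2 * q2 (C.a i)) ≤ 2 * K * q2 (8 * C.μ) := by
      have f1 := h.a1 f
      have f2 : q2 (C.a i) ≤ q2 (C.a f) * q2 (8 * C.μ) := by
        rw [← q2_add]
        exact q2_le (by have := C.ha hfj; omega)
      calc |(C.F f ω).al| * (2 * q2 (C.a i)) ≤ |(C.F f ω).al| * (2 * (q2 (C.a f) * q2 (8 * C.μ))) :=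
            mul_le_mul_of_nonneg_left (by linarith) (abs_nonneg _)
        _ = 2 * (|(C.F f ω).al| * q2 (C.a f)) * q2 (8 * C.μ) := by ring
        _ ≤ 2 * K * q2 (8 * C.μ) := mul_le_mul_of_nonneg_right (by linarith) (q2_pos _).le
    have g3 : |(C.F f ω).al| * |(tW' - C.s i ω') - (tW - C.s i ω)| ≤ 2 * K * q2 (8 * C.μ) :=
      (mul_le_mul_of_nonneg_left g1 (abs_nonneg _)).trans g2
    calc |rho C f i ω - 1| * (|(C.F f ω).al| * |(tW' - C.s i ω') - (tW - C.s i ω)|)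
        ≤ K ^ 2 * q2 (C.rk f) * (2 * K * q2 (8 * C.μ)) :=
          mul_le_mul r4 g3 (by positivity) (by have := q2_pos (C.rk f); positivity)
      _ = 2 * K ^ 3 * δ := by rw [hδd, q2_add]; ring
  have s2 : |rho C f i ω * (((C.F i ω').ka - (κ' + (tW' - C.s i ω') * (C.F f ω).al)) -
      ((C.F i ω).ka - (κ + (tW - C.s i ω) * (C.F f ω).al)))| ≤ 6 * K ^ 3 * δ := by
    rw [abs_mul, abs_of_pos r3]
    have g1 : |((C.F i ω').ka - (κ' + (tW' - C.s i ω') * (C.F f ω).al)) -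
      ((C.F i ω).ka - (κ + (tW - C.s i ω) * (C.F f ω).al))| ≤ 6 * K * δ := by
      refine (abs_sub _ _).trans ?_
      linarith
    calc _ ≤ K ^ 2 * (6 * K * δ) := mul_le_mul r2 g1 (abs_nonneg _) (by positivity)
      _ = 6 * K ^ 3 * δ := by ring
  have s3 : |(rho C f i ω' - rho C f i ω) * (C.F i ω').ka| ≤ 8 * K ^ 6 * δ := by
    rw [abs_mul]
    calc _ ≤ 8 * K ^ 5 * δ * K := mul_le_mul r1 k1 (abs_nonneg _) (by positivity)
      _ = 8 * K ^ 6 * δ := by ring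
  have e : TT C f i ω' - TT C f i ω - (rho C f i ω * (κ' - κ) + (C.F f ω).al * (tW' - tW)) =
      (rho C f i ω - 1) * ((C.F f ω).al * ((tW' - C.s i ω') - (tW - C.s i ω))) +
      rho C f i ω * (((C.F i ω').ka - (κ' + (tW' - C.s i ω') * (C.F f ω).al)) -
        ((C.F i ω).ka - (κ + (tW - C.s i ω) * (C.F f ω).al))) +
      (rho C f i ω' - rho C f i ω) * (C.F i ω').ka := by
    unfold TT
    rw [hkf, haf, ← hs]
    ring
  rw [e]
  have k3 : K ^ 3 ≤ K ^ 6 := pow_le_pow_right₀ hK (by norm_num)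
  have k4 := mul_le_mul_of_nonneg_right k3 hδ0.le
  refine (abs_add_le _ _).trans ?_
  have := abs_add_le ((rho C f i ω - 1) * ((C.F f ω).al * ((tW' - C.s i ω') - (tW - C.s i ω))))
    (rho C f i ω * (((C.F i ω').ka - (κ' + (tW' - C.s i ω') * (C.F f ω).al)) -
        ((C.F i ω).ka - (κ + (tW - C.s i ω) * (C.F f ω).al))))
  linarith

end rel

/-! ### three copies -/

section strip

theorem strip_real {Sa Sa' Ta Ta' S T σ δ₂ B₂ : ℝ} (hσ : 0 < σ) (hS : σ ≤ |Sa - Sa'|) (hT : |Ta - Ta'| ≤ B₂)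
    (hd : |(Sa - S) * (Ta' - T) - (Sa' - S) * (Ta - T)| ≤ δ₂) :
    |T - (Ta + (Ta' - Ta) / (Sa' - Sa) * (S - Sa))| ≤ δ₂ / σ ∧ |(Ta' - Ta) / (Sa' - Sa)| ≤ B₂ / σ := by
  have hS' : σ ≤ |Sa' - Sa| := by rwa [abs_sub_comm]
  have h0 : 0 < |Sa' - Sa| := hσ.trans_le hS'
  have h1 : Sa' - Sa ≠ 0 := abs_pos.1 h0
  constructor
  · rw [le_div_iff₀ hσ]
    have e : (Sa - S) * (Ta' - T) - (Sa' - S) * (Ta - T) =
        (Sa' - Sa) * (T - (Ta + (Ta' - Ta) / (Sa' - Sa) * (S - Sa))) := by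
      field_simp
      ring
    rw [e, abs_mul] at hd
    have h2 := mul_le_mul_of_nonneg_right hS' (abs_nonneg (T - (Ta + (Ta' - Ta) / (Sa' - Sa) * (S - Sa))))
    linarith
  · rw [abs_div, abs_sub_comm Ta' Ta]
    exact div_le_div₀ ((abs_nonneg _).trans hT) hT hσ hS'

/-- from the line through two copies to a line of the plane `(t, κ)` -/
theorem strip_line {Sa Sa' Ta Ta' S T T0 σ δ₂ B₂ ρ al κ κ0 t t0 u v η θ Kr : ℝ} (hσ : 0 < σ) (hS : σ ≤ |Sa - Sa'|)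
    (hT : |Ta - Ta'| ≤ B₂) (hd : |(Sa - S) * (Ta' - T) - (Sa' - S) * (Ta - T)| ≤ δ₂) (hu : 0 < u) (hρ : 0 < ρ)
    (hKr : 1 ≤ Kr * (u * ρ)) (hrel : |T - T0 - u * (ρ * (κ - κ0) + al * (t - t0))| ≤ η) (hSt : |S - v * t| ≤ θ)
    (hB : 0 ≤ B₂) :
    |κ - ((Ta - (Ta' - Ta) / (Sa' - Sa) * Sa - T0 + u * (ρ * κ0 + al * t0)) / (u * ρ) +
      ((Ta' - Ta) / (Sa' - Sa) * v - u * al) / (u * ρ) * t)| ≤ Kr * (δ₂ / σ + η + B₂ / σ * θ) := by
  obtain ⟨h1, h2⟩ := strip_real hσ hS hT hd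
  set B := (Ta' - Ta) / (Sa' - Sa)
  have huρ : 0 < u * ρ := mul_pos hu hρ
  have e : κ - ((Ta - B * Sa - T0 + u * (ρ * κ0 + al * t0)) / (u * ρ) + (B * v - u * al) / (u * ρ) * t) =
      ((T - (Ta + B * (S - Sa))) - (T - T0 - u * (ρ * (κ - κ0) + al * (t - t0))) + B * (S - v * t)) / (u * ρ) := by
    field_simp
    ring
  rw [e, abs_div, abs_of_pos huρ, div_le_iff₀ huρ]
  have h3 : |B * (S - v * t)| ≤ B₂ / σ * θ := by
    rw [abs_mul]
    exact mul_le_mul h2 hSt (abs_nonneg _) (div_nonneg hB hσ.le)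
  have h4 : |(T - (Ta + B * (S - Sa))) - (T - T0 - u * (ρ * (κ - κ0) + al * (t - t0))) + B * (S - v * t)| ≤
      δ₂ / σ + η + B₂ / σ * θ := by
    refine (abs_add_le _ _).trans ?_
    have := abs_sub (T - (Ta + B * (S - Sa))) (T - T0 - u * (ρ * (κ - κ0) + al * (t - t0)))
    linarith
  have h5 : 0 ≤ δ₂ / σ + η + B₂ / σ * θ := (abs_nonneg _).trans h4
  have h6 : (δ₂ / σ + η + B₂ / σ * θ) * 1 ≤ (δ₂ / σ + η + B₂ / σ * θ) * (Kr * (u * ρ)) :=
    mul_le_mul_of_nonneg_left hKr h5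
  nlinarith

end strip

section line

variable {Ω : Type} [Fintype Ω] {τ υ : Type} {R : Run Ω τ υ} {p : Run.Num} {K c' g' gU : ℝ}

/-- the late step against `W` -/
theorem lat (h : R.Ok p K c' g' gU) {δ : ℝ} {i : ℕ} (hi : i ≤ R.n) (hδ : q2 (R.C.rk i) ≤ δ) {ω : Ω}
    (hω : 0 < R.Q.w ω) :
    Lat R.C K δ i ω ((R.FW ω).cN (R.C.l ω) (R.tW ω)) (R.κ ω) (R.tW ω) := by
  have hK := H683.K_one (h.ok ω hω)
  have hA := h.agW ω hω i hi
  have hKδ : K * q2 (R.C.rk i) ≤ K * δ := mul_le_mul_of_nonneg_left hδ (by linarith)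
  refine ⟨?_, ?_, ?_, ?_⟩
  · have h1 := hA.cN
    have h2 := Cell.Fu.cN_sh (R.C.F i ω) (R.C.l ω) (R.C.s i ω) (R.tW ω - R.C.s i ω)
    rw [show R.C.s i ω + (R.tW ω - R.C.s i ω) = R.tW ω by ring] at h2
    rw [h2] at h1
    exact h1.trans hKδ
  · exact hA.ka.trans hKδ
  · have h1 := h.FWn ω hω
    rw [← h.Cp ω hω] at h1
    have e : ((R.FW ω).cN (R.C.l ω) (R.tW ω)) ^ 2 * (1 + R.C.p ω ^ 2) - 1 =
        ((R.FW ω).cN (R.C.l ω) (R.tW ω)) ^ 2 + (R.C.p ω * (R.FW ω).cN (R.C.l ω) (R.tW ω)) ^ 2 - 1 := by ring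
    rw [e]
    refine h1.trans (le_trans (mul_le_mul_of_nonneg_left (q2_le ?_) (by linarith)) hKδ)
    have h2 := h.pth.rF
    have h3 := h.pth.leF i (by omega)
    have h4 := R.C.hkf i
    omega
  · have ha : R.C.a i ≤ R.h := (R.C.ha (by omega)).trans h.pth.rA
    unfold Run.tW Pth.s
    rw [h.Ct]
    have h1 := rd_le R.h (R.t ω)
    have h2 := lt_rd R.h (R.t ω)
    have h3 := rd_le (R.C.a i) (R.t ω)
    have h4 := lt_rd (R.C.a i) (R.t ω)
    have h5 := q2_le ha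
    rw [abs_le]
    constructor <;> linarith

theorem S_tW (h : R.Ok p K c' g' gU) {i k e : ℕ} (hi : i ≤ R.n) (hke : R.C.a k + e ≤ R.C.a i) {ω : Ω}
    (hω : 0 < R.Q.w ω) : |2 ^ R.C.a k * R.C.s i ω - 2 ^ R.C.a k * R.tW ω| ≤ q2 e := by
  have h1 := (lat h hi le_rfl hω).tt
  rw [← mul_sub, abs_mul, abs_of_pos (by positivity), abs_sub_comm]
  calc (2 : ℝ) ^ R.C.a k * |R.tW ω - R.C.s i ω| ≤ 2 ^ R.C.a k * q2 (R.C.a k + e) :=
        mul_le_mul_of_nonneg_left (h1.trans (q2_le hke)) (by positivity)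
    _ = q2 e := by rw [q2_add, ← mul_assoc, q2_mul_pow, one_mul]

/-- copies which are close in time -/
theorem near_time {i k g : ℕ} (hke : R.C.a k + g ≤ R.C.a i) {ω ω' : Ω}
    (hS : |2 ^ R.C.a k * (R.C.s i ω' - R.C.s i ω)| < q2 g) :
    |fl1 (R.C.a k + g) (R.C.t ω) - fl1 (R.C.a k + g) (R.C.t ω')| ≤ ((4 : ℕ) : ℤ) := by
  have h1 : |R.C.s i ω' - R.C.s i ω| ≤ q2 (R.C.a k + g) := by
    rw [abs_mul, abs_of_pos (by positivity)] at hS
    have h2 : (0 : ℝ) < 2 ^ R.C.a k := by positivity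
    have h3 : (2 : ℝ) ^ R.C.a k * |R.C.s i ω' - R.C.s i ω| ≤ 2 ^ R.C.a k * q2 (R.C.a k + g) := by
      rw [q2_add, ← mul_assoc, q2_mul_pow, one_mul]
      exact hS.le
    exact le_of_mul_le_mul_left h3 h2
  have a1 := rd_le (R.C.a i) (R.C.t ω)
  have a2 := lt_rd (R.C.a i) (R.C.t ω)
  have a3 := rd_le (R.C.a i) (R.C.t ω')
  have a4 := lt_rd (R.C.a i) (R.C.t ω')
  have a5 := q2_le hke
  have h4 : |R.C.t ω - R.C.t ω'| ≤ (3 : ℕ) * q2 (R.C.a k + g) := by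
    unfold Pth.s at h1
    rw [abs_le] at h1 ⊢
    push_cast
    constructor <;> linarith [h1.1, h1.2]
  have := H364.fl1_le_of_near h4
  push_cast at this ⊢
  linarith

/-- **three copies given the cell are not collinear** -/
theorem cL_le (h : R.Ok p K c' g' gU) {ε : ℝ} {b b0 q k f js i g : ℕ} (G : R.Good p ε b0 q) (hkq : k ≤ q)
    (hq : q ≤ R.n + p.J) (hfk : f ≤ k) (hrk : R.C.rk f = R.C.rk k) (hkj : k ≤ js) (hji : js ≤ i) (hi : i ≤ R.n)
    (ha : R.C.a k = R.C.a q) (hmg : R.m ≤ g) (hg8 : g ≤ 8 * R.C.μ) (hline : R.rI q < R.C.rf q)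
    (r8 : R.C.rk k + 8 * R.C.μ ≤ R.C.rk js) (a8 : R.C.a js + 8 * R.C.μ ≤ R.C.a i)
    (hδ : 2 * K ^ 2 * q2 (R.C.rk k + 8 * R.C.μ) ≤ 1) (hrf : R.C.rk k + 8 * R.C.μ ≤ R.C.rf q)
    (hw : K ^ 2 * (q2 g + 16 * K ^ 6 * q2 (8 * R.C.μ) + 4 * K ^ 3 * 2 ^ g * q2 (8 * R.C.μ)) * q2 (R.C.rk k) ≤
      q2 (R.rI q + R.m)) :
    H25.av3 R.Q (R.C.cell k b) (fun ω a a' => Law.ind (¬ q2 (2 * g) ≤
      |2 ^ R.C.a k * (R.C.s i a - R.C.s i ω) * (2 ^ R.C.rk k * (TT R.C f i a' - TT R.C f i ω)) -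
        2 ^ R.C.a k * (R.C.s i a' - R.C.s i ω) * (2 ^ R.C.rk k * (TT R.C f i a - TT R.C f i ω))|)) ≤ 10 * ε := by
  classical
  set P := R.Q with hP
  set D : Ω → τ × Pth.Dg := R.C.cell k b with hD
  set Y : Ω → (Ry × υ) × (τ × Pth.Dg) := fun ω => (R.Z q ω, R.C.cell q b0 ω) with hY
  set S : Ω → ℝ := fun ω => 2 ^ R.C.a k * R.C.s i ω with hS
  set T : Ω → ℝ := fun ω => 2 ^ R.C.rk k * TT R.C f i ω with hT
  have hfi : f ≤ i := hfk.trans (hkj.trans hji)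
  obtain ⟨ω₀, h₀⟩ : ∃ ω, 0 < P.w ω := by
    by_contra hcon
    push Not at hcon
    have : ∑ ω, P.w ω ≤ 0 := Finset.sum_nonpos fun ω _ => hcon ω
    rw [P.sum_one] at this
    linarith
  have hK : 1 ≤ K := H683.K_one (h.ok ω₀ h₀)
  have hε0 : 0 ≤ ε := (colp_nonneg P _ _).trans G.time
  -- the event
  let E : Ω × Ω → Ω → Prop := fun pr ω => q2 g ≤ |S pr.1 - S pr.2| ∧ |T pr.1 - T pr.2| ≤ 4 * K ^ 3 ∧
    |(S pr.1 - S ω) * (T pr.2 - T ω) - (S pr.2 - S ω) * (T pr.1 - T ω)| ≤ q2 (2 * g)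
  have hTb : ∀ ω, 0 < P.w ω → |T ω| ≤ 2 * K ^ 3 := by
    intro ω hω
    have h1 := TT_bd (h.ok ω hω) hfi
    rw [hrk] at h1
    simp only [hT]
    rw [abs_mul, abs_of_pos (by positivity)]
    calc (2 : ℝ) ^ R.C.rk k * |TT R.C f i ω| ≤ 2 ^ R.C.rk k * (2 * K ^ 3 * q2 (R.C.rk k)) :=
          mul_le_mul_of_nonneg_left h1 (by positivity)
      _ = 2 * K ^ 3 * (2 ^ R.C.rk k * q2 (R.C.rk k)) := by ring
      _ = 2 * K ^ 3 := by rw [q2_mul_pow, mul_one]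
  -- pointwise bound
  have hpt : H25.av3 P D (fun ω a a' => Law.ind (¬ q2 (2 * g) ≤
      |2 ^ R.C.a k * (R.C.s i a - R.C.s i ω) * (2 ^ R.C.rk k * (TT R.C f i a' - TT R.C f i ω)) -
        2 ^ R.C.a k * (R.C.s i a' - R.C.s i ω) * (2 ^ R.C.rk k * (TT R.C f i a - TT R.C f i ω))|)) ≤
      H683.avc P D (Fin 2) (Fin 3) (fun ω z _ => Law.ind (|fl1 (R.C.a k + g) (R.C.t ω) -
        fl1 (R.C.a k + g) (R.C.t (z 0))| ≤ ((4 : ℕ) : ℤ)) + Law.ind (E (ω, z 0) (z 1))) := by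
    rw [← H25.avc_azz]
    refine H683.avc_mono P D fun ω z y hω hz _ => ?_
    have n1 := H683.lind_nonneg (|fl1 (R.C.a k + g) (R.C.t ω) - fl1 (R.C.a k + g) (R.C.t (z 0))| ≤ ((4 : ℕ) : ℤ))
    have n2 := H683.lind_nonneg (E (ω, z 0) (z 1))
    by_cases hcase : q2 (2 * g) ≤
      |2 ^ R.C.a k * (R.C.s i (z 0) - R.C.s i ω) * (2 ^ R.C.rk k * (TT R.C f i (z 1) - TT R.C f i ω)) -
        2 ^ R.C.a k * (R.C.s i (z 1) - R.C.s i ω) * (2 ^ R.C.rk k * (TT R.C f i (z 0) - TT R.C f i ω))|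
    · rw [Law.ind_not (not_not.2 hcase)]
      linarith
    · rw [Law.ind_of hcase]
      push Not at hcase
      by_cases hnear : |2 ^ R.C.a k * (R.C.s i (z 0) - R.C.s i ω)| < q2 g
      · have h1 := near_time (by have := R.C.ha hkj; omega) hnear
        rw [Law.ind_of h1]
        linarith
      · push Not at hnear
        have hE : E (ω, z 0) (z 1) := by
          refine ⟨?_, ?_, ?_⟩
          · show q2 g ≤ |2 ^ R.C.a k * R.C.s i ω - 2 ^ R.C.a k * R.C.s i (z 0)|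
            rw [abs_sub_comm, ← mul_sub]
            exact hnear
          · have h1 := hTb ω hω
            have h2 := hTb (z 0) (hz 0).1
            have h3 := abs_sub (T ω) (T (z 0))
            show |T ω - T (z 0)| ≤ _
            linarith
          · refine le_trans (le_of_eq ?_) hcase.le
            simp only [hS, hT]
            congr 1
            ring
        rw [Law.ind_of hE]
        linarith
  refine hpt.trans ?_
  rw [H683.avc_add]
  have hA : H683.avc P D (Fin 2) (Fin 3) (fun ω z _ => Law.ind (|fl1 (R.C.a k + g) (R.C.t ω) -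
      fl1 (R.C.a k + g) (R.C.t (z 0))| ≤ ((4 : ℕ) : ℤ))) ≤ 9 * ε := by
    rw [H683.avc_z P D (0 : Fin 2) (fun ω ω' => Law.ind (|fl1 (R.C.a k + g) (R.C.t ω) -
      fl1 (R.C.a k + g) (R.C.t ω')| ≤ ((4 : ℕ) : ℤ)))]
    have h1 := pair_near_le P (fun ω => fl1 (R.C.a k + g) (R.C.t ω)) D 4
    have h2 := cT_cell h G (b' := b) hkq hq ha hmg
    refine h1.trans ?_
    push_cast
    linarith
  have hB : H683.avc P D (Fin 2) (Fin 3) (fun ω z _ => Law.ind (E (ω, z 0) (z 1))) ≤ ε := by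
    refine (Frm.avc_line P E D (fun _ x y => (x, y)) (by decide : (0 : Fin 2) ≠ 1)).trans ?_
    refine Frm.nl_le P E D hε0 fun s => ?_
    rw [← Frm.prE_ex]
    -- the line
    let x : (Ry × υ) × (τ × Pth.Dg) → ℝ × ℝ := fun y =>
      if hy : ∃ ω, 0 < P.w ω ∧ Y ω = y then
        ((T (s (D hy.choose)).1 - (T (s (D hy.choose)).2 - T (s (D hy.choose)).1) /
            (S (s (D hy.choose)).2 - S (s (D hy.choose)).1) * S (s (D hy.choose)).1 - T hy.choose +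
            2 ^ R.C.rk k * (rho R.C f i hy.choose * R.κ hy.choose + (R.C.F f hy.choose).al * R.tW hy.choose)) /
            (2 ^ R.C.rk k * rho R.C f i hy.choose),
          ((T (s (D hy.choose)).2 - T (s (D hy.choose)).1) / (S (s (D hy.choose)).2 - S (s (D hy.choose)).1) *
            2 ^ R.C.a k - 2 ^ R.C.rk k * (R.C.F f hy.choose).al) / (2 ^ R.C.rk k * rho R.C f i hy.choose))
      else (0, 0)
    have hline := G.line hline x
    refine le_trans ?_ hline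
    rw [Frm.prE_ex, Frm.prE_ex]
    refine P.ex_mono fun ω hω => ?_
    by_cases hE : E (s (D ω)) ω
    · have hy : ∃ ω', 0 < P.w ω' ∧ Y ω' = Y ω := ⟨ω, hω, rfl⟩
      obtain ⟨w1, w2⟩ := hy.choose_spec
      have hx : x (Y ω) = ((T (s (D hy.choose)).1 - (T (s (D hy.choose)).2 - T (s (D hy.choose)).1) /
            (S (s (D hy.choose)).2 - S (s (D hy.choose)).1) * S (s (D hy.choose)).1 - T hy.choose +
            2 ^ R.C.rk k * (rho R.C f i hy.choose * R.κ hy.choose + (R.C.F f hy.choose).al * R.tW hy.choose)) /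
            (2 ^ R.C.rk k * rho R.C f i hy.choose),
          ((T (s (D hy.choose)).2 - T (s (D hy.choose)).1) / (S (s (D hy.choose)).2 - S (s (D hy.choose)).1) *
            2 ^ R.C.a k - 2 ^ R.C.rk k * (R.C.F f hy.choose).al) / (2 ^ R.C.rk k * rho R.C f i hy.choose)) := by
        simp only [x]
        rw [dif_pos hy]
      generalize hy.choose = ω1 at w1 w2 hx
      obtain ⟨f1, f2, f3⟩ := side h b0 hkq hq ω1 ω w1 hω w2
      have hDD : D ω1 = D ω := H683.cell_side f1 f2 f3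
      have hTf : R.C.T f ω1 = R.C.T f ω := H683.T_mono hfk f2
      have hpp : |R.C.p ω1 - R.C.p ω| ≤ q2 (R.C.rk f + 8 * R.C.μ) := by
        have h1 := h.Uf q hq ω1 ω w1 hω (congrArg Prod.fst w2)
        refine (H683.near_fl1 h1).trans (q2_le ?_)
        rw [hrk]
        exact hrf
      have hri : q2 (R.C.rk i) ≤ q2 (R.C.rk f + 8 * R.C.μ) := q2_le (by
        have := R.C.hk hji
        omega)
      have hrel := TT_rel (h.ok ω1 w1) (h.ok ω hω) (hfk.trans hkj) hji (by rw [hrk]; exact r8) a8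
        (by rw [hrk]; exact hδ) f1 hTf hpp (lat h hi hri w1) (lat h hi hri hω)
      rw [hDD] at hx
      have hE' := hE
      obtain ⟨e1, e2, e3⟩ := hE'
      have hq0 := q2_pos (8 * R.C.μ)
      have hres := strip_line (Sa := S (s (D ω)).1) (Sa' := S (s (D ω)).2) (Ta := T (s (D ω)).1)
        (Ta' := T (s (D ω)).2) (S := S ω) (T := T ω) (T0 := T ω1) (σ := q2 g) (δ₂ := q2 (2 * g))
        (B₂ := 4 * K ^ 3) (ρ := rho R.C f i ω1) (al := (R.C.F f ω1).al) (κ := R.κ ω) (κ0 := R.κ ω1)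
        (t := R.tW ω) (t0 := R.tW ω1) (u := 2 ^ R.C.rk k) (v := 2 ^ R.C.a k)
        (η := 16 * K ^ 6 * q2 (8 * R.C.μ)) (θ := q2 (8 * R.C.μ)) (Kr := K ^ 2 * q2 (R.C.rk k)) (q2_pos g) e1 e2 e3
        (by positivity) (rho_pos (h.ok ω1 w1) f i) (by
          have h1 := le_rho (h.ok ω1 w1) f i
          calc (1 : ℝ) ≤ K ^ 2 * rho R.C f i ω1 := h1
            _ = K ^ 2 * rho R.C f i ω1 * (2 ^ R.C.rk k * q2 (R.C.rk k)) := by rw [q2_mul_pow, mul_one]
            _ = _ := by ring)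
        (by
          simp only [hT]
          have e : (2 : ℝ) ^ R.C.rk k * TT R.C f i ω - 2 ^ R.C.rk k * TT R.C f i ω1 -
              2 ^ R.C.rk k * (rho R.C f i ω1 * (R.κ ω - R.κ ω1) + (R.C.F f ω1).al * (R.tW ω - R.tW ω1)) =
              2 ^ R.C.rk k * (TT R.C f i ω - TT R.C f i ω1 -
                (rho R.C f i ω1 * (R.κ ω - R.κ ω1) + (R.C.F f ω1).al * (R.tW ω - R.tW ω1))) := by ring
          rw [e, abs_mul, abs_of_pos (by positivity)]
          calc (2 : ℝ) ^ R.C.rk k * _ ≤ 2 ^ R.C.rk k * (16 * K ^ 6 * q2 (R.C.rk f + 8 * R.C.μ)) :=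
                mul_le_mul_of_nonneg_left hrel (by positivity)
            _ = 16 * K ^ 6 * (2 ^ R.C.rk k * q2 (R.C.rk k)) * q2 (8 * R.C.μ) := by rw [hrk, q2_add]; ring
            _ = _ := by rw [q2_mul_pow, mul_one])
        (S_tW h hi (by have := R.C.ha hkj; omega) hω) (by positivity)
      have hfin : K ^ 2 * q2 (R.C.rk k) * (q2 (2 * g) / q2 g + 16 * K ^ 6 * q2 (8 * R.C.μ) +
          4 * K ^ 3 / q2 g * q2 (8 * R.C.μ)) ≤ q2 (R.rI q + R.m) := by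
        have g1 : q2 (2 * g) / q2 g = q2 g := by
          rw [two_mul, q2_add]
          have := q2_pos g
          field_simp
        have g2 : 4 * K ^ 3 / q2 g = 4 * K ^ 3 * 2 ^ g := by
          have := q2_mul_pow g
          have h0 := (q2_pos g).ne'
          rw [div_eq_iff h0]
          linear_combination (-4 * K ^ 3) * this
        rw [g1, g2]
        linarith
      have hmem : |R.κ ω - ((x (R.Z q ω, R.C.cell q b0 ω)).1 + (x (R.Z q ω, R.C.cell q b0 ω)).2 * R.tW ω)| ≤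
          q2 (R.rI q + R.m) := by
        have e : x (R.Z q ω, R.C.cell q b0 ω) = x (Y ω) := rfl
        rw [e, hx]
        exact hres.trans hfin
      rw [Law.ind_of hE, Law.ind_of hmem]
    · rw [Law.ind_not hE]
      exact H683.lind_nonneg _
  linarith

end line

end Vale.Agent.P106.U.H931
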