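import Vale.Agent.P106.U.H931.SEn
import Vale.Agent.P106.U.H357.HV
import Vale.Agent.P106.U.H457.SC0R
import Vale.Agent.P106.U.MIC.Stage

/-!
# P106 / U / H931 : the collisions of the heavy row at the old levels (helper931)

* `XEo N a E` : a-steps whose reading step `nx (j + 1)` is missing or bad;  `card_XEo` : at most `#E + 1`.
* `cY_o` : `cYL ≤ 4 √((2 Nn + 3) ε) + 2 ε + 3 P(Bad)` at every index, both regimes.
* `cT_o` : `cTL ≤ √((2 K' + 3) ε)` with a good time step.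
* **`cc_run`** : the sum over one record;  **`cc_O`** : over `St` in the order of the constants.
-/

set_option autoImplicit false

namespace Vale.Agent.P106.U.H931

open Finset Filter Vale.Agent.P127 Vale.Agent.P127.Stk Vale.Agent.P127.U Vale.Agent.P106.W Vale.Agent.P106.U
open Vale.Agent.P106.K (Ry RyOk bl Bin)
open Vale.Agent.P127.U.CellD (q2 q2_pos)
open Vale.Agent.P127.U.Mic (colp colp_nonneg)
open Vale.Agent.P106.U.Cell (Pth)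
open Vale.Agent.P106.U.S3 (Run Pf F2o)
open Vale.Agent.P106.U.S5
open Vale.Agent.P106.U.H101 (lc low low_ok low_cap good_low)
open Vale.Agent.P106.U.H118 (Sdat)
open Vale.Agent.P106.U.H823
open Vale.Agent.P106.U.H357 (cTL cYL cTL_le cYL_le cYL_kap cTL_nonneg cYL_nonneg)
open Vale.Agent.P106.U.MIC (bc ix nz az WordOk St eG gdR)
open Vale.Agent.P106.U.H652 (Ev3 ev_con)

open Classical in
/-- a-steps whose reading step is missing or bad -/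
noncomputable def XEo (N : ℕ) (a : ℕ → ℕ) (E : Finset ℕ) : Finset ℕ :=
  (range N).filter fun j => a (j + 1) = a j + 1 ∧ (nx N a (j + 1) = N ∨ nx N a (j + 1) ∈ E)

theorem card_XEo {N : ℕ} {g : ℕ → Prop} {a r : ℕ → ℕ} (D : Sdat N g a r) (E : Finset ℕ) :
    (XEo N a E).card ≤ E.card + 1 := by
  classical
  have h1 : (XEo N a E).card ≤ (insert N E).card := by
    refine Finset.card_le_card_of_injOn (fun j => nx N a (j + 1)) ?_ ?_
    · intro j hj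
      rw [Finset.mem_coe] at hj ⊢
      unfold XEo at hj
      rw [Finset.mem_filter] at hj
      rw [Finset.mem_insert]
      exact hj.2.2
    · intro i hi j hj e
      rw [Finset.mem_coe] at hi hj
      unfold XEo at hi hj
      rw [Finset.mem_filter, Finset.mem_range] at hi hj
      have key : ∀ i j, i < j → j < N → a (j + 1) = a j + 1 → nx N a (i + 1) ≠ nx N a (j + 1) := by
        intro i j hij hj ha e
        have h1 := le_nx (n := N) (a := a) (by omega : j + 1 ≤ N)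
        have h2 := nx_const D (j := i + 1) (x := j + 1) (by omega) (by omega)
        have h3 := nx_const D (j := i + 1) (x := j) (by omega) (by omega)
        omega
      rcases lt_trichotomy i j with h | h | h
      · exact absurd e (key i j h hj.1 hj.2.1)
      · exact h
      · exact absurd e.symm (key j i h hi.1 hi.2.1)
  exact h1.trans (Finset.card_insert_le _ _)

section pt

variable {Ω : Type} [Fintype Ω] {τ υ : Type} {R : Run Ω τ υ} {p : Run.Num} {K c' g' gU : ℝ}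

/-- **time** -/
theorem cT_o (h : R.Ok p K c' g' gU) {ε : ℝ} {b b' q k g : ℕ} (G : R.Good p ε b q) (hkq : k ≤ q)
    (hq : q ≤ R.n + p.J) (ha : R.C.a k = R.C.a q) (hmg : R.m ≤ g) {M : ℕ} (hM : K ≤ M) :
    cTL R.Q R.C b' k g ≤ Real.sqrt (((2 * M + 3 : ℕ) : ℝ) * ε) :=
  (cTL_le R.Q R.C b' k g).trans (cT_le h G hkq hq ha hmg hM)

/-- **direction**, both regimes -/
theorem cY_o (h : R.Ok p K c' g' gU) (hK : 1 ≤ K) {c : ℝ} (hc : 1 ≤ c)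
    (hlb : ∀ ω, 0 < R.Q.w ω → LbOk c R.L R.h (R.W ω) (R.ry ω) (R.t ω) ∧ (R.W ω).u2 = 1 ∧
      (R.W ω).u1 = (1 / 2 : ℝ) ^ R.q) {B : ℕ} {ε : ℝ} (cap : R.Cap p B ε) {k g : ℕ} (L : Lv R p K c k)
    (hg : R.m ≤ g) {Nn : ℕ} (hNn : 40 * ((3 * K) ^ 5 * (6 * c ^ 2 * K)) + 2 * K ≤ Nn) {K'' : ℝ} (hK'' : cB K c ≤ K'') :
    cYL R.Q R.C (R.m * R.b1) k g ≤ 4 * Real.sqrt (((2 * Nn + 3 : ℕ) : ℝ) * ε) + 2 * ε +
      3 * prE R.Q (R.C.Bad K'' k (R.m * R.b1)) := by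
  have hε0 : 0 ≤ ε := (colp_nonneg R.Q _ _).trans cap.act
  have hWS : ∀ ω, 0 < R.Q.w ω → Shp c 0 R.q (R.W ω) ∧ Bin c (R.W ω) 0 (bl R.h (R.ry ω) (R.t ω)) := by
    intro ω hω
    obtain ⟨l1, l2, l3⟩ := hlb ω hω
    exact ⟨⟨by rw [l2, pow_zero], l3, l1.α2, l1.κ2⟩, l1.inn⟩
  have hsq : 0 ≤ Real.sqrt (((2 * Nn + 3 : ℕ) : ℝ) * ε) := Real.sqrt_nonneg _
  have hBm : prE R.Q (R.C.Bad (cB K c) k (R.m * R.b1)) ≤ prE R.Q (R.C.Bad K'' k (R.m * R.b1)) :=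
    H457.prE_mono' R.Q fun ω _ hb => Pth.Bad_mono hK'' hb
  rcases Nat.lt_or_ge (R.m * R.b1 + R.C.rk k) (R.C.rf k) with hr | hr
  · rw [cYL_kap R.Q hr]
    have h1 := cY_cell h hK hc hlb cap L hg
    linarith
  · refine (cYL_le R.Q R.C (R.m * R.b1) k g).trans ?_
    have h1 := H122.cY_run h hK hc hWS L.le L.lev hr L.rk L.a L.A L.q L.b hNn cap.act hg
    have h2 : prE R.Q (R.C.Bad (4 * H364.N4.cst (3 * K) (6 * c ^ 2 * K)) k (R.m * R.b1)) ≤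
        prE R.Q (R.C.Bad K'' k (R.m * R.b1)) := hBm
    linarith

end pt

section run

variable {σ : Cst} {ε : ℝ} {ρ : Thr} {m B : ℕ} {Ω : Type} [Fintype Ω] {Q : Law Ω} {l : Ω → Ry} {t : Ω → ℝ}
  {L h q r0 Rn : ℕ} {W : Ω → Cbx} {τ υ : Type} {R : Run Ω τ υ} {pn : Run.Num} {g' gU e κ₀ : ℝ} {a1 r1 : ℕ}

/-- **one a-step** with a good reading step -/
theorem cc_step (H : RunOk σ ε ρ m B Q l t L h q r0 Rn W R pn g' gU e κ₀ a1 r1) (hσ : σ.Ok) (hρ : ρ.Ok) (hε : 0 ≤ ε)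
    (hlb : ∀ ω, 0 < Q.w ω → LbOk 100 L h (W ω) (l ω) (t ω) ∧ (W ω).u2 = 1 ∧ (W ω).u1 = (1 / 2 : ℝ) ^ q)
    (hB : (3 * ρ.K) ^ 2 * (6 * 100 ^ 2 * ρ.K) ≤ 2 ^ B) {μ : ℕ} (o : Fin 7 → ℝ) (hμ : μ ≤ R.C.μ) {K'' : ℝ}
    (hK'' : (100 * ρ.K) ^ 20 ≤ K'') {g : ℕ} (hg : m ≤ g) {k i : ℕ} (hki : k ≤ i) (hi : i ≤ R.n) {b0 : ℕ}
    (G : R.Good pn (eG ε ρ) b0 i) (ha : R.C.a k = R.C.a i) :
    cTL R.Q (lc R.C μ o) (R.m * R.b1) k g + cYL R.Q (lc R.C μ o) (R.m * R.b1) k g ≤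
      e1S ε ρ + (A0S ε ρ g + A1S ρ * prE R.Q ((lc R.C μ o).Bad K'' k (bc R))) := by
  have hK := hρ.K1
  have hgm : (low R μ o).m ≤ g := by
    show R.m ≤ g
    rw [H.hm]
    exact hg
  have hG : (low R μ o).Good pn (eG ε ρ) b0 i := (good_low H.ok hμ o b0 b0 (i := i) (by omega)).2 G
  have h1 := cT_o (low_ok o hμ H.ok) (b' := R.m * R.b1) hG hki (show i ≤ R.n + pn.J by omega)
    (show (low R μ o).C.a k = (low R μ o).C.a i from ha) hgm (K_le_Kc ρ)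
  have h2 := cY_o (low_ok o hμ H.ok) hK (c := 100) (by norm_num) (H457.lb_low H hlb μ o) (low_cap o hμ H.cap)
    (lv_of H hσ hρ H.aA H.rm hB o hμ (hki.trans hi)) hgm (Nn_le ρ) ((H457.cB_le hK).trans hK'')
  have h3 : Real.sqrt (((2 * Kc ρ + 3 : ℕ) : ℝ) * eG ε ρ) ≤ e1S ε ρ := by
    refine le_trans (Real.sqrt_le_sqrt ?_) (e1S_1 hε hρ)
    refine mul_le_mul_of_nonneg_left ?_ (Nat.cast_nonneg _)
    have e1 := eG_nonneg hε hρ
    have e2 : (1 : ℝ) ≤ 2 * ((Kc ρ + 1 : ℕ) : ℝ) + 1 := by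
      have : (0 : ℝ) ≤ ((Kc ρ + 1 : ℕ) : ℝ) := Nat.cast_nonneg _
      linarith
    nlinarith
  have h4 : 3 * prE R.Q ((lc R.C μ o).Bad K'' k (bc R)) ≤ A1S ρ * prE R.Q ((lc R.C μ o).Bad K'' k (bc R)) := by
    refine mul_le_mul_of_nonneg_right ?_ (prE_nonneg _ _)
    unfold A1S
    rw [le_div_iff₀ hρ.c'0]
    have := hρ.c'1
    linarith
  have h5 : 0 ≤ (36 * eG ε ρ + 6 * q2 (2 * g)) / ρ.c' := by
    have e1 := eG_nonneg hε hρ
    have e2 := q2_pos (2 * g)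
    have e3 := hρ.c'0
    positivity
  have h1' : cTL R.Q (lc R.C μ o) (R.m * R.b1) k g ≤ Real.sqrt (((2 * Kc ρ + 3 : ℕ) : ℝ) * eG ε ρ) := h1
  have h2' : cYL R.Q (lc R.C μ o) (R.m * R.b1) k g ≤ 4 * Real.sqrt (((2 * NnS ρ + 3 : ℕ) : ℝ) * ε) + 2 * ε +
      3 * prE R.Q ((lc R.C μ o).Bad K'' k (bc R)) := h2
  unfold A0S
  linarith

/-- **the sum over the a-steps outside `XEo`** -/
theorem cc_run (H : RunOk σ ε ρ m B Q l t L h q r0 Rn W R pn g' gU e κ₀ a1 r1) (hσ : σ.Ok) (hρ : ρ.Ok) (hε : 0 ≤ ε)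
    (hlb : ∀ ω, 0 < Q.w ω → LbOk 100 L h (W ω) (l ω) (t ω) ∧ (W ω).u2 = 1 ∧ (W ω).u1 = (1 / 2 : ℝ) ^ q)
    (hB : (3 * ρ.K) ^ 2 * (6 * 100 ^ 2 * ρ.K) ≤ 2 ^ B) (hJ : (m : ℝ) * (ρ.J + 1) ≤ h) {i0 : ℕ} {E : Finset ℕ} {J0 : ℕ}
    {K2 e2 : ℝ} (hw : WordOk K2 e2 h (m * Real.log 2) J0 (nz R i0) (gdR R pn (eG ε ρ) i0) (az R i0) (MIC.rz R i0) E)
    {π : Type} {bS bV : ℕ} {F : Pf R π} {Vs Xs : Finset ℕ} {μ : ℕ} {K'' : ℝ} {o : Fin 7 → ℝ} {o' : ℕ → ℝ}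
    (Fo : F2o R pn B bS bV F Vs Xs μ K'' o o') (hμ : μ ≤ R.C.μ) (hK'' : (100 * ρ.K) ^ 20 ≤ K'') {g : ℕ} (hg : m ≤ g)
    {κ : ℝ} (hκ : (2 * σ.K1 + 4) * (2 * e1S ε ρ + 2 * A0S ε ρ g + 2 * A1S ρ * (K'' ^ 2 * q2 (μ / 4))) ≤ κ)
    (S : Finset ℕ) (hS : ∀ j ∈ S, j < nz R i0 ∧ az R i0 (j + 1) = az R i0 j + 1 ∧ j ∉ XEo (nz R i0) (az R i0) E) :
    (m : ℝ) * ∑ j ∈ S, (cTL R.Q (lc R.C μ o) (R.m * R.b1) (ix R i0 (j + 1)) g +
      cYL R.Q (lc R.C μ o) (R.m * R.b1) (ix R i0 (j + 1)) g) ≤ κ * h := by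
  classical
  have hP := H.ok.pth
  have D := hw.sd
  have h0 := sc0 H hσ hJ Fo (i0 := i0) (e1S_nonneg hε hρ) (A0S_nonneg hε hρ g) (A1S_nonneg hρ) hκ
  refine le_trans (mul_le_mul_of_nonneg_left ?_ (Nat.cast_nonneg m)) h0
  have hp : ∀ j, 0 ≤ prE R.Q ((lc R.C μ o).Bad K'' (ix R i0 (j + 1)) (bc R)) := fun j => prE_nonneg _ _
  have a0 := e1S_nonneg hε hρ
  have a1 := A0S_nonneg hε hρ g
  have a2 := A1S_nonneg hρ
  have hsub : S ⊆ range (nz R i0) := fun j hj => Finset.mem_range.2 (hS j hj).1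
  refine le_trans (Finset.sum_le_sum fun j hj => ?_) (Finset.sum_le_sum_of_subset_of_nonneg hsub fun j _ _ => ?_)
  · obtain ⟨j1, j2, j3⟩ := hS j hj
    have x1 : nx (nz R i0) (az R i0) (j + 1) ≠ nz R i0 ∧ nx (nz R i0) (az R i0) (j + 1) ∉ E := by
      unfold XEo at j3
      rw [Finset.mem_filter, Finset.mem_range] at j3
      push Not at j3
      exact j3 j1 j2
    have x2 := nx_le (nz R i0) (az R i0) (j + 1)
    have x3 : nx (nz R i0) (az R i0) (j + 1) < nz R i0 := lt_of_le_of_ne x2 x1.1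
    have x4 := nx_spec x3
    have x5 : gdR R pn (eG ε ρ) i0 (nx (nz R i0) (az R i0) (j + 1)) := by
      by_contra hc
      exact x1.2 (hw.hE _ x3 x4 hc)
    have x6 := le_nx (n := nz R i0) (a := az R i0) (by omega : j + 1 ≤ nz R i0)
    have x7 := nx_const D x6 le_rfl
    have y1 : ix R i0 (j + 1) ≤ ix R i0 (nx (nz R i0) (az R i0) (j + 1)) := MIC.ix_mono R i0 x6
    have y2 : ix R i0 (nx (nz R i0) (az R i0) (j + 1)) ≤ R.n := Cmp.idx_le _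
    have y3 : R.C.a (ix R i0 (j + 1)) = R.C.a (ix R i0 (nx (nz R i0) (az R i0) (j + 1))) := by
      rw [H833.lev_a hP (i := ix R i0 (j + 1)) (by omega),
        H833.lev_a hP (i := ix R i0 (nx (nz R i0) (az R i0) (j + 1))) (by omega)]
      have : H833.aN R (ix R i0 (nx (nz R i0) (az R i0) (j + 1))) = H833.aN R (ix R i0 (j + 1)) := x7
      rw [this]
    refine (cc_step H hσ hρ hε hlb hB o hμ hK'' hg y1 y2 x5 y3).trans ?_
    have z1 := hp j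
    have z2 : 0 ≤ A1S ρ * prE R.Q ((lc R.C μ o).Bad K'' (ix R i0 (j + 1)) (bc R)) := mul_nonneg a2 z1
    linarith
  · have z1 := hp j
    positivity

end run

section st

open Vale.Agent.P106.U.MIC (Pre Suf μS KS xS cμ cN)

/-- number of the a-steps of `XEo` -/
theorem XEo_le {η : ℝ} {x : ℕ} {σ : Cst} {ε : ℝ} {ρ : Thr} {g : Gv} {m B h : ℕ} (hε : 0 ≤ ε) (s : St η x σ ε ρ g m B h) :
    (m : ℝ) * (XEo s.N s.a s.E).card ≤ 29 * ε * h + m := by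
  have h1 := card_XEo s.word.sd s.E
  have hl2 : 0.69 ≤ Real.log 2 := by
    have := Real.log_two_gt_d9
    linarith
  have h2 := s.word.cE
  have h3 : (0 : ℝ) ≤ m * s.E.card := by positivity
  have h4 : 0.69 * (m * s.E.card) ≤ 20 * ε * h := by
    calc 0.69 * ((m : ℝ) * s.E.card) ≤ Real.log 2 * (m * s.E.card) := mul_le_mul_of_nonneg_right hl2 h3
      _ = m * Real.log 2 * s.E.card := by ring
      _ ≤ _ := h2
  have h5 : 0 ≤ ε * h := mul_nonneg hε (Nat.cast_nonneg h)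
  have h6 : ((XEo s.N s.a s.E).card : ℝ) ≤ s.E.card + 1 := by exact_mod_cast h1
  have h7 := mul_le_mul_of_nonneg_left h6 (Nat.cast_nonneg m : (0 : ℝ) ≤ m)
  rw [mul_add, mul_one] at h7
  linarith

/-- **[SC] of the heavy row, old levels**, over the situation of a scale -/
theorem cc_O {κ : Bs → ℝ → ℕ → ℝ → ℝ → ℝ} (hκ : ∀ b η x δh e3, 0 < η → 0 < δh → 0 < e3 → 0 < κ b η x δh e3) :
    Pre fun b η x δh e3 σ ε ρ => Suf σ ε fun g m B h => ∀ s : St η x σ ε ρ g m B h, ∀ S : Finset ℕ,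
      (∀ j ∈ S, j < s.N ∧ s.a (j + 1) = s.a j + 1 ∧ j ∉ XEo s.N s.a s.E) →
      (m : ℝ) * ∑ j ∈ S, (cTL s.R.Q (lc s.R.C (μS x m) s.o) (s.R.m * s.R.b1) (s.f (j + 1)) (MIC.gS x m) +
        cYL s.R.Q (lc s.R.C (μS x m) s.o) (s.R.m * s.R.b1) (s.f (j + 1)) (MIC.gS x m)) ≤ κ b η x δh e3 * h := by
  intro b hb η hη x δh e3
  intros
  have hδ : 0 < δh := by assumption
  have he : 0 < e3 := by assumption
  refine ⟨1, one_pos, fun θ _ _ => ⟨1, one_pos, fun δ1 _ _ σ hσe hσ => ?_⟩⟩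
  have hK1 : 0 < σ.K1 := hσ.bs.K10
  have hKb : σ.K1 = b.K1 := by rw [hσe]
  obtain ⟨ε0, hε0, H⟩ := num_sc hK1 (hκ b η x δh e3 hη hδ he)
  refine ⟨ε0, hε0, fun ε hε hε' ρ hρ => Suf.of_ev3 fun g _ => Ev3.out ?_⟩
  have hcN : 1 ≤ 1000 * cN := by
    have : 800 ≤ cN := le_max_left _ _
    omega
  have E1 := H ε hε hε' ρ hρ (KS ρ) (1000 * cN) (xS x) hcN (by unfold xS; omega)
  have E2 : Ev3 fun m B h => 1 ≤ m ∧ (μS x m ≤ B ∧ (3 * ρ.K) ^ 2 * (6 * 100 ^ 2 * ρ.K) ≤ 2 ^ B) ∧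
      (m : ℝ) * (ρ.J + 1) ≤ h := by
    have e1 : Ev3 fun m _ _ => 1 ≤ m := Ev3.of_m (H652.ev_nat 1)
    have e2 : Ev3 fun m B _ => μS x m ≤ B ∧ (3 * ρ.K) ^ 2 * (6 * 100 ^ 2 * ρ.K) ≤ 2 ^ B := Ev3.of_B' fun m =>
      (H652.ev_nat _).and ((tendsto_pow_atTop_atTop_of_one_lt (by norm_num : (1 : ℝ) < 2)).eventually_ge_atTop _)
    have e3 : Ev3 fun m B h => (m : ℝ) * (ρ.J + 1) ≤ 1 * h := Ev3.of_h fun m B => ev_con _ one_pos
    refine (e1.and (e2.and e3)).mono fun m B h p => ⟨p.1, p.2.1, ?_⟩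
    have := p.2.2
    linarith
  refine E1.mono2 E2 fun m B h P1 P2 => ?_
  obtain ⟨m1, ⟨hμ, hB⟩, hJ⟩ := P2
  intro s S hS
  have hg : m ≤ MIC.gS x m := by
    unfold MIC.gS
    exact Nat.le_mul_of_pos_left m (by unfold xS; omega)
  have hμ' : μS x m ≤ s.R.C.μ := by
    rw [s.run.hμ]
    exact hμ.trans (Nat.le_mul_of_pos_left B m1)
  have e4 : 8 * (1000 * cN) * (xS x * m) = μS x m := by
    unfold μS cμ
    ring
  have P1' := P1 (MIC.gS x m) hg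
  rw [e4] at P1'
  exact cc_run s.run hσ hρ hε.le s.nex.lb hB hJ s.word s.f2o hμ' le_rfl hg P1' S hS

end st

end Vale.Agent.P106.U.H931
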