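import Vale.Agent.P106.U.H931.C1
import Vale.Agent.P106.U.H786.E2
import Vale.Agent.P106.U.H480.C1Grow
import Vale.Agent.P106.U.H420.Few
import Vale.Agent.P106.U.H377.C1Lab

/-!
# P106 / U / H931 : `PC1` from the dichotomy `PDich 2` (helper931)

All other blocks are landed: `PFewI`, `PE2` (helper786), `PGrowE` (helper480), `PFew1`, `PFew2` (helper420), `PLabC1`
(helper377).
-/

set_option autoImplicit false

namespace Vale.Agent.P106.U.End7

theorem pC1_of_dich (hD : Vale.Agent.P106.U.EndA.PDich 2) : PC1 :=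
  C1H.pc1_of hD H420.pFew1 H420.pFew2 Vale.Agent.P106.U.H786.pFewI Vale.Agent.P106.U.H786.pE2 Vale.Agent.P106.U.G480E.pGrowE pLabC1

end Vale.Agent.P106.U.End7
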