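import Vale.Agent.P106.U.H833.Psi

/-!
# P106 / U / H931 : the potential with letters which are not functions of the line (helper931)

Interface of helper712 / helper661 (notes 18423, 18745): the cell `C j` is built around the true ray with a letter of the
`W`-side, the side letters of the line are `U j` (exactly nested, they contain the time).

* `e j ≥ H(C (j+1) | C j, l, U (j+1))`, `g j ≥ H(U (j+1) | t (j+1), l, U j)` (nestedness of `U` is not used).
* `psiL i = H(C i) - H((U i, C i) | l, Z0)`; `psiL_sub` : difference `≥ H(C k | C i) - H(C i | C k) - H((U k, C k) | l, U i, C i)`.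
* `cst_le` : `H((U k, C k) | l, U i, C i) ≤ H(t k | l, U i, C i) + ∑ g + ∑ e`.
* `psiL_total`, `psiL_ge`, `psiL_triv`, `psiL_win`, `psiL_rise`.
-/

set_option autoImplicit false

namespace Vale.Agent.P106.U.H931

open Finset Vale.Agent.P127 Vale.Agent.P127.Stk Vale.Agent.P127.U.Cell
open Vale.Agent.P106.U.H118 (two two_supp two_hc two_hc')
open Vale.Agent.P106.U.H833 (hc_le_near rise_tot)

section

variable {Ω : Type} [Fintype Ω] (P : Law Ω) {Λ κ υ ζ τt : Type*}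

/-- the potential -/
noncomputable def psiL (l : Ω → Λ) (Z0 : Ω → ζ) (U : ℕ → Ω → υ) (C : ℕ → Ω → κ) (i : ℕ) : ℝ :=
  P.H (C i) - hc P (fun ω => (U i ω, C i ω)) (fun ω => (l ω, Z0 ω))

/-- differences of the potential -/
theorem psiL_sub (l : Ω → Λ) (Z0 : Ω → ζ) (U : ℕ → Ω → υ) (C : ℕ → Ω → κ) (i k : ℕ) :
    hc P (C k) (C i) - hc P (C i) (C k) - hc P (fun ω => (U k ω, C k ω)) (fun ω => ((U i ω, C i ω), l ω)) ≤
      psiL P l Z0 U C k - psiL P l Z0 U C i := by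
  have h1 : P.H (fun ω => (C k ω, C i ω)) = P.H (fun ω => (C i ω, C k ω)) := by
    refine P.H_congr fun ω ω' => ?_
    simp only [Prod.mk.injEq]
    tauto
  have h2 := hc_le_add P (fun ω => (U k ω, C k ω)) (fun ω => (U i ω, C i ω)) (fun ω => (l ω, Z0 ω))
  have h3 : hc P (fun ω => (U k ω, C k ω)) (fun ω => ((U i ω, C i ω), (l ω, Z0 ω))) ≤
      hc P (fun ω => (U k ω, C k ω)) (fun ω => ((U i ω, C i ω), l ω)) :=
    hc_mono_right P _ fun ω ω' _ _ e => by
      simp only [Prod.mk.injEq] at e ⊢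
      exact ⟨e.1, e.2.1⟩
  have h4 : hc P (C k) (C i) - hc P (C i) (C k) = P.H (C k) - P.H (C i) := by
    unfold hc
    rw [h1]
    ring
  unfold psiL
  linarith

/-- the total -/
theorem psiL_total (l : Ω → Λ) (U : ℕ → Ω → υ) (C : ℕ → Ω → κ) (i0 n : ℕ) :
    psiL P l (fun ω => (U i0 ω, C i0 ω)) U C n - psiL P l (fun ω => (U i0 ω, C i0 ω)) U C i0 -
      hc P (U i0) (fun ω => (l ω, C i0 ω)) ≤ mi P l (C n) (C i0) := by
  have a1 : mi P l (C n) (C i0) = hc P (C n) (C i0) - hc P (C n) (fun ω => (l ω, C i0 ω)) := by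
    rw [mi_symm]; rfl
  have a2 : hc P (fun ω => (U i0 ω, C i0 ω)) (fun ω => (l ω, (U i0 ω, C i0 ω))) = 0 :=
    hc_zero P fun ω ω' _ _ e => congrArg Prod.snd e
  have a3 : hc P (C n) (fun ω => (l ω, C i0 ω)) ≤ hc P (U i0) (fun ω => (l ω, C i0 ω)) +
      hc P (fun ω => (U n ω, C n ω)) (fun ω => (l ω, (U i0 ω, C i0 ω))) := by
    have h := hc_le_add P (C n) (U i0) (fun ω => (l ω, C i0 ω))
    have h1 : hc P (C n) (fun ω => (U i0 ω, (l ω, C i0 ω))) ≤
        hc P (fun ω => (U n ω, C n ω)) (fun ω => (l ω, (U i0 ω, C i0 ω))) :=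
      (hc_mono_left P (X' := fun ω => (U n ω, C n ω)) fun ω ω' _ _ e => by
        simp only [Prod.mk.injEq] at e
        exact e.1.2).trans (hc_mono_right P _ fun ω ω' _ _ e => by
          simp only [Prod.mk.injEq] at e ⊢
          exact ⟨e.2.1, e.1, e.2.2⟩)
    linarith
  have a4 : P.H (C n) - P.H (C i0) ≤ hc P (C n) (C i0) := by
    have h1 : P.H (C n) ≤ P.H (fun ω => (C n ω, C i0 ω)) :=
      H_mono' P fun ω ω' _ _ e => congrArg Prod.fst e
    unfold hc
    linarith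
  unfold psiL
  linarith

/-- **cost of the letters** given the line -/
theorem cst_le (l : Ω → Λ) (U : ℕ → Ω → υ) (C : ℕ → Ω → κ) (t : ℕ → Ω → τt) {e g : ℕ → ℝ} {i k : ℕ} (hik : i ≤ k)
    (ht : ∀ j, Fn P (t j) (t (j + 1)))
    (he : ∀ j, i ≤ j → j < k → hc P (C (j + 1)) (fun ω => (C j ω, (l ω, U (j + 1) ω))) ≤ e j)
    (hg : ∀ j, i ≤ j → j < k → hc P (U (j + 1)) (fun ω => (t (j + 1) ω, (l ω, U j ω))) ≤ g j) :
    hc P (fun ω => (U k ω, C k ω)) (fun ω => ((U i ω, C i ω), l ω)) ≤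
      hc P (t k) (fun ω => (l ω, (U i ω, C i ω))) + ∑ j ∈ Ico i k, (g j + e j) := by
  have htk : ∀ k j, j ≤ k → Fn P (t j) (t k) := by
    intro k
    induction k with
    | zero =>
      intro j hj
      rw [Nat.le_zero.1 hj]
      exact fun _ _ _ _ e => e
    | succ k ih =>
      intro j hj
      rcases Nat.lt_or_ge k j with h | h
      · have : j = k + 1 := by omega
        rw [this]
        exact fun _ _ _ _ e => e
      · exact fun ω ω' h1 h2 e => ih j h ω ω' h1 h2 (ht k ω ω' h1 h2 e)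
  have key : ∀ k, i ≤ k → (∀ j, i ≤ j → j < k → hc P (C (j + 1)) (fun ω => (C j ω, (l ω, U (j + 1) ω))) ≤ e j) →
      (∀ j, i ≤ j → j < k → hc P (U (j + 1)) (fun ω => (t (j + 1) ω, (l ω, U j ω))) ≤ g j) →
      ∀ N, k ≤ N → hc P (fun ω => (U k ω, C k ω)) (fun ω => (t N ω, ((U i ω, C i ω), l ω))) ≤ ∑ j ∈ Ico i k, (g j + e j) := by
    intro k hk
    induction k, hk using Nat.le_induction with
    | base =>
      intro _ _ N _
      rw [Finset.Ico_self, Finset.sum_empty]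
      refine le_of_eq (hc_zero P fun ω ω' _ _ e => ?_)
      simp only [Prod.mk.injEq] at e ⊢
      exact e.2.1
    | succ k hk ih =>
      intro he hg N hN
      rw [Finset.sum_Ico_succ_top hk]
      have h1 := ih (fun j hj hj' => he j hj (by omega)) (fun j hj hj' => hg j hj (by omega)) N (by omega)
      have h2 := hc_le_add P (fun ω => (U (k + 1) ω, C (k + 1) ω)) (fun ω => (U k ω, C k ω))
        (fun ω => (t N ω, ((U i ω, C i ω), l ω)))
      have h3 := hc_pair P (U (k + 1)) (C (k + 1)) (fun ω => ((U k ω, C k ω), (t N ω, ((U i ω, C i ω), l ω))))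
      have h4 : hc P (U (k + 1)) (fun ω => ((U k ω, C k ω), (t N ω, ((U i ω, C i ω), l ω)))) ≤ g k := by
        refine le_trans (hc_mono_right P _ fun ω ω' p p' e => ?_) (hg k hk (Nat.lt_succ_self k))
        simp only [Prod.mk.injEq] at e ⊢
        exact ⟨htk N (k + 1) hN ω ω' p p' e.2.1, e.2.2.2, e.1.1⟩
      have h5 : hc P (C (k + 1)) (fun ω => (U (k + 1) ω, ((U k ω, C k ω), (t N ω, ((U i ω, C i ω), l ω))))) ≤ e k := by
        refine le_trans (hc_mono_right P _ fun ω ω' p p' e => ?_) (he k hk (Nat.lt_succ_self k))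
        simp only [Prod.mk.injEq] at e ⊢
        exact ⟨e.2.1.2, e.2.2.2.2, e.1⟩
      linarith
  have h1 := key k hik he hg k le_rfl
  have h2 := hc_le_add P (fun ω => (U k ω, C k ω)) (t k) (fun ω => ((U i ω, C i ω), l ω))
  have h3 : hc P (t k) (fun ω => ((U i ω, C i ω), l ω)) ≤ hc P (t k) (fun ω => (l ω, (U i ω, C i ω))) :=
    hc_mono_right P _ fun ω ω' _ _ e => by
      simp only [Prod.mk.injEq] at e ⊢
      exact ⟨e.2, e.1.1, e.1.2⟩
  linarith

/-- the time in the cell pays for the time given the line -/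
theorem psiL_ge (l : Ω → Λ) (Z0 : Ω → ζ) (U : ℕ → Ω → υ) (C : ℕ → Ω → κ) (t : ℕ → Ω → τt) {τT : Type*} (τk : Ω → τT)
    {e g : ℕ → ℝ} {i k : ℕ} (hik : i ≤ k)
    (ht : ∀ j, Fn P (t j) (t (j + 1)))
    (htτ : Fn P (t k) τk) (hτC : Fn P τk (C k))
    (he : ∀ j, i ≤ j → j < k → hc P (C (j + 1)) (fun ω => (C j ω, (l ω, U (j + 1) ω))) ≤ e j)
    (hg : ∀ j, i ≤ j → j < k → hc P (U (j + 1)) (fun ω => (t (j + 1) ω, (l ω, U j ω))) ≤ g j) :
    hc P (C k) (fun ω => (τk ω, C i ω)) - hc P (C i) (C k) - ∑ j ∈ Ico i k, (g j + e j) ≤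
      psiL P l Z0 U C k - psiL P l Z0 U C i := by
  have h0 := psiL_sub P l Z0 U C i k
  have h1 := cst_le P l U C t hik ht he hg
  have h2 : hc P (t k) (fun ω => (l ω, (U i ω, C i ω))) ≤ hc P (t k) (C i) :=
    hc_mono_right P _ fun ω ω' _ _ e => by
      simp only [Prod.mk.injEq] at e
      exact e.2.2
  have h3 : hc P (C k) (C i) = hc P (t k) (C i) + hc P (C k) (fun ω => (t k ω, C i ω)) := by
    rw [← hc_pair P (t k) (C k) (C i)]
    refine hc_congr P ?_ ?_ (fun ω ω' _ _ e => e) (fun ω ω' _ _ e => e)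
    · intro ω ω' _ _ e
      simp only [Prod.mk.injEq] at e
      exact e.1.2
    · intro ω ω' p p' e
      simp only [Prod.mk.injEq] at e
      exact Prod.ext (htτ ω ω' p p' (hτC ω ω' p p' e.1)) e.1
  have h4 : hc P (C k) (fun ω => (τk ω, C i ω)) ≤ hc P (C k) (fun ω => (t k ω, C i ω)) :=
    hc_mono_right P _ fun ω ω' p p' e => by
      simp only [Prod.mk.injEq] at e ⊢
      exact ⟨htτ ω ω' p p' e.1, e.2⟩
  linarith

/-- **trivial piece** -/
theorem psiL_triv (l : Ω → Λ) (Z0 : Ω → ζ) (U : ℕ → Ω → υ) (C : ℕ → Ω → κ) (t : ℕ → Ω → τt)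
    {e g : ℕ → ℝ} {i k : ℕ} (hik : i ≤ k)
    (ht : ∀ j, Fn P (t j) (t (j + 1)))
    (htC : Fn P (t k) (C k))
    (he : ∀ j, i ≤ j → j < k → hc P (C (j + 1)) (fun ω => (C j ω, (l ω, U (j + 1) ω))) ≤ e j)
    (hg : ∀ j, i ≤ j → j < k → hc P (U (j + 1)) (fun ω => (t (j + 1) ω, (l ω, U j ω))) ≤ g j) :
    - hc P (C i) (C k) - ∑ j ∈ Ico i k, (g j + e j) ≤ psiL P l Z0 U C k - psiL P l Z0 U C i := by
  have h := psiL_ge P l Z0 U C t (t k) hik ht (fun _ _ _ _ e => e) htC he hg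
  have h1 := hc_nonneg P (C k) (fun ω => (t k ω, C i ω))
  linarith

variable {θ α : Type*}

/-- **light window** `[i, k]` : positions `A j` read at the later time, letter `Θ` of the later step -/
theorem psiL_win (l : Ω → Λ) (Z0 : Ω → ζ) (U : ℕ → Ω → υ) (C : ℕ → Ω → κ) (t : ℕ → Ω → τt) {τT : Type*} (τk : Ω → τT)
    (Θ : Ω → θ) (A : ℕ → Ω → α) {i k : ℕ} (hik : i ≤ k) {cC cJ : ℝ} {s c ν e g : ℕ → ℝ}
    (ht : ∀ j, Fn P (t j) (t (j + 1)))
    (htτ : Fn P (t k) τk) (hτC : Fn P τk (C k)) (hτΘ : Fn P τk Θ)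
    (he : ∀ j, i ≤ j → j < k → hc P (C (j + 1)) (fun ω => (C j ω, (l ω, U (j + 1) ω))) ≤ e j)
    (hg : ∀ j, i ≤ j → j < k → hc P (U (j + 1)) (fun ω => (t (j + 1) ω, (l ω, U j ω))) ≤ g j)
    (hCC : hc P (C i) (C k) ≤ cC)
    (hJ : hc P (A k) (fun ω => (Θ ω, C k ω)) ≤ cJ)
    (hA : ∀ j, i ≤ j → j < k → hc P (A j) (fun ω => (A (j + 1) ω, Θ ω)) ≤ c j)
    (hν : ∀ j, i ≤ j → j < k → hc P (C i) (C (j + 1)) ≤ ν j)
    (hs : ∀ j, i ≤ j → j < k → s j ≤ hc P (A (j + 1)) (fun ω => (A j ω, (C (j + 1) ω, Θ ω)))) :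
    ∑ j ∈ Ico i k, (s j - c j - ν j) - cJ - cC - ∑ j ∈ Ico i k, (g j + e j) ≤
      psiL P l Z0 U C k - psiL P l Z0 U C i := by
  have h0 := psiL_ge P l Z0 U C t τk hik ht htτ hτC he hg
  set Y : Ω → κ × θ := fun ω => (C i ω, Θ ω) with hY
  have h1 : hc P (C k) Y ≤ hc P (C k) (fun ω => (τk ω, C i ω)) := by
    refine hc_mono_right P _ fun ω ω' p p' e => ?_
    have e1 := congrArg Prod.fst e
    have e2 := congrArg Prod.snd e
    exact Prod.ext (hτΘ ω ω' p p' e2) e1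
  have h2 : hc P (A k) Y ≤ hc P (C k) Y + hc P (A k) (fun ω => (Θ ω, C k ω)) := by
    have h3 := hc_le_add P (A k) (C k) Y
    have h4 : hc P (A k) (fun ω => (C k ω, Y ω)) ≤ hc P (A k) (fun ω => (Θ ω, C k ω)) := by
      refine hc_mono_right P _ fun ω ω' _ _ e => ?_
      simp only [hY, Prod.mk.injEq] at e ⊢
      exact ⟨e.2.2, e.1⟩
    linarith
  have h3 : ∑ j ∈ Ico i k, (s j - c j - ν j) ≤ hc P (A k) Y := by
    have key : ∀ k, i ≤ k → (∀ j, i ≤ j → j < k →
        hc P (A j) (fun ω => (A (j + 1) ω, Θ ω)) ≤ c j ∧ hc P (C i) (C (j + 1)) ≤ ν j ∧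
        s j ≤ hc P (A (j + 1)) (fun ω => (A j ω, (C (j + 1) ω, Θ ω)))) →
        ∑ j ∈ Ico i k, (s j - c j - ν j) ≤ hc P (A k) Y := by
      intro k hk
      induction k, hk using Nat.le_induction with
      | base =>
        intro _
        simpa using hc_nonneg P (A i) Y
      | succ k hk ih =>
        intro h
        rw [Finset.sum_Ico_succ_top hk]
        have g1 := ih fun j hj hj' => h j hj (by omega)
        obtain ⟨g2, g3, g4⟩ := h k hk (Nat.lt_succ_self k)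
        have g5 : hc P (A (k + 1)) Y - hc P (A k) Y =
            hc P (A (k + 1)) (fun ω => (A k ω, Y ω)) - hc P (A k) (fun ω => (A (k + 1) ω, Y ω)) := by
          have f1 := hc_pair P (A k) (A (k + 1)) Y
          have f2 := hc_pair P (A (k + 1)) (A k) Y
          have f3 : hc P (fun ω => (A k ω, A (k + 1) ω)) Y = hc P (fun ω => (A (k + 1) ω, A k ω)) Y :=
            hc_congr P
              (fun ω ω' _ _ e => by
                simp only [Prod.mk.injEq] at e ⊢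
                exact ⟨e.1.2, e.1.1⟩)
              (fun ω ω' _ _ e => by
                simp only [Prod.mk.injEq] at e ⊢
                exact ⟨e.1.2, e.1.1⟩)
              (fun _ _ _ _ e => e) (fun _ _ _ _ e => e)
          linarith
        have g6 : hc P (A k) (fun ω => (A (k + 1) ω, Y ω)) ≤ c k := by
          refine le_trans (hc_mono_right P _ fun ω ω' _ _ e => ?_) g2
          simp only [hY, Prod.mk.injEq] at e ⊢
          exact ⟨e.1, e.2.2⟩
        have g7 : s k - ν k ≤ hc P (A (k + 1)) (fun ω => (A k ω, Y ω)) := by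
          have f1 := hc_le_near P (A (k + 1)) (C i) (fun ω => (A k ω, (C (k + 1) ω, Θ ω)))
          have f2 : hc P (C i) (fun ω => (A k ω, (C (k + 1) ω, Θ ω))) ≤ hc P (C i) (C (k + 1)) :=
            hc_mono_right P _ fun ω ω' _ _ e => by
              simp only [Prod.mk.injEq] at e
              exact e.2.1
          have f3 : hc P (A (k + 1)) (fun ω => ((A k ω, (C (k + 1) ω, Θ ω)), C i ω)) ≤
              hc P (A (k + 1)) (fun ω => (A k ω, Y ω)) :=
            hc_mono_right P _ fun ω ω' _ _ e => by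
              simp only [hY, Prod.mk.injEq] at e ⊢
              exact ⟨e.1.1, e.2, e.1.2.2⟩
          linarith
        linarith
    exact key k hik fun j hj hj' => ⟨hA j hj hj', hν j hj hj', hs j hj hj'⟩
  linarith

/-- **heavy interval** `[i, i']` : copies given `(l, U i, C i)` -/
theorem psiL_rise {σ χ τ : Type*} (l : Ω → Λ) (Z0 : Ω → ζ) (U : ℕ → Ω → υ) (C : ℕ → Ω → κ) (t : ℕ → Ω → τt)
    {e' g : ℕ → ℝ} {i i' : ℕ} (hik : i ≤ i')
    (ht : ∀ j, Fn P (t j) (t (j + 1)))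
    (he' : ∀ j, i ≤ j → j < i' → hc P (C (j + 1)) (fun ω => (C j ω, (l ω, U (j + 1) ω))) ≤ e' j)
    (hg : ∀ j, i ≤ j → j < i' → hc P (U (j + 1)) (fun ω => (t (j + 1) ω, (l ω, U j ω))) ≤ g j)
    (S : ℕ → Ω → σ) (X : ℕ → Ω → χ) (T' : ℕ → Ω → τ) (N : ℕ) {c0 cC ct : ℝ} {ν e : ℕ → ℝ}
    (hCC : hc P (C i) (C i') ≤ cC)
    (hct : hc P (t i') (fun ω => (l ω, (U i ω, C i ω))) ≤ ct)
    (h0 : hc P (C i) (S 0) ≤ c0)
    (h1 : ∀ w < N, hc P (S w) (S (w + 1)) ≤ ν w)
    (h2 : ∀ w < N, Fn P (fun ω => (T' w ω, X w ω)) (S (w + 1)))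
    (he : ∀ w < N, hc (two P fun ω => (l ω, (U i ω, C i ω))) (fun p => X w p.fst)
      (fun p => (C i' p.snd, (T' w p.fst, S w p.fst))) ≤ e w) :
    ∑ w ∈ range N, (hc P (X w) (fun ω => (T' w ω, S w ω)) - e w - ν w) - c0 - cC - ct -
      ∑ j ∈ Ico i i', (g j + e' j) ≤ psiL P l Z0 U C i' - psiL P l Z0 U C i := by
  have h3 := psiL_sub P l Z0 U C i i'
  have h4 := cst_le P l U C t hik ht he' hg
  have h := rise_tot P (fun ω => (l ω, (U i ω, C i ω))) (C i) (C i') S X T' N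
    (fun ω ω' _ _ e => by
      simp only [Prod.mk.injEq] at e
      exact e.2.2) h0 h1 h2 he
  linarith

end

end Vale.Agent.P106.U.H931
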