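import Vale.Agent.P106.U.H931.SE0
import Vale.Agent.P106.U.MIC.Stage

/-!
# P106 / U / H931 : [SE2x], the whole error of one kind of steps, general constants (helper931)

As `ev_se0`, with an arbitrary constant `C0` in place of `cc (c0 + 1)`, an arbitrary factor `c2 ≥ 0` of the collisions, the scale
`x` of the exceptional steps and the scale `y` of the margin apart, bound `η / 400 h`.

* **`ev_seX`** : over `RunOk`;  **`ev_seS`** : over `St`, `y = xS x`.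
-/

set_option autoImplicit false

namespace Vale.Agent.P106.U.H931

open Finset Vale.Agent.P127 Vale.Agent.P127.Stk Vale.Agent.P127.U Vale.Agent.P106.W Vale.Agent.P106.K Vale.Agent.P106.U
open Vale.Agent.P127.U.CellD (q2 q2_pos)
open Vale.Agent.P106.U.S3 (Run Pf F2o)
open Vale.Agent.P106.U.S5
open Vale.Agent.P106.U.H833 (aN RN kN fN lev_a lev_k lev_f lev_R errO)
open Vale.Agent.P106.U.H101 (lc)
open Vale.Agent.P106.U.H823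
open Vale.Agent.P106.U.MIC (bc ix nz az WordOk St xS)
open Vale.Agent.P106.U.H652 (Ev3 err1 ev_kind ev_con)

/-- **[SE2x]** : constants `c2`, `η`, `K1` → `κ` → (`C0`, `e`, `c`, `x`, `y`, `L1`, ..) → `m` → `B` → `h` -/
theorem ev_seX {K1 η c2 : ℝ} (hK1 : 0 < K1) (hη : 0 < η) (hc2 : 0 ≤ c2) :
    ∃ κ : ℝ, 0 < κ ∧ ∀ (C0 : ℝ), 0 ≤ C0 → ∀ {e c x y : ℕ}, 2 * e < c → 1 ≤ y → 768 * (2 * K1 + 4) / η ≤ x →
      ∀ (L1 : ℕ) (A0 C D K' : ℝ) (X1 : ℕ → ℕ → ℝ), 0 ≤ A0 → 0 ≤ C → 0 ≤ D → 0 ≤ K' → Ev3 fun m B h =>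
        ∀ (σ : Cst) (ε : ℝ) (ρ : Thr) (Ω : Type) [Fintype Ω] (Q : Law Ω) (l : Ω → Ry) (t : Ω → ℝ) (L q r0 Rn : ℕ)
          (W : Ω → Cbx) (τ υ : Type) (R : Run Ω τ υ) (pn : Run.Num) (g' gU e' κ₀ : ℝ) (a1 r1 : ℕ), σ.Ok → σ.K1 = K1 → 0 ≤ ε →
          174000 * ε ≤ η / 10 →
          RunOk σ ε ρ m B Q l t L h q r0 Rn W R pn g' gU e' κ₀ a1 r1 → ∀ (i0 : ℕ) (gd : ℕ → Prop) (E : Finset ℕ) (J0 : ℕ)
          (K2 : ℝ), WordOk K2 (20 * ε) h (m * Real.log 2) J0 (nz R i0) gd (az R i0) (MIC.rz R i0) E →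
          ∀ A : ℝ, 0 ≤ A → A ≤ A0 * 2 ^ (e * (y * m)) → ∀ (coll : ℕ → ℝ) (I1 I2 : ℕ → ℕ → ℝ), (∀ j k, 0 ≤ I1 j k) →
          (∀ j k, 0 ≤ I2 j k) → (m : ℝ) * ∑ j ∈ range (nz R i0), coll j ≤ κ * h →
          ∑ j ∈ range (nz R i0), ∑ k ∈ Ioc j (j + L1), I1 j k ≤ D * ((h : ℝ) / B) +
            K' * (m + (8 * c * (y * m) : ℕ) + 1) * q2 (8 * c * (y * m) / 8) * (C * ((h : ℝ) / m)) + X1 m B →
          ∑ j ∈ range (nz R i0), ∑ k ∈ Ioc j (j + L1), I2 j k ≤ D * ((h : ℝ) / B) +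
            K' * (m + (8 * c * (y * m) : ℕ) + 1) * q2 (8 * c * (y * m) / 8) * (C * ((h : ℝ) / m)) + X1 m B →
          ∑ j ∈ range (nz R i0), errO C0 c2 m A 3 L1 coll I1 I2
            (XN x (nz R i0) (az R i0) (MIC.rz R i0) E) j ≤ η / 400 * h := by
  obtain ⟨κ, e0, hκ, he0, H⟩ := ev_kind (K := 2 * K1 + 4) (τ := η / 4000) (c' := c2) (xx := 3) (l := 1) (by positivity)
    (by positivity) hc2 (by norm_num) one_pos
  refine ⟨κ, hκ, fun C0 hC0 e c x y hec hy hxl L1 A0 C D K' X1 hA0 hC hD hK' => ?_⟩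
  have H1 := H C0 hC0 hec hy L1 A0 C D K' X1 hA0 hC hD hK'
  have H2 : Ev3 fun m B h => 3 * (m : ℝ) ≤ η / 10000 * h := Ev3.of_h fun m B => ev_con _ (by positivity)
  refine H1.mono2 H2 fun m B h P1 P2 => ?_
  intro σ ε ρ Ω _ Q l t L q r0 Rn W τ υ R pn g' gU e' κ₀ a1 r1 hσ hσK hε hε' HR i0 gd E J0 K2 hw A hA hAA coll I1 I2 hI1 hI2
    hcoll s1 s2
  have hx1 : 768 * (2 * σ.K1 + 4) / η ≤ x := by
    rw [hσK]
    exact hxl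
  have hXN := xn_le HR hσ hε hη hx1 hw
  have hn := nz_le HR (i0 := i0)
  rw [hσK] at hn
  have hh0 : (0 : ℝ) ≤ h := Nat.cast_nonneg h
  have key := P1 (nz R i0) (by rw [mul_one]; nlinarith) A hA hAA coll I1 I2 ∅ hI1 hI2 (by rw [mul_one]; exact hcoll) s1 s2
    (by rw [Finset.card_empty]; simp only [Nat.cast_zero, mul_zero]; positivity)
  rw [mul_one] at key
  have e1 : ∑ j ∈ range (nz R i0), errO C0 c2 m A 3 L1 coll I1 I2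
      (XN x (nz R i0) (az R i0) (MIC.rz R i0) E) j =
      ∑ j ∈ range (nz R i0), err1 C0 c2 m A 3 L1 coll I1 I2 ∅ j +
        3 * m * ∑ j ∈ range (nz R i0), (if j ∈ XN x (nz R i0) (az R i0) (MIC.rz R i0) E then (1 : ℝ) else 0) := by
    rw [Finset.mul_sum, ← Finset.sum_add_distrib]
    exact Finset.sum_congr rfl fun j _ => errO_split _ _ _ _ _ _ _ _ _ _ j
  have e2 := sum_ind_le (nz R i0) (XN x (nz R i0) (az R i0) (MIC.rz R i0) E)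
  have e3 := mul_le_mul_of_nonneg_left e2 (show (0 : ℝ) ≤ 3 * m by positivity)
  rw [e1]
  have e4 : 174 * ε * h ≤ η / 10000 * h := mul_le_mul_of_nonneg_right (by linarith) hh0
  have e5 : 0 ≤ η * h := by positivity
  linarith

/-- **[SE2x] over the situation of a scale** -/
theorem ev_seS {K1 η c2 : ℝ} (hK1 : 0 < K1) (hη : 0 < η) (hc2 : 0 ≤ c2) :
    ∃ κ : ℝ, 0 < κ ∧ ∀ (C0 : ℝ), 0 ≤ C0 → ∀ {e c x : ℕ}, 2 * e < c → 768 * (2 * K1 + 4) / η ≤ x →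
      ∀ (L1 : ℕ) (A0 C D K' : ℝ) (X1 : ℕ → ℕ → ℝ), 0 ≤ A0 → 0 ≤ C → 0 ≤ D → 0 ≤ K' → Ev3 fun m B h =>
        ∀ (σ : Cst) (ε : ℝ) (ρ : Thr) (g : Gv), σ.Ok → σ.K1 = K1 → 0 ≤ ε → 174000 * ε ≤ η / 10 →
          ∀ (s : St η x σ ε ρ g m B h) (A : ℝ), 0 ≤ A → A ≤ A0 * 2 ^ (e * (xS x * m)) →
          ∀ (coll : ℕ → ℝ) (I1 I2 : ℕ → ℕ → ℝ), (∀ j k, 0 ≤ I1 j k) → (∀ j k, 0 ≤ I2 j k) →
          (m : ℝ) * ∑ j ∈ range s.N, coll j ≤ κ * h →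
          ∑ j ∈ range s.N, ∑ k ∈ Ioc j (j + L1), I1 j k ≤ D * ((h : ℝ) / B) +
            K' * (m + (8 * c * (xS x * m) : ℕ) + 1) * q2 (8 * c * (xS x * m) / 8) * (C * ((h : ℝ) / m)) + X1 m B →
          ∑ j ∈ range s.N, ∑ k ∈ Ioc j (j + L1), I2 j k ≤ D * ((h : ℝ) / B) +
            K' * (m + (8 * c * (xS x * m) : ℕ) + 1) * q2 (8 * c * (xS x * m) / 8) * (C * ((h : ℝ) / m)) + X1 m B →
          ∑ j ∈ range s.N, errO C0 c2 m A 3 L1 coll I1 I2 (XN x s.N s.a s.r s.E) j ≤ η / 400 * h := by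
  obtain ⟨κ, hκ, H⟩ := ev_seX hK1 hη hc2
  refine ⟨κ, hκ, fun C0 hC0 e c x hec hxl L1 A0 C D K' X1 hA0 hC hD hK' => ?_⟩
  refine (H C0 hC0 (y := xS x) hec (by unfold xS; omega) hxl L1 A0 C D K' X1 hA0 hC hD hK').mono fun m B h P => ?_
  intro σ ε ρ g hσ hσK hε hε' s A hA hAA coll I1 I2 hI1 hI2 hcoll s1 s2
  exact P σ ε ρ s.Ω s.Q s.l s.t s.L s.q s.r0 s.Rn s.W s.τ s.υ s.R s.pn s.g' s.gU s.e s.κ₀ s.a1 s.r1 hσ hσK hε hε' s.run s.i0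
    _ s.E ρ.J (2 * σ.K1 + 4) s.word A hA hAA coll I1 I2 hI1 hI2 hcoll s1 s2

end Vale.Agent.P106.U.H931
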